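import Vale.Agent.P235G.E1.Cut3

/-! P235G, block E1: cutting a surface graph along paths of a spanning tree (helper57). -/

set_option linter.all false

namespace Vale.Agent.P235G.Cut

open Vale.Agent.P235 Vale.Agent.P235.ST.H645 Equiv

variable {V : Type} {G : SimpleGraph V}

theorem refl_fix {α : Type} [Finite α] {φ : Perm α} {κ : α → α} (h : ∀ e, φ (κ (φ e)) = κ e)
    {d : α} (c : φ.SameCycle d (κ d)) : ∃ e, κ e = e ∨ κ e = φ e := by
  obtain ⟨n, -, e⟩ := c.exists_pow_eq'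
  clear c
  induction n using Nat.twoStepInduction generalizing d with
  | zero => exact ⟨d, .inl e.symm⟩
  | one => exact ⟨d, .inr e.symm⟩
  | more n ih _ =>
    refine ih (d := φ d) (φ.injective ?_)
    rw [h, ← e, pow_succ', pow_succ]
    rfl

theorem Sit.refl {σ : Perm G.Dart} {par : V → V} {h : V → ℝ} {Z : Set V} {W : Finset V}
    {L : Finset G.Dart} [Fintype V] [DecidableEq V] [Fintype G.Dart] (S : Sit σ par h Z W L)
    {τ : V → V} {δ : G.Dart → G.Dart} (t1 : ∀ d, (δ d).fst = τ d.fst)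
    (t2 : ∀ d, δ d.symm = (δ d).symm) (t3 : ∀ d, σ (δ (σ d)) = δ d)
    (t4 : ∀ d, Ed par Z L (δ d) ↔ Ed par Z L d) (t5 : ∀ v, τ v ≠ v)
    (t6 : ∀ d : G.Dart, τ d.snd ≠ d.fst) (t7 : ∀ v, τ v ∈ Z ↔ v ∈ Z) {x v : V}
    (a : v ∈ compSet G Z x) : τ v ∉ compSet G Z x := fun b => by
  obtain ⟨d, z0, c0⟩ := S.att (ReachOff.left a)
  have t0 : ∀ d, (δ d).snd = τ d.snd := fun d => by
    rw [show τ d.snd = _ from (t1 d.symm).symm, t2]
    rfl
  have c1 := ind_comp (P := fun u => τ u ∈ compSet G Z x) (fun u w k _ m q =>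
    ReachOff.trans q (.adj (ReachOff.right q) (mt (t7 w).1 (ReachOff.right m)) (by
      have := (δ ⟨(u, w), k⟩).adj
      rwa [t1, t0] at this))) a c0 b
  have cm : ∀ e, aE par Z L (δ e) = δ (aE par Z L e) := fun e => by
    by_cases q : Ed par Z L e
    · rw [aE_pos q, aE_pos ((t4 e).2 q), t2]
    · rw [aE_neg q, aE_neg (mt (t4 e).1 q)]
  have ii : ∀ e, aE par Z L (aE par Z L e) = e := (aE par Z L).right_inv
  obtain ⟨e, k | k⟩ := refl_fix (φ := σ * aE par Z L) (κ := fun e => aE par Z L (δ e))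
    (fun e => by simp only [Perm.mul_apply, ii, t3, cm e]) (d := d) (by
      rw [cm, aE_neg fun q => ReachOff.right c0 (S.ez q.symm)]
      exact S.same z0 (by rwa [t1, t7]) (t0 d ▸ ReachOff.trans (ReachOff.symm c0) c1))
  · by_cases q : Ed par Z L (δ e)
    · rw [aE_pos q] at k
      exact t6 e (by rw [← t0]; nth_rw 2 [← k]; rfl)
    · rw [aE_neg q] at k
      exact t5 e.fst (by rw [← t1, k])
  · rw [cm] at k
    exact t5 _ (by rw [← t1, k, Perm.mul_apply, S.fst])

theorem anc_clo {par : V → V} {W : Finset V} : ∀ v ∈ anc par W, par v ∈ anc par W :=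
  fun _ ⟨w, m, k, e⟩ => ⟨w, m, k + 1, by rw [Function.iterate_succ_apply', e]⟩

theorem anc_gen {par : V → V} {W : Finset V} :
    ∀ v ∈ anc par W, v ∈ W ∨ ∃ u ∈ anc par W, par u = v := by
  rintro _ ⟨w, m, _ | k, rfl⟩
  exacts [.inl m, .inr ⟨_, ⟨w, m, k, rfl⟩, (Function.iterate_succ_apply' _ _ _).symm⟩]

theorem anc_self {par : V → V} {W : Finset V} {v : V} (h : v ∈ W) : v ∈ anc par W := ⟨v, h, 0, rfl⟩

theorem ends {α : Type} (L : Finset α) (f g : α → V) (s t : V) : ∃ W : Finset V,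
    W.card ≤ 2 * L.card + 2 ∧ s ∈ W ∧ t ∈ W ∧ ∀ d ∈ L, f d ∈ W ∧ g d ∈ W := by
  classical
  have := Finset.card_insert_le s (insert t (L.image f ∪ L.image g))
  have := Finset.card_insert_le t (L.image f ∪ L.image g)
  have := Finset.card_union_le (L.image f) (L.image g)
  have := Finset.card_image_le (s := L) (f := f)
  have := Finset.card_image_le (s := L) (f := g)
  refine ⟨insert s (insert t (L.image f ∪ L.image g)), by omega, by simp, by simp, fun d m => ?_⟩
  simp only [Finset.mem_insert, Finset.mem_union]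
  exact ⟨.inr (.inr (.inl (Finset.mem_image_of_mem _ m))),
    .inr (.inr (.inr (Finset.mem_image_of_mem _ m)))⟩

end Vale.Agent.P235G.Cut

namespace Vale.Agent.P235G

open Vale.Agent.P235 Vale.Agent.P235.ST.H645 Equiv Cut

theorem cut : CUT := by
  refine fun g => ⟨4 * g + 6, 48 * g + 73, fun V _ G hc hS par h s t st ps hp => ?_⟩
  classical
  have := Fintype.ofFinite V
  have : Fintype G.Dart := Fintype.ofFinite _
  have rt : ∀ v, par v = v → v = s := fun v e => by_contra fun n => (hp v n).1.ne e.symm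
  rcases hS with ⟨σ, hσ⟩ | ⟨σ, sg, hσ⟩
  · have hp' : ∀ v, par v = v ∨ (G.Adj v (par v) ∧ h (par v) < h v) := fun v =>
      (em (v = s)).imp (fun e => by rw [e, ps]) (hp v)
    obtain ⟨L, hL, cr⟩ := cut1 hc hσ hp' (R := {s}) fun v e => Finset.mem_singleton.2 (rt v e)
    obtain ⟨W, cW, ms, mt, mW⟩ := ends L (·.fst) (·.snd) s t
    have lz : ∀ d ∈ L, d.fst ∈ anc par W ∧ d.snd ∈ anc par W := fun d m =>
      ⟨anc_self (mW d m).1, anc_self (mW d m).2⟩
    rw [Finset.card_singleton] at hL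
    have cL := Finset.card_insert_le (⟨(s, t), st⟩ : G.Dart) L
    refine ⟨W, by omega, ms, mt, fun x hx => ?_⟩
    obtain ⟨U, _, K, o, p, i, P⟩ := Sit.piece (W := W) (L := insert ⟨(s, t), st⟩ L)
      ⟨hc, hσ.fst, hσ.cyc, hp', anc_clo, anc_gen, fun d m => (Finset.mem_insert.1 m).elim
        (fun e => e ▸ ⟨anc_self ms, anc_self mt⟩) (lz d), fun v m => (hp' v).elim
        (fun e => ⟨_, .inr (.inr (.inl (Finset.mem_insert_self _ _))), (rt v e).symm⟩)
        fun k => ⟨⟨(v, par v), k.1⟩, .inl ⟨m, rfl⟩, rfl⟩, ⟨s, anc_self ms⟩,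
        cr _ _ (Finset.subset_insert _ _) anc_clo lz⟩ hx
    exact ⟨U, inferInstance, K, o, p, i, { P with deg := P.deg.trans (by omega) }⟩
  have : Fintype (cover G sg).Dart := Fintype.ofFinite _
  have hs := surf_cover hσ
  have hc' := cover_connected hc hσ.odd
  obtain ⟨q, q1, q2, q3⟩ : ∃ q : V × Bool → V × Bool, (∀ z, (q z).1 = par z.1) ∧
      (∀ z, q (tau z) = tau (q z)) ∧ ∀ z, (z.1 = s ∧ q z = z) ∨
        ((cover G sg).Adj z (q z) ∧ h (q z).1 < h z.1) := by
    refine ⟨fun z => if z.1 = s then z else (par z.1, xor z.2 (sg s(z.1, par z.1))), fun z => ?_,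
      fun z => ?_, fun z => ?_⟩ <;> by_cases e : z.1 = s
    · simp only [if_pos e]
      rw [e, ps]
    · simp only [if_neg e]
    · simp only [if_pos e]
      exact if_pos e
    · simp only [tau, if_neg e, Bool.not_xor]
    · exact .inl ⟨e, if_pos e⟩
    · simp only [if_neg e]
      exact .inr ⟨⟨(hp _ e).1, rfl⟩, (hp _ e).2⟩
  have hq := fun z => (q3 z).imp_left And.right
  obtain ⟨L, hL, cr⟩ := cut1 (h := fun z => h z.1) hc' hs hq (R := {s} ×ˢ Finset.univ)
    fun z e => Finset.mem_product.2 ⟨Finset.mem_singleton.2 (rt z.1 (by rw [← q1, e])),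
      Finset.mem_univ _⟩
  obtain ⟨W, cW, ms, mt, mW⟩ := ends L (·.fst.1) (·.snd.1) s t
  let Z : Set (V × Bool) := {z | z.1 ∈ anc par W}
  have lz : ∀ d ∈ L, d.fst ∈ Z ∧ d.snd ∈ Z := fun d m =>
    ⟨anc_self (mW d m).1, anc_self (mW d m).2⟩
  let L1 := insert ⟨(s, t), st⟩ (L.image fun d => (dartEquiv G sg d).1)
  let L2 := (L1 ×ˢ Finset.univ).map (dartEquiv G sg).symm.toEmbedding
  have m2 : ∀ d, d ∈ L2 ↔ (dartEquiv G sg d).1 ∈ L1 := fun d => by simp [L2]
  have cL : L2.card ≤ 2 * (L.card + 1) := by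
    have := (Finset.card_insert_le (⟨(s, t), st⟩ : G.Dart) _).trans (Nat.succ_le_succ
      (Finset.card_image_le (s := L) (f := fun d => (dartEquiv G sg d).1)))
    simp only [L2, Finset.card_map, Finset.card_product, Finset.card_univ, Fintype.card_bool]
    exact (mul_comm _ _).trans_le (Nat.mul_le_mul_left 2 this)
  have clo : ∀ z ∈ Z, q z ∈ Z := fun z m => by
    show (q z).1 ∈ anc par W
    exact q1 z ▸ anc_clo _ m
  have tq : ∀ y z : V × Bool, y.1 = z.1 → y = z ∨ tau y = z := by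
    rintro ⟨a, _ | _⟩ ⟨b, _ | _⟩ ⟨⟩
    exacts [.inl rfl, .inr rfl, .inr rfl, .inl rfl]
  have S : Sit (rotC sg σ) q (fun z => h z.1) Z (W ×ˢ Finset.univ) L2 := by
    refine ⟨hc', hs.fst, hs.cyc, hq, clo, fun z m => (anc_gen _ m).imp (by simp) ?_,
      fun d m => ?_, fun z m => (q3 z).elim (fun e => ?_)
      fun k => ⟨⟨(z, q z), k.1⟩, .inl ⟨m, rfl⟩, rfl⟩, ⟨(s, false), anc_self ms⟩,
      cr _ _ (fun d m => (m2 d).2 (Finset.mem_insert_of_mem (Finset.mem_image_of_mem _ m))) clo lz⟩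
    · rintro ⟨u, m, e⟩
      rcases tq (q (u, false)) z ((q1 _).trans e) with k | k
      exacts [⟨_, m, k⟩, ⟨tau (u, false), m, (q2 _).trans k⟩]
    · rcases Finset.mem_insert.1 ((m2 d).1 m) with e | e
      · exact ⟨anc_self ((show d.fst.1 = s from congrArg (·.fst) e) ▸ ms),
          anc_self ((show d.snd.1 = t from congrArg (·.snd) e) ▸ mt)⟩
      · obtain ⟨d', m', e⟩ := Finset.mem_image.1 e
        exact ⟨Set.mem_of_eq_of_mem (s := anc par W) (congrArg (·.fst) e).symm (lz d' m').1,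
          Set.mem_of_eq_of_mem (s := anc par W) (congrArg (·.snd) e).symm (lz d' m').2⟩
    · exact ⟨(dartEquiv G sg).symm (⟨(s, t), st⟩, z.2), .inr (.inr (.inl ((m2 _).2
        (Finset.mem_insert_self _ _)))), Prod.ext e.1.symm rfl⟩
  rw [Finset.card_product, Finset.card_singleton, Finset.card_univ, Fintype.card_bool] at hL
  refine ⟨W, by omega, ms, mt, fun x hx => ?_⟩
  obtain ⟨U, _, K, o, p, i, P⟩ := S.piece (x := (x, false)) hx
  let δ : (cover G sg).Dart → (cover G sg).Dart := fun d => ⟨(tau d.fst, tau d.snd), d.adj.1, by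
    show (!d.snd.2) = xor (!d.fst.2) (sg s(d.fst.1, d.snd.1))
    rw [d.adj.2, Bool.not_xor]⟩
  have dn : ∀ d, Dn q Z (δ d) ↔ Dn q Z d := fun d => and_congr_right fun _ => by
    show tau _ = q (tau _) ↔ _
    rw [q2, (Function.Involutive.injective tau_tau).eq_iff]
  have inj := fun v => S.refl (τ := tau) (δ := δ) (fun _ => rfl) (fun _ => rfl) (fun d => by
      apply (dartEquiv G sg).injective
      rw [rotC_e]
      show rot σ ((dartEquiv G sg (rotC sg σ d)).1, !(dartEquiv G sg (rotC sg σ d)).2) =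
        ((dartEquiv G sg d).1, !(dartEquiv G sg d).2)
      rw [rotC_e]
      obtain ⟨e, _ | _⟩ := dartEquiv G sg d <;> simp [rot])
    (fun d => or_congr (dn d) (or_congr (dn d.symm) (or_congr ((m2 _).trans (m2 d).symm)
      ((m2 _).trans (m2 d.symm).symm)))) (fun v e => by simpa [tau] using congrArg Prod.snd e)
    (fun d e => d.adj.1.ne (congrArg Prod.fst e).symm) (fun _ => .rfl) (x := (x, false)) (v := v)
  have x0 : (x, false) ∈ compSet (cover G sg) Z (x, false) := ReachOff.refl hx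
  have dw : ∀ z ∈ compSet (cover G sg) Z (x, false), z.1 ∈ compSet G (anc par W) x := fun z m =>
    ind_comp (G := cover G sg) (Z := Z) (P := fun z => z.1 ∈ compSet G (anc par W) x)
      (fun _ _ k a b c => ReachOff.trans c (.adj (ReachOff.right (X := Z) a)
        (ReachOff.right (X := Z) b) k.1)) x0 m (ReachOff.refl hx)
  have st : ∀ z ∈ compSet (cover G sg) Z (x, false), ∀ w ∈ compSet G (anc par W) x, G.Adj z.1 w →
      (w, xor z.2 (sg s(z.1, w))) ∈ compSet (cover G sg) Z (x, false) := fun z m w m' k =>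
    ReachOff.trans m (.adj (ReachOff.right m) (ReachOff.right (X := anc par W) m') ⟨k, rfl⟩)
  have up : ∀ v, ∃ b, v ∈ compSet G (anc par W) x → (v, b) ∈ compSet (cover G sg) Z (x, false) :=
    fun v => (em (v ∈ compSet G (anc par W) x)).elim (fun m => (ind_comp
      (P := fun v => ∃ b, (v, b) ∈ compSet (cover G sg) Z (x, false))
      (fun u w k _ b ⟨_, c⟩ => ⟨_, st _ c w b k⟩) (ReachOff.refl hx) m ⟨_, x0⟩).imp fun _ k _ => k)
      fun m => ⟨false, fun k => absurd k m⟩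
  choose lf l1 using up
  have l2 : ∀ z ∈ compSet (cover G sg) Z (x, false), (z.1, lf z.1) = z := fun z m =>
    (tq (z.1, lf z.1) z rfl).resolve_right fun e =>
      inj _ (l1 _ (dw z m)) (Set.mem_of_eq_of_mem e m)
  refine ⟨U, inferInstance, K, o, fun a => (p a).1, fun v => i (v, lf v), P.conn, P.conn', P.plane,
    P.deg.trans ?_, fun a b k m m' => (P.hom a b k m m').1, fun v m =>
    ⟨congrArg Prod.fst (P.sec _ (l1 v m)).1, (P.sec _ (l1 v m)).2⟩, fun v m w k => ?_,
    fun a n => (P.lane a n).imp (fun k => ⟨dw _ k.1, by rw [l2 _ k.1]; exact k.2⟩)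
      (And.imp_right (Or.imp_right fun ⟨a₁, a₂, b1, b2, b3, b4, b5, b6, b7⟩ =>
        ⟨a₁, a₂, b1, b2, b3, b4, by rw [b5, q1], by rw [← b6, q1], b7⟩))⟩
  · rw [Finset.card_product, Finset.card_univ, Fintype.card_bool]
    omega
  · obtain ⟨a, b1, b2, b3, b4⟩ := P.lift _ (l1 v m) (w, xor (lf v) (sg s(v, w))) ⟨k, rfl⟩
    refine ⟨a, b1, b2, congrArg Prod.fst b3, fun m' => ?_⟩
    have := st _ (l1 v m) w m' k
    exact (b4 this).trans (congrArg i (l2 _ this).symm)

end Vale.Agent.P235G
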