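import Vale.Agent.P235G.E1.Dir
import Vale.Agent.P235.H536.PlaneDefs

/-! P235G, block E1: the multi-terminal lemma (statement; helper77). -/

namespace Vale.Agent.P235G.E1

open Vale.Agent.P235

/-- A plane graph `K` with a vertex `o` of degree at most `m`, a metric `d` generated by the edges
of `K - o`, and `1`-Lipschitz data `z` on the neighbours of `o`: some `1`-Lipschitz extension `u`
of the data has directed cuts which separate all pairs. -/
def MSt : Prop := ∀ m : ℕ, ∃ C : ℝ, 0 < C ∧ ∀ (U : Type) [Finite U] (K : SimpleGraph U) (o : U),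
  K.Connected → (∃ σ, PlaneMap K σ) → (K.neighborSet o).ncard ≤ m →
  ∀ d : ({a | a ≠ o} : Set U) → ({a | a ≠ o} : Set U) → ℝ, IsMet d →
  Gen (K.induce {a | a ≠ o}) d → ∀ z : ({a | a ≠ o} : Set U) → ℝ,
  (∀ a b : ({a | a ≠ o} : Set U), K.Adj o a → K.Adj o b → z b ≤ z a + d a b) →
  ∃ (u : ({a | a ≠ o} : Set U) → ℝ) (D : ({a | a ≠ o} : Set U) → ({a | a ≠ o} : Set U) → ℝ),
    Lip d u ∧ (∀ a : ({a | a ≠ o} : Set U), K.Adj o a → u a = z a) ∧ IsD D ∧
    (∀ a b, D a b ≤ C * q d u a b) ∧ ∀ a b, d a b ≤ D a b + D b a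

end Vale.Agent.P235G.E1
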