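import Vale.Agent.P235G.E1.Fin2
import Vale.Agent.P235G.E1.MSt
import Vale.Agent.P235L.Main

/-!
P235G, block E1 (helper14): graphs on a surface embed with bounded distortion, each single edge
exactly, given the multi-terminal lemma and the cutting lemma.
-/

namespace Vale.Agent.P235G.E1

open Vale.Agent.P235 Vale.Agent.P235G Vale.Agent.P235U

theorem noK_surf (g : ℕ) : ∃ r : ℕ, ∀ (V : Type) [Finite V] (G : SimpleGraph V), G.Connected →
    OnSurface g G → Kr.NoK r G := by
  obtain ⟨A, -, hA⟩ := P235L.surf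
  obtain ⟨r, -, hr⟩ := H23.badKStmt H406.mono (A * Real.log (g + 2))
  exact ⟨r, fun V _ G hc hs hm => hr V G hc hm (hA g V G hc hs)⟩

theorem fin (hM : MSt) (hC : CUT) : ∀ g : ℕ, ∃ C : ℝ, 1 ≤ C ∧
    ∀ (V : Type) [Finite V] (G : SimpleGraph V), G.Connected → OnSurface g G → EdgeIso G C :=
  fin_of hM hC noK_surf

end Vale.Agent.P235G.E1
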