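import Vale.Agent.P235G.E1.LG
import Vale.Agent.P235.R2.H907.PadK
import Vale.Agent.P235.R2.H341.K1
import Vale.Agent.P235.R2.H934.KrK2
import Vale.Agent.P235.R2.H680.RowPot
import Vale.Agent.P235.R2.H907.RowCount
import Vale.Agent.P235.H105.Tw

/-!
P235G, block E1 (helper14): padded partitions of graphs without a `K_r` minor.
-/

namespace Vale.Agent.P235G.E1

open Vale.Agent.P235 Vale.Agent.P235.Kr

theorem one_le_padc (r : ℕ) : (1 : ℝ) ≤ 64 * ((r : ℝ) + 2) ^ 3 := by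
  have h0 : (0 : ℝ) ≤ r := by positivity
  have h1 : (1 : ℝ) ≤ ((r : ℝ) + 2) ^ 3 := one_le_pow₀ (by linarith)
  linarith

theorem pad_of_noK {V : Type} [Finite V] {G : SimpleGraph V} {ℓ : Sym2 V → ℝ} {r : ℕ}
    (hc : G.Connected) (hM : NoK r G) (hℓ : ∀ e ∈ G.edgeSet, 0 < ℓ e) :
    Pad (pathDist G ℓ) (64 * ((r : ℝ) + 2) ^ 3) := by
  have hP : RowPadK :=
    R2.H907.KprPadK.rowPadK Kpr.rowPot Kpr.rowCount (Kr.rowK2 Kr.rowK1)
  have hr0 : (0 : ℝ) ≤ r := by positivity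
  obtain ⟨k, hk⟩ : ∃ k : ℝ, k = (r : ℝ) + 2 := ⟨_, rfl⟩
  have hk0 : 0 < k := by rw [hk]; linarith
  have hN0 : 0 < 4 * (r + 2) := by omega
  refine ⟨Fin (r + 2) → Fin (4 * (r + 2)), inferInstance, ⟨fun _ => ⟨0, hN0⟩⟩, fun Δ hΔ => ?_⟩
  obtain ⟨c, hc1, hc2⟩ := hP V G ℓ r hc hM hℓ (8 * k * Δ) (4 * (r + 2)) (by positivity) hN0
  rw [← hk] at hc1 hc2
  refine ⟨c, fun ω x y h => (hc1 ω x y h).trans (le_of_eq ?_), fun x => ?_⟩
  · rw [← hk]; ring
  · have h1 := hc2 x Δ hΔ.le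
    have h2 : (Fintype.card (Fin (r + 2) → Fin (4 * (r + 2))) : ℝ) =
        (((4 * (r + 2) : ℕ)) : ℝ) ^ (r + 2) := by
      rw [Fintype.card_pi]
      simp
    have h5 : (((4 * (r + 2) : ℕ)) : ℝ) = 4 * k := by
      rw [hk]
      push_cast
      ring
    have h3 : k * (4 * k) ^ (r + 2) * (2 * Δ / (8 * k * Δ) + 1 / (4 * k)) =
        (4 * k) ^ (r + 2) / 2 := by
      field_simp
      norm_num
    rw [h2, h5]
    rw [h5, h3] at h1
    linarith

/-- the same for a metric generated by the edges -/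
theorem pad_of_gen {V : Type} [Finite V] {G : SimpleGraph V} {d : V → V → ℝ} {r : ℕ}
    (hc : G.Connected) (hM : NoK r G) (hd : IsMet d) (hg : Gen G d) :
    Pad d (64 * ((r : ℝ) + 2) ^ 3) := by
  have hℓ : ∀ e ∈ G.edgeSet, 0 < lenOf d hd.symm e := by
    intro e
    induction e using Sym2.ind with
    | _ u v =>
      intro he
      exact hd.pos u v (SimpleGraph.Adj.ne he)
  have e := hg.eq_pathDist hd hc
  have h := pad_of_noK hc hM hℓ
  rwa [e] at h

/-- the distance from a nonempty set -/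
theorem exists_dist {V : Type} [Finite V] {d : V → V → ℝ} (hd : IsMet d) {A : Set V}
    (hA : A.Nonempty) : ∃ f : V → ℝ, Lip d f ∧ (∀ v, ∃ z ∈ A, f v = d v z) ∧
      ∀ v, ∀ z ∈ A, f v ≤ d v z := by
  have h := fun v => Set.exists_min_image A (d v) (Set.toFinite A) hA
  choose z hz1 hz2 using h
  refine ⟨fun v => d v (z v), fun a b => ?_, fun v => ⟨z v, hz1 v, rfl⟩, hz2⟩
  have h1 := hz2 b (z a) (hz1 a)
  have h2 := hd.tri b a (z a)
  rw [hd.symm b a] at h2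
  show d b (z b) ≤ d a (z a) + d a b
  linarith

theorem lip_dist {V : Type} {d : V → V → ℝ} (hd : IsMet d) (s : V) : Lip d (d s) :=
  fun a b => hd.tri s a b

end Vale.Agent.P235G.E1
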