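import Vale.Agent.P235G.E1.M2
import Vale.Agent.P235G.E1.MSt
import Vale.Agent.P235G.E1.PadG
import Vale.Agent.P235.H427.PK
import Vale.Agent.P235.XC.H183.PK5
import Vale.Agent.P235.H105.Glue

/-!
P235G, block E1 (helper77): the multi-terminal lemma from exact embeddings of plane graphs.
-/

namespace Vale.Agent.P235G.E1

open SimpleGraph Vale.Agent.P235 Vale.Agent.P235.H134 Vale.Agent.P235.H56
open Vale.Agent.P235.H341W (capG)

theorem minor_push {W V U : Type} {H : SimpleGraph W} {G : SimpleGraph V} {K : SimpleGraph U}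
    (φ : V → U) (hφ : Function.Injective φ) (h : ∀ x y, G.Adj x y → K.Adj (φ x) (φ y))
    (hm : IsMinor H G) : IsMinor H K := by
  obtain ⟨μ, h1, h2, h3⟩ := hm
  refine ⟨fun a => φ '' μ a, fun a => ?_, fun a b hab => ?_, fun a b hab => ?_⟩
  · refine (h1 a).map (f := ⟨fun v : μ a => (⟨φ v.1, ⟨v.1, v.2, rfl⟩⟩ : (φ '' μ a : Set U)),
      fun {x y} hxy => h _ _ hxy⟩) ?_
    rintro ⟨_, ⟨v, hv, rfl⟩⟩
    exact ⟨⟨v, hv⟩, rfl⟩
  · exact (Set.disjoint_image_iff hφ).2 (h2 a b hab)
  · obtain ⟨x, hx, y, hy, hxy⟩ := h3 a b hab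
    exact ⟨φ x, ⟨x, hx, rfl⟩, φ y, ⟨y, hy, rfl⟩, h x y hxy⟩

section box
variable {U : Type} {o : U}

open Classical in
/-- the metric with the hub -/
noncomputable def ext (o : U) (d : ({a | a ≠ o} : Set U) → ({a | a ≠ o} : Set U) → ℝ)
    (h : ({a | a ≠ o} : Set U) → ℝ) (a b : U) : ℝ :=
  if ha : a = o then (if hb : b = o then 0 else h ⟨b, hb⟩)
  else if hb : b = o then h ⟨a, ha⟩ else d ⟨a, ha⟩ ⟨b, hb⟩

variable {d : ({a | a ≠ o} : Set U) → ({a | a ≠ o} : Set U) → ℝ}
  {h : ({a | a ≠ o} : Set U) → ℝ}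

theorem ext_oo : ext o d h o o = 0 := by simp [ext]

theorem ext_ov (v : ({a | a ≠ o} : Set U)) : ext o d h o v = h v := by
  have : v.1 ≠ o := v.2
  simp [ext, this]

theorem ext_vo (v : ({a | a ≠ o} : Set U)) : ext o d h v o = h v := by
  have : v.1 ≠ o := v.2
  simp [ext, this]

theorem ext_vv (v w : ({a | a ≠ o} : Set U)) : ext o d h v w = d v w := by
  have h1 : v.1 ≠ o := v.2
  have h2 : w.1 ≠ o := w.2
  simp [ext, h1, h2]

theorem hub_cases (P : U → Prop) (h0 : P o) (h1 : ∀ v : ({a | a ≠ o} : Set U), P v) (a : U) :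
    P a := by
  by_cases ha : a = o
  · rw [ha]; exact h0
  · exact h1 ⟨a, ha⟩

theorem ext_isMet (hd : IsMet d) (h0 : ∀ v, 0 < h v) (h1 : Lip d h)
    (h2 : ∀ v w, d v w ≤ h v + h w) : IsMet (ext o d h) := by
  refine ⟨fun x => ?_, fun x y => ?_, fun x y => ?_, fun x y z => ?_⟩
  · induction x using hub_cases (o := o) with
    | h0 => exact ext_oo
    | h1 v => rw [ext_vv, hd.self]
  · induction x using hub_cases (o := o) with
    | h0 =>
      induction y using hub_cases (o := o) with
      | h0 => exact fun hn => absurd rfl hn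
      | h1 w => rw [ext_ov]; exact fun _ => h0 w
    | h1 v =>
      induction y using hub_cases (o := o) with
      | h0 => rw [ext_vo]; exact fun _ => h0 v
      | h1 w => rw [ext_vv]; exact fun hn => hd.pos v w fun e => hn (by rw [e])
  · induction x using hub_cases (o := o) with
    | h0 =>
      induction y using hub_cases (o := o) with
      | h0 => rfl
      | h1 w => rw [ext_ov, ext_vo]
    | h1 v =>
      induction y using hub_cases (o := o) with
      | h0 => rw [ext_ov, ext_vo]
      | h1 w => rw [ext_vv, ext_vv, hd.symm]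
  · induction x using hub_cases (o := o) with
    | h0 =>
      induction y using hub_cases (o := o) with
      | h0 => rw [ext_oo, zero_add]
      | h1 w =>
        induction z using hub_cases (o := o) with
        | h0 => rw [ext_oo, ext_ov, ext_vo]; linarith [h0 w]
        | h1 p => rw [ext_ov, ext_ov, ext_vv]; exact h1 w p
    | h1 v =>
      induction y using hub_cases (o := o) with
      | h0 =>
        induction z using hub_cases (o := o) with
        | h0 => rw [ext_oo, add_zero]
        | h1 p => rw [ext_vv, ext_vo, ext_ov]; exact h2 v p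
      | h1 w =>
        induction z using hub_cases (o := o) with
        | h0 =>
          rw [ext_vo, ext_vo, ext_vv]
          have := h1 w v
          rw [hd.symm w v] at this
          linarith
        | h1 p => rw [ext_vv, ext_vv, ext_vv]; exact hd.tri v w p

/-- the box of a pair of terminals -/
theorem box {K : SimpleGraph U} [Finite U] {c : ℝ} (hc : 0 < c) (hK : EdgeExact K c)
    (hd : IsMet d) (hG : Gen (K.induce {a | a ≠ o}) d) {s t : ({a | a ≠ o} : Set U)}
    (hs : K.Adj o s) (ht : K.Adj o t) {zs zt : ℝ} (h1 : zt ≤ zs + d s t) (h2 : zs ≤ zt + d t s) :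
    ∃ (u : ({a | a ≠ o} : Set U) → ℝ) (D : ({a | a ≠ o} : Set U) → ({a | a ≠ o} : Set U) → ℝ),
      Lip d u ∧ (∀ v, zt - d v t ≤ u v) ∧ (∀ v, u v ≤ zs + d v s) ∧ IsD D ∧
      (∀ a b, D a b ≤ 1 / (2 * c) * q d u a b) ∧ ∀ a b, d a b ≤ D a b + D b a := by
  obtain ⟨Λ, hΛ0, hΛ⟩ : ∃ Λ : ℝ, 0 ≤ Λ ∧ ∀ x y, d x y ≤ Λ := by
    have : Nonempty ({a | a ≠ o} : Set U) := ⟨s⟩
    obtain ⟨p, hp⟩ := Finite.exists_max
      fun p : ({a | a ≠ o} : Set U) × ({a | a ≠ o} : Set U) => d p.1 p.2
    exact ⟨d p.1 p.2, hd.nonneg _ _, fun x y => hp (x, y)⟩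
  let h : ({a | a ≠ o} : Set U) → ℝ := fun v =>
    min (2 * Λ + 1 + d v s) (2 * Λ + 1 + (zt - zs) + d v t)
  have hlow : ∀ v, Λ + 1 ≤ h v := by
    intro v
    have a1 := hd.nonneg v s
    have a2 := hd.nonneg v t
    have a3 := hΛ t s
    exact le_min (by linarith) (by linarith)
  have hlip : Lip d h := by
    intro v w
    show min _ _ ≤ min _ _ + d v w
    rw [← min_add_add_right]
    have a1 := hd.tri w v s
    have a2 := hd.tri w v t
    have a3 := hd.symm w v
    exact min_le_min (by linarith) (by linarith)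
  have hs' : h s ≤ 2 * Λ + 1 := by
    refine (min_le_left _ _).trans ?_
    rw [hd.self]; linarith
  have ht' : h t = 2 * Λ + 1 + (zt - zs) := by
    show min _ _ = _
    rw [hd.self t, add_zero, min_eq_right]
    have := hd.symm s t
    linarith
  have hmet : IsMet (ext o d h) := ext_isMet hd (fun v => by have := hlow v; linarith) hlip
    fun v w => by
      have a1 := hlow v
      have a2 := hlow w
      have a3 := hΛ v w
      linarith
  have hgen : Gen K (ext o d h) := by
    intro f hf
    have a1 : ∀ v w : ({a | a ≠ o} : Set U), |f v - f w| ≤ d v w :=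
      hG (fun v => f v) fun v w hvw => by
        have := hf v w hvw
        rwa [ext_vv] at this
    have a2 : ∀ v : ({a | a ≠ o} : Set U), |f o - f v| ≤ h v := by
      intro v
      have b1 := hf o s hs
      have b2 := hf o t ht
      rw [ext_ov] at b1 b2
      have b3 := abs_sub_le (f o) (f s) (f v)
      have b4 := abs_sub_le (f o) (f t) (f v)
      have b5 := a1 s v
      have b6 := a1 t v
      rw [hd.symm] at b5 b6
      exact le_min (by linarith) (by linarith)
    intro x y
    induction x using hub_cases (o := o) with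
    | h0 =>
      induction y using hub_cases (o := o) with
      | h0 => rw [ext_oo, sub_self, abs_zero]
      | h1 w => rw [ext_ov]; exact a2 w
    | h1 v =>
      induction y using hub_cases (o := o) with
      | h0 => rw [ext_vo, abs_sub_comm]; exact a2 v
      | h1 w => rw [ext_vv]; exact a1 v w
  obtain ⟨F, hF, e1, e2, e3⟩ := hK _ hmet hgen o t ht
  obtain ⟨u, D, k1, k2, k3, k4, k5⟩ := dir_of_exact hF e1 hc e2 e3
  rw [ext_ov, ht'] at k2
  refine ⟨fun v => u v - u t + zt, fun a b => D a b, fun a b => ?_, fun v => ?_, fun v => ?_,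
    k3.comap Subtype.val, fun a b => ?_, fun a b => ?_⟩
  · have := k1 a b
    rw [ext_vv] at this
    show u b - u t + zt ≤ u a - u t + zt + d a b
    linarith
  · have := k1 v t
    rw [ext_vv] at this
    show zt - d v t ≤ u v - u t + zt
    linarith
  · have a1 := k1 o v
    rw [ext_ov] at a1
    have a2 : h v ≤ 2 * Λ + 1 + d v s := min_le_left _ _
    show u v - u t + zt ≤ zs + d v s
    linarith
  · have := k4 a b
    unfold q at this ⊢
    rw [ext_vv] at this
    have e : d a b - (u b - u t + zt) + (u a - u t + zt) = d a b - u b + u a := by ring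
    rw [e]
    exact this
  · have := k5 a b
    rwa [ext_vv] at this

end box

/-- **the multi-terminal lemma** -/
theorem mst_of (hP : ∃ c : ℝ, 0 < c ∧ ∀ (U : Type) [Finite U] (K : SimpleGraph U), K.Connected →
    (∃ σ, PlaneMap K σ) → EdgeExact K c) : MSt := by
  obtain ⟨c, hc, hP⟩ := hP
  intro m
  obtain ⟨C, hC, hM⟩ := mcore m (one_le_padc 5) (C₀ := 1 / (2 * c)) (by positivity)
  refine ⟨C, hC, fun U _ K o hK hσ hm d hd hG z hz => ?_⟩
  classical
  rcases isEmpty_or_nonempty ({a | a ≠ o} : Set U) with hE | hE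
  · exact ⟨z, fun _ _ => 0, fun a => hE.elim a, fun a => hE.elim a, IsD.zero,
      fun a => hE.elim a, fun a => hE.elim a⟩
  have hne : Nonempty (K.neighborSet o) := by
    obtain ⟨⟨v, hv⟩⟩ := hE
    obtain ⟨p⟩ := hK.preconnected o v
    cases p with
    | nil => exact absurd rfl hv
    | cons h _ => exact ⟨⟨_, h⟩⟩
  have := Fintype.ofFinite (K.neighborSet o)
  let t : K.neighborSet o → ({a | a ≠ o} : Set U) := fun i => ⟨i.1, (Adj.ne i.2).symm⟩
  have hconn : (K.induce {a | a ≠ o}).Connected := ⟨hG.preconnected hd⟩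
  have hno5 : Kr.NoK 5 (K.induce {a | a ≠ o}) := fun h =>
    XC.H183.pk5 U K hK hσ (minor_push Subtype.val Subtype.val_injective (fun _ _ h => h) h)
  obtain ⟨u, D, k1, k2, k3, k4, k5⟩ := hM _ (K.neighborSet o) (K.induce {a | a ≠ o}) d t
    (fun i => z (t i)) (by rw [← Nat.card_eq_fintype_card]; exact hm) hd hG
    (pad_of_gen hconn hno5 hd hG) (fun i j => hz _ _ i.2 j.2)
    (fun i j k h => H427.pk U K hK hσ (minor_push (fun a => a.elim o Subtype.val) (by
      rintro (_ | a) (_ | b) e
      · rfl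
      · exact absurd e.symm b.2
      · exact absurd e a.2
      · exact congrArg some (Subtype.ext e)) (by
      have key : ∀ v, v ∈ Set.range ![t i, t j, t k] → K.Adj o v := by
        rintro v ⟨l, rfl⟩
        fin_cases l
        · exact i.2
        · exact j.2
        · exact k.2
      rintro (_ | a) (_ | b) e
      · exact e.elim
      · exact key b e
      · exact (key a e).symm
      · exact e) h))
    (fun i j => box hc (hP U K hK hσ) hd hG (s := t i) (t := t j) i.2 j.2 (hz _ _ i.2 j.2)
      (hz _ _ j.2 i.2))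
  exact ⟨u, D, k1, fun a ha => k2 ⟨a.1, ha⟩, k3, k4, k5⟩

end Vale.Agent.P235G.E1
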