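import Vale.Agent.P235G.E1.Sum
import Vale.Agent.P235G.E1.Fin
import Vale.Agent.P235G.E1.Cut
import Vale.Agent.P235G.E1.M3
import Vale.Agent.P235.ST.H626.Sums
import Vale.Agent.P235.H206.Final

/-! P235G, block E1: the final assembly (helper77). -/

namespace Vale.Agent.P235G.E1

open SimpleGraph hiding Free
open Vale.Agent.P235 Vale.Agent.P235.H134 Vale.Agent.P235.K5 Vale.Agent.P235U Vale.Agent.P235L
open Vale.Agent.P235.K5.H477 (GluePieceX)
open Vale.Agent.P235.K5.H281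

theorem mst : MSt := by
  obtain ⟨C, hC, h, -⟩ := ST.H945.planarNear
  have hC0 : 0 < C := by linarith
  exact mst_of ⟨1 / C, by positivity, fun U _ K hK hσ =>
    EdgeIso.edgeExact hC0 fun _ => ST.H626.planar_edgeIso hC h U K hK hσ⟩

theorem surfIso : SurfIso := fin mst cut

theorem sums2 (a g p w k : ℕ) (D : ℝ) : ∃ C : ℝ, 0 ≤ C ∧ ∀ (V : Type) [Finite V]
    (G H : SimpleGraph V), G ≤ H → G.Connected →
    CliqueSum 3 (fun _ B R => SPiece g k B ∨ QPiece g k B ∨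
      R.ncard ≤ 1 ∧ (AlmostEmb a g p w B ∨ DistortionLE B D)) H → DistortionLE G C := by
  obtain ⟨C, hC⟩ := almost a g p w
  obtain ⟨M, hM1, hCM, hM⟩ := piece_rooted surfIso g k (max C D)
  obtain ⟨K2, hK2⟩ := H477.sumX (q := EX.H452.qSL) H477.half_SLq
    (fun _ hc hc1 => EX.H452.pieceSL EX.H452.px3 EX.H371.px2 hc hc1) M
  refine ⟨max K2 0, le_max_right _ _, fun V _ G H hGH hG h => ?_⟩
  have := hG.nonempty
  obtain ⟨n, B, hB, hp⟩ := H266.cliqueSum_conn (hG.mono hGH).preconnected h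
  obtain ⟨H', hHH', hS⟩ := H266.refine_sum (P := GluePieceX M) hB fun s hs => by
    have hsub : Adh B s ⊆ B s := fun v hv => hv.1
    obtain ⟨h1, h | h | ⟨h2, h3 | h3⟩⟩ := hp s hs
    · exact H266.rooted_imp (hM V H (B s) (Adh B s) hsub (hB.clique s hs) (hB.card s hs) h1
        (Or.inl h)) fun _ _ _ h => ⟨h.1, Or.inr h.2⟩
    · exact H266.rooted_imp (hM V H (B s) (Adh B s) hsub (hB.clique s hs) (hB.card s hs) h1
        (Or.inr h)) fun _ _ _ h => ⟨h.1, Or.inr h.2⟩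
    · exact RootedOn.single hsub
        ⟨h1, Or.inl ⟨h2, (hC _ _ h1 h3).mono ((le_max_left _ _).trans hCM)⟩⟩
    · exact RootedOn.single hsub ⟨h1, Or.inl ⟨h2, h3.mono ((le_max_right _ _).trans hCM)⟩⟩
  exact (hK2 V G H' (hGH.trans hHH') hG hS).mono (le_max_left _ _)

theorem single_sum {V : Type} {G : SimpleGraph V} {g k : ℕ} (h : QPiece g k G) :
    CliqueSum 3 (fun _ B _ => SPiece g k B ∨ QPiece g k B) G := by
  have e : ∀ t < 1, ∀ v : V, v ∉ Bef (fun _ => (Set.univ : Set V)) t := by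
    rintro t ht v ⟨s, hs, -⟩
    omega
  refine ⟨1, fun _ => Set.univ, ⟨fun v => ⟨0, Nat.one_pos, trivial⟩, fun t ht => ?_,
    fun t ht u hu => absurd hu.2 (e t ht u), fun t ht u v _ _ hv => absurd hv (e t ht v)⟩,
    fun t _ => Or.inr fun U _ M h1 h2 h3 => h U M h1 h2
      (minor_push Subtype.val Subtype.val_injective (fun _ _ h => h) h3)⟩
  have : Adh (fun _ => (Set.univ : Set V)) t = ∅ :=
    Set.eq_empty_of_forall_notMem fun v hv => e t ht v hv.2
  rw [this, Set.ncard_empty]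
  omega

theorem final :
    (∀ g k : ℕ, ∃ C : ℝ, ∀ (V : Type) [Finite V] (G : SimpleGraph V), G.Connected →
      (Drawn g G ∨ QPiece g k G ∨ ∃ H : SimpleGraph V, G ≤ H ∧
        CliqueSum 3 (fun _ B _ => SPiece g k B ∨ QPiece g k B) H) → EdgeIso G C ∧ Bd G C) ∧
    (∀ (a g p w k t : ℕ) (D : ℝ), ∃ C : ℝ, ∀ (V : Type) [Finite V] (G : SimpleGraph V),
      G.Connected → (∃ S : Set V, S.ncard ≤ t ∧ ∀ u ∉ S, ∃ H : SimpleGraph (compSet G S u),
        G.induce (compSet G S u) ≤ H ∧ CliqueSum 3 (fun _ B R => SPiece g k B ∨ QPiece g k B ∨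
          R.ncard ≤ 1 ∧ (AlmostEmb a g p w B ∨ DistortionLE B D)) H) → Bd G C) ∧
    (∃ C : ℝ, ∀ (V : Type) [Finite V] (G : SimpleGraph V), G.Connected → Planar G → Bd G C) ∧
    (∀ k : ℕ, ∃ C : ℝ, ∀ (V : Type) [Finite V] (G : SimpleGraph V), G.Connected →
      TreewidthLE G k → Bd G C) ∧
    ∀ a g p w : ℕ, ∃ C : ℝ, ∀ (V : Type) [Finite V] (G : SimpleGraph V), G.Connected →
      AlmostEmb a g p w G → Bd G C := by
  refine ⟨fun g k => ?_, fun a g p w k t D => ?_, P235L.final⟩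
  · obtain ⟨C, -, hC⟩ := sums surfIso 0 g 0 0 k
    obtain ⟨C1, hC1, h1⟩ := drawn_iso surfIso g
    refine ⟨max C C1, fun V _ G hG h => ?_⟩
    have key : EdgeIso G (max C C1) → EdgeIso G (max C C1) ∧ Bd G (max C C1) := fun h => by
      have h0 : 0 < max C C1 := lt_of_lt_of_le (by linarith) (le_max_right C C1)
      have h2 := (EdgeIso.edgeExact h0 fun _ => h).distortion (by positivity) hG
      rw [one_div_one_div] at h2
      exact ⟨h, bd_of hG h2⟩
    rcases h with h | h | ⟨H, hH, h⟩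
    · exact key (ST.H626.EdgeIso.mono' (h1 V G hG h) (le_max_right _ _))
    · exact key (ST.H626.EdgeIso.mono' ((hC V G G le_rfl hG).1 (single_sum h)).1
        (le_max_left _ _))
    · exact key (ST.H626.EdgeIso.mono' ((hC V G H hH hG).1 h).1 (le_max_left _ _))
  · obtain ⟨K, hK0, hK⟩ := sums2 a g p w k D
    obtain ⟨C, -, hap⟩ := apex_log'
    refine ⟨C * (K + Real.log (t + 2)), ?_⟩
    rintro V _ G hG ⟨S, hS, h⟩
    refine bd_of hG (hap K hK0 t V G hG S hS fun u hu => ?_)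
    obtain ⟨H, h1, h2⟩ := h u hu
    exact hK _ _ H h1 (comp_connected hu) h2

end Vale.Agent.P235G.E1
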