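import Vale.Agent.P235G.E1.Sample

/-!
P235G, block E1 (helper14): random clusters adapted to a scale function `ρ`.
-/

namespace Vale.Agent.P235G.E1

open Finset Vale.Agent.P235

/-- padded random partitions at all scales, on one finite probability space -/
def Pad {V : Type} (d : V → V → ℝ) (L : ℝ) : Prop :=
  ∃ (Ω : Type) (_ : Fintype Ω) (_ : Nonempty Ω), ∀ Δ : ℝ, 0 < Δ → ∃ c : Ω → V → V,
    (∀ ω x y, c ω x = c ω y → d x y ≤ L * Δ) ∧
    ∀ x, 2 * ({ω | ∃ y, d x y ≤ Δ ∧ c ω x ≠ c ω y}.ncard : ℝ) ≤ Fintype.card Ω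

theorem scales : ∃ s : Fin 3 → ℝ → ℝ, (∀ j t, 0 < s j t) ∧
    (∀ j t, 0 < t → s j t ≤ t ∧ t ≤ 8 * s j t) ∧
    (∀ j t t', s j t = s j t' ∨ 8 * s j t ≤ s j t' ∨ 8 * s j t' ≤ s j t) ∧
    ∀ t, 0 < t → ∃ j, 2 * s j t ≤ t ∧ t ≤ 4 * s j t := by
  let e : Fin 3 → ℝ → ℤ := fun j t => 3 * ((Int.log 2 t - j.val) / 3) + j.val
  have h2 : (1 : ℝ) ≤ 2 := by norm_num
  have hlog : ∀ t : ℝ, 0 < t → (2 : ℝ) ^ (Int.log 2 t) ≤ t ∧ t ≤ (2 : ℝ) ^ (Int.log 2 t + 1) := by
    intro t ht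
    have h4 : ((2 : ℕ) : ℝ) ^ (Int.log 2 t) ≤ t := Int.zpow_log_le_self (by norm_num) ht
    have h5 : t < ((2 : ℕ) : ℝ) ^ (Int.log 2 t + 1) := Int.lt_zpow_succ_log_self (by norm_num) t
    push_cast at h4 h5
    exact ⟨h4, h5.le⟩
  have hp : ∀ (k : ℤ) (n : ℕ), (2 : ℝ) ^ (k + n) = 2 ^ n * 2 ^ k := by
    intro k n
    rw [zpow_add₀ (by norm_num), zpow_natCast, mul_comm]
  refine ⟨fun j t => (2 : ℝ) ^ e j t, fun j t => by positivity, fun j t ht => ?_,
    fun j t t' => ?_, fun t ht => ?_⟩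
  · obtain ⟨h4, h5⟩ := hlog t ht
    have a1 : e j t ≤ Int.log 2 t := by simp only [e]; omega
    have a2 : Int.log 2 t + 1 ≤ e j t + (3 : ℕ) := by simp only [e]; omega
    have a3 := zpow_le_zpow_right₀ h2 a1
    have a4 := zpow_le_zpow_right₀ h2 a2
    rw [hp] at a4
    norm_num at a4
    exact ⟨a3.trans h4, h5.trans a4⟩
  · rcases lt_trichotomy (e j t) (e j t') with h | h | h
    · have a2 : e j t + (3 : ℕ) ≤ e j t' := by simp only [e] at h ⊢; omega
      have a4 := zpow_le_zpow_right₀ h2 a2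
      rw [hp] at a4
      norm_num at a4
      exact Or.inr (Or.inl a4)
    · exact Or.inl (by simp only [h])
    · have a2 : e j t' + (3 : ℕ) ≤ e j t := by simp only [e] at h ⊢; omega
      have a4 := zpow_le_zpow_right₀ h2 a2
      rw [hp] at a4
      norm_num at a4
      exact Or.inr (Or.inr a4)
  · obtain ⟨h4, h5⟩ := hlog t ht
    obtain ⟨k, hk⟩ : ∃ k, k = Int.log 2 t := ⟨_, rfl⟩
    have hj : ((k - 1) % 3).toNat < 3 := by omega
    refine ⟨⟨_, hj⟩, ?_⟩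
    have a1 : e ⟨_, hj⟩ t + (1 : ℕ) = Int.log 2 t := by simp only [e]; omega
    have a2 : e ⟨_, hj⟩ t + (2 : ℕ) = Int.log 2 t + 1 := by omega
    rw [← a1, hp] at h4
    rw [← a2, hp] at h5
    norm_num at h4 h5
    exact ⟨h4, h5⟩

/-- clusters adapted to `ρ` -/
structure Ada {V : Type} (d : V → V → ℝ) (ρ : V → ℝ) (cen : V → V) (f : V → ℝ) : Prop
    extends Clu d cen f where
  le : ∀ a, f a ≤ ρ a
  rad : ∀ a, 2 * d (cen a) a ≤ ρ (cen a)

open Classical in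
/-- clusters from one scale selection and one partition for every scale -/
theorem ada_one {V : Type} [Finite V] {d : V → V → ℝ} (hd : IsMet d) {ρ : V → ℝ}
    (hρ0 : ∀ v, 0 ≤ ρ v) (hρ : Lip d ρ) {s : ℝ → ℝ} (s0 : ∀ t, 0 < s t)
    (s1 : ∀ t, 0 < t → s t ≤ t ∧ t ≤ 8 * s t)
    (s2 : ∀ t t', s t = s t' ∨ 8 * s t ≤ s t' ∨ 8 * s t' ≤ s t)
    (c : ℝ → V → V) (hc : ∀ σ, 0 < σ → ∀ x y, c σ x = c σ y → 2 * d x y ≤ σ) :
    ∃ (cen : V → V) (f : V → ℝ), Ada d ρ cen f ∧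
      ∀ x t, 2 * s (ρ x) ≤ ρ x → ρ x ≤ 4 * s (ρ x) → t ≤ s (ρ x) →
        (¬ ∃ y, d x y ≤ t ∧ c (s (ρ x)) x ≠ c (s (ρ x)) y) → t ≤ f x := by
  have := Fintype.ofFinite V
  rcases isEmpty_or_nonempty V with hV | hV
  · exact ⟨id, fun _ => 0, ⟨⟨fun a => hV.elim a, fun a => hV.elim a, fun a => hV.elim a⟩,
      fun a => hV.elim a, fun a => hV.elim a⟩, fun a => hV.elim a⟩
  let W : V → ℝ := fun v => max 0 (min (ρ v - s (ρ v)) (8 * s (ρ v) - ρ v))
  have hW0 : ∀ v, 0 ≤ W v := fun v => le_max_left _ _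
  have hab : ∀ a b, ρ a ≤ ρ b + d a b := fun a b => by
    have := hρ b a; rwa [hd.symm b a] at this
  have hWρ : ∀ v, W v ≤ ρ v := fun v =>
    max_le (hρ0 v) ((min_le_left _ _).trans (by linarith [s0 (ρ v)]))
  have hW1 : ∀ a b, s (ρ a) = s (ρ b) → W a ≤ W b + d a b := by
    intro a b h
    have h0 := hd.nonneg a b
    have h1 := hab a b
    have h2 := hρ a b
    refine max_le (by linarith [hW0 b]) ?_
    have h3 : min (ρ b - s (ρ b)) (8 * s (ρ b) - ρ b) ≤ W b := le_max_right _ _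
    rw [h]
    rcases min_cases (ρ b - s (ρ b)) (8 * s (ρ b) - ρ b) with ⟨h6, _⟩ | ⟨h6, _⟩
    · rw [h6] at h3
      exact (min_le_left _ _).trans (by linarith)
    · rw [h6] at h3
      exact (min_le_right _ _).trans (by linarith)
  have hW2 : ∀ a b, s (ρ a) ≠ s (ρ b) → W a ≤ d a b := by
    intro a b h
    have h0 := hd.nonneg a b
    have h1 := hab a b
    have h2 := hρ a b
    rcases (hρ0 b).eq_or_lt with hb | hb
    · have := hWρ a
      linarith
    obtain ⟨h4, h5⟩ := s1 _ hb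
    refine max_le h0 ?_
    rcases s2 (ρ a) (ρ b) with h3 | h3 | h3
    · exact absurd h3 h
    · exact (min_le_right _ _).trans (by linarith)
    · exact (min_le_left _ _).trans (by linarith)
  let κ : V → ℝ × V := fun v => (s (ρ v), c (s (ρ v)) v)
  let Q : V → V → ℝ := fun v w =>
    if c (s (ρ v)) w = c (s (ρ v)) v then W v else min (W v) (d v w)
  let f : V → ℝ := fun v => Finset.univ.inf' Finset.univ_nonempty (Q v)
  have hf0 : ∀ v, 0 ≤ f v := fun v => Finset.le_inf' _ _ fun w _ => by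
    show 0 ≤ (if _ then W v else min (W v) (d v w))
    split_ifs
    · exact hW0 v
    · exact le_min (hW0 v) (hd.nonneg v w)
  have hfQ : ∀ v w, f v ≤ Q v w := fun v w => Finset.inf'_le _ (Finset.mem_univ w)
  have hfW : ∀ v, f v ≤ W v := fun v => (hfQ v v).trans (le_of_eq (if_pos rfl))
  have hdiff : ∀ a b, κ a ≠ κ b → f a ≤ d a b := by
    intro a b h
    by_cases hs : s (ρ a) = s (ρ b)
    · have h1 : c (s (ρ a)) b ≠ c (s (ρ a)) a := by
        intro h1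
        apply h
        show (s (ρ a), c (s (ρ a)) a) = (s (ρ b), c (s (ρ b)) b)
        rw [← hs, h1]
      refine (hfQ a b).trans ?_
      show (if _ then W a else min (W a) (d a b)) ≤ _
      rw [if_neg h1]
      exact min_le_right _ _
    · exact (hfW a).trans (hW2 a b hs)
  have hsame : ∀ a b, κ a = κ b → f a ≤ f b + d a b := by
    intro a b h
    have hs : s (ρ a) = s (ρ b) := congrArg Prod.fst h
    have hcc : c (s (ρ a)) a = c (s (ρ b)) b := congrArg Prod.snd h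
    have h1 := hW1 a b hs
    have h0 : f a - d a b ≤ f b := by
      refine Finset.le_inf' _ _ fun w _ => ?_
      have h2 := hfQ a w
      have h3 : Q a w ≤ Q b w + d a b := by
        show (if c (s (ρ a)) w = c (s (ρ a)) a then W a else min (W a) (d a w)) ≤
          (if c (s (ρ b)) w = c (s (ρ b)) b then W b else min (W b) (d b w)) + d a b
        rw [hcc, hs]
        by_cases hw : c (s (ρ b)) w = c (s (ρ b)) b
        · rw [if_pos hw, if_pos hw]
          exact h1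
        · rw [if_neg hw, if_neg hw]
          have h4 := hd.tri a b w
          rcases min_cases (W b) (d b w) with ⟨h6, _⟩ | ⟨h6, _⟩
          · rw [h6]
            exact (min_le_left _ _).trans h1
          · rw [h6]
            exact (min_le_right _ _).trans (by linarith)
      linarith
    linarith
  have hlip : ∀ a b, f a ≤ f b + d a b := by
    intro a b
    by_cases h : κ a = κ b
    · exact hsame a b h
    · linarith [hdiff a b h, hf0 b]
  let rep : ℝ × V → V := fun k => Classical.epsilon fun b => κ b = k ∧ 0 < f b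
  have hrep : ∀ a, 0 < f a → κ (rep (κ a)) = κ a ∧ 0 < f (rep (κ a)) := fun a ha =>
    Classical.epsilon_spec (p := fun b => κ b = κ a ∧ 0 < f b) ⟨a, rfl, ha⟩
  refine ⟨fun a => if 0 < f a then rep (κ a) else a, f,
    ⟨⟨hf0, hlip, fun a b h => ?_⟩, fun a => (hfW a).trans (hWρ a), fun a => ?_⟩, ?_⟩
  · by_cases ha : 0 < f a
    · by_cases hb : 0 < f b
      · refine hdiff a b fun hk => h ?_
        simp only [ha, hb, if_true, hk]
      · have := hlip a b
        linarith [not_lt.1 hb]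
    · linarith [not_lt.1 ha, hd.nonneg a b]
  · by_cases ha : 0 < f a
    · simp only [ha, if_true]
      obtain ⟨h1, h2⟩ := hrep a ha
      obtain ⟨r, hr⟩ : ∃ r, r = rep (κ a) := ⟨_, rfl⟩
      rw [← hr] at h1 h2 ⊢
      have hs : s (ρ r) = s (ρ a) := congrArg Prod.fst h1
      have hcc : c (s (ρ r)) r = c (s (ρ a)) a := congrArg Prod.snd h1
      rw [← hs] at hcc
      have h3 := hc _ (s0 _) r a hcc
      have h4 : 0 < ρ r := h2.trans_le ((hfW r).trans (hWρ r))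
      exact h3.trans (s1 _ h4).1
    · simp only [ha, if_false, hd.self, mul_zero]
      exact hρ0 a
  · intro x t h1 h2 h3 h4
    have h5 : t ≤ W x := le_max_of_le_right (le_min (by linarith) (by linarith [s0 (ρ x)]))
    refine Finset.le_inf' _ _ fun w _ => ?_
    show t ≤ (if _ then W x else min (W x) (d x w))
    split_ifs with hw
    · exact h5
    · refine le_min h5 ?_
      by_contra hlt
      exact h4 ⟨w, (not_le.1 hlt).le, fun h => hw h.symm⟩

open Classical in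
/-- random clusters adapted to `ρ` -/
theorem clusters {V : Type} [Finite V] {d : V → V → ℝ} (hd : IsMet d) {L : ℝ} (hL : 1 ≤ L)
    (hP : Pad d L) {ρ : V → ℝ} (hρ0 : ∀ v, 0 ≤ ρ v) (hρ : Lip d ρ) :
    ∃ (Ω : Type) (_ : Fintype Ω) (_ : Nonempty Ω) (cen : Ω → V → V) (f : Ω → V → ℝ),
      (∀ ω, Ada d ρ (cen ω) (f ω)) ∧
      ∀ x, (Fintype.card Ω : ℝ) ≤ 6 * ∑ ω, if ρ x ≤ 8 * L * f ω x then (1 : ℝ) else 0 := by
  obtain ⟨Ω, _, _, hΩ⟩ := hP
  obtain ⟨s, s0, s1, s2, s3⟩ := scales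
  have hL0 : 0 < L := by linarith
  have h1 : ∀ σ : ℝ, ∃ c : Ω → V → V, 0 < σ → (∀ ω x y, c ω x = c ω y → 2 * d x y ≤ σ) ∧
      ∀ x, 2 * ({ω | ∃ y, d x y ≤ σ / (2 * L) ∧ c ω x ≠ c ω y}.ncard : ℝ) ≤ Fintype.card Ω := by
    intro σ
    by_cases hσ : 0 < σ
    · obtain ⟨c, a1, a2⟩ := hΩ (σ / (2 * L)) (by positivity)
      refine ⟨c, fun _ => ⟨fun ω x y h => ?_, a2⟩⟩
      have a3 := a1 ω x y h
      have a4 : L * (σ / (2 * L)) = σ / 2 := by field_simp
      linarith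
    · exact ⟨fun _ v => v, fun h => absurd h hσ⟩
  choose c hc using h1
  have h2 := fun ω : Fin 3 × Ω => ada_one hd hρ0 hρ (s0 ω.1) (s1 ω.1) (s2 ω.1)
    (fun σ => c σ ω.2) fun σ hσ => (hc σ hσ).1 ω.2
  choose cen f hA hf using h2
  refine ⟨Fin 3 × Ω, inferInstance, inferInstance, cen, f, hA, fun x => ?_⟩
  have hnn : ∀ ω : Fin 3 × Ω, (0 : ℝ) ≤ if ρ x ≤ 8 * L * f ω x then (1 : ℝ) else 0 := fun ω => by
    split_ifs <;> norm_num
  rcases (hρ0 x).eq_or_lt with hx | hx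
  · have a1 : ∀ ω : Fin 3 × Ω, (if ρ x ≤ 8 * L * f ω x then (1 : ℝ) else 0) = 1 := fun ω => by
      rw [if_pos]
      rw [← hx]
      exact mul_nonneg (by positivity) ((hA ω).nn x)
    simp only [a1, Finset.sum_const, Finset.card_univ, nsmul_eq_mul, mul_one]
    have : (0 : ℝ) ≤ Fintype.card (Fin 3 × Ω) := by positivity
    linarith
  obtain ⟨j, hj1, hj2⟩ := s3 _ hx
  obtain ⟨σ, hσ⟩ : ∃ σ, σ = s j (ρ x) := ⟨_, rfl⟩
  have hσ0 : 0 < σ := hσ ▸ s0 j _
  have a1 := (hc σ hσ0).2 x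
  have a2 : ∑ ω : Ω, (if ρ x ≤ 8 * L * f (j, ω) x then (1 : ℝ) else 0) ≤
      ∑ ω : Fin 3 × Ω, if ρ x ≤ 8 * L * f ω x then (1 : ℝ) else 0 := by
    rw [Fintype.sum_prod_type]
    exact Finset.single_le_sum (f := fun i : Fin 3 =>
      ∑ ω : Ω, if ρ x ≤ 8 * L * f (i, ω) x then (1 : ℝ) else 0)
      (fun i _ => Finset.sum_nonneg fun ω _ => hnn _) (Finset.mem_univ j)
  have a3 : ({ω | ∃ y, d x y ≤ σ / (2 * L) ∧ c σ ω x ≠ c σ ω y}.ncard : ℝ) =
      ∑ ω : Ω, if ∃ y, d x y ≤ σ / (2 * L) ∧ c σ ω x ≠ c σ ω y then (1 : ℝ) else 0 := by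
    rw [Finset.sum_boole, Set.ncard_eq_toFinset_card']
    simp
  have a4 : ∀ ω : Ω, 1 ≤ (if ∃ y, d x y ≤ σ / (2 * L) ∧ c σ ω x ≠ c σ ω y then (1 : ℝ) else 0) +
      if ρ x ≤ 8 * L * f (j, ω) x then (1 : ℝ) else 0 := by
    intro ω
    by_cases hb : ∃ y, d x y ≤ σ / (2 * L) ∧ c σ ω x ≠ c σ ω y
    · rw [if_pos hb]
      linarith [hnn (j, ω)]
    · have b1 : σ / (2 * L) ≤ σ := div_le_self hσ0.le (by linarith)
      have b2 := hf (j, ω) x (σ / (2 * L)) hj1 hj2 (by rw [← hσ]; exact b1)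
        (by rw [← hσ]; exact hb)
      have b3 : 8 * L * (σ / (2 * L)) = 4 * σ := by field_simp; ring
      have b4 := mul_le_mul_of_nonneg_left b2 (by positivity : 0 ≤ 8 * L)
      rw [if_neg hb, if_pos (by rw [← hσ] at hj2; linarith)]
      norm_num
  have a5 := Finset.sum_le_sum fun ω (_ : ω ∈ Finset.univ) => a4 ω
  rw [Finset.sum_add_distrib, ← a3, Finset.sum_const, Finset.card_univ, nsmul_eq_mul,
    mul_one] at a5
  rw [Fintype.card_prod, Fintype.card_fin]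
  push_cast
  linarith

end Vale.Agent.P235G.E1
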