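import Vale.Agent.P235.H206.SurfCut

/-! P235G, block E1: the homology of a surface map relative to a forest (helper57). -/

set_option linter.all false

namespace Vale.Agent.P235G.Cut

open Vale.Agent.P235 Vale.Agent.P235.H206 Equiv

variable {V : Type} {G : SimpleGraph V}

/-- a dart of the forest which starts in `Z` and goes down -/
def Dn (par : V → V) (Z : Set V) (d : G.Dart) : Prop := d.fst ∈ Z ∧ d.snd = par d.fst

/-- the darts along which the surface is cut -/
def Ed (par : V → V) (Z : Set V) (L : Finset G.Dart) (d : G.Dart) : Prop :=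
  Dn par Z d ∨ Dn par Z d.symm ∨ d ∈ L ∨ d.symm ∈ L

theorem Ed.symm {par : V → V} {Z : Set V} {L : Finset G.Dart} {d : G.Dart} (h : Ed par Z L d) :
    Ed par Z L d.symm := by
  unfold Ed at h ⊢
  rw [SimpleGraph.Dart.symm_symm]
  tauto

/-- chains with boundary in `Z` are boundaries of faces off the darts `E` -/
def CR [Fintype G.Dart] [DecidableEq V] (σ : Perm G.Dart) (Z : Set V) (E : G.Dart → Prop) : Prop :=
  ∀ z : G.Dart → ZMod 2, (∀ d, z d.symm = z d) → (∀ v, v ∉ Z → ∑ d with d.fst = v, z d = 0) →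
    ∃ s : G.Dart → ZMod 2, (∀ d, s (σ d.symm) = s d) ∧ ∀ d, ¬ E d → z d = s d + s d.symm

theorem ind_par [Finite V] {par : V → V} {h : V → ℝ}
    (hp : ∀ v, par v = v ∨ (G.Adj v (par v) ∧ h (par v) < h v)) {P : V → Prop}
    (h0 : ∀ v, par v = v → P v) (h1 : ∀ v, G.Adj v (par v) → P (par v) → P v) (v : V) : P v := by
  have : IsTrans V fun a b => h a < h b := ⟨fun _ _ _ => lt_trans⟩
  have : Std.Irrefl fun a b => h a < h b := ⟨fun _ => lt_irrefl _⟩
  induction v using (Finite.wellFounded_of_trans_of_irrefl fun a b => h a < h b).induction with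
  | _ v ih => exact (hp v).elim (h0 v) fun k => h1 v k.1 (ih _ k.2)

theorem cut1 [Fintype V] [DecidableEq V] [Fintype G.Dart] {g : ℕ} {σ : Perm G.Dart}
    (hc : G.Connected) (hσ : SurfMap g G σ) {par : V → V} {h : V → ℝ}
    (hp : ∀ v, par v = v ∨ (G.Adj v (par v) ∧ h (par v) < h v)) {R : Finset V}
    (hR : ∀ v, par v = v → v ∈ R) : ∃ L : Finset G.Dart, L.card ≤ g + R.card ∧
      ∀ (Z : Set V) (L' : Finset G.Dart), L ⊆ L' → (∀ v ∈ Z, par v ∈ Z) →
        (∀ d ∈ L, d.fst ∈ Z ∧ d.snd ∈ Z) → CR σ Z (Ed par Z L') := by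
  classical
  have : Finite G.edgeSet := Finite.of_surjective (fun d : G.Dart => eOf d) exists_dart
  have : Fintype G.edgeSet := Fintype.ofFinite _
  have : Fintype (Faces G σ) := Fintype.ofFinite _
  let S := Submodule.span (ZMod 2)
    (SetLike.coe (R.image fun r => (Pi.single r 1 : V → ZMod 2)))
  have hS : Module.finrank (ZMod 2) S ≤ R.card :=
    (finrank_span_finset_le_card _).trans Finset.card_image_le
  have hT : ∀ v, ∃ c : G.edgeSet → ZMod 2, S.mkQ (bd G c) = S.mkQ (Pi.single v 1) ∧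
      ∀ Z : Set V, (∀ v ∈ Z, par v ∈ Z) → v ∈ Z → ∀ d, ¬ Dn par Z d → ¬ Dn par Z d.symm →
        c (eOf d) = 0 := by
    refine ind_par hp (fun v hv => ⟨0, ?_, fun _ _ _ _ _ _ => rfl⟩) ?_
    · rw [map_zero, map_zero, eq_comm, Submodule.mkQ_apply, Submodule.Quotient.mk_eq_zero]
      exact Submodule.subset_span (by simpa using ⟨v, hR v hv, rfl⟩)
    · rintro v hv ⟨c, c1, c2⟩
      refine ⟨Pi.single (eOf ⟨(v, par v), hv⟩) 1 + c, ?_, fun Z hZ hvZ d d1 d2 => ?_⟩
      · rw [map_add, map_add, c1, bd_single, ← map_add, add_assoc, self_add', add_zero]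
      · rw [Pi.add_apply, c2 Z hZ (hZ v hvZ) d d1 d2, add_zero, Pi.single_eq_of_ne]
        intro e
        rcases eOf_eq e with rfl | rfl
        · exact d1 ⟨hvZ, rfl⟩
        · exact d2 ⟨hvZ, rfl⟩
  choose T T1 T2 using hT
  let Ψ := Fintype.linearCombination (ZMod 2) T
  have hΨ : ∀ v, Ψ (Pi.single v 1) = T v := fun v => by simp [Ψ]
  have hQ : ∀ f, S.mkQ (bd G (Ψ f)) = S.mkQ f := fun f => by
    have : (S.mkQ ∘ₗ bd G) ∘ₗ Ψ = S.mkQ := LinearMap.pi_ext' fun v => LinearMap.ext_ring (by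
      simpa [hΨ] using T1 v)
    exact LinearMap.congr_fun this f
  let M : (G.edgeSet → ZMod 2) →ₗ[ZMod 2] (G.edgeSet → ZMod 2) := LinearMap.id + Ψ ∘ₗ bd G
  let loop : G.edgeSet → (G.edgeSet → ZMod 2) := fun e => M (Pi.single e 1)
  have hle : LinearMap.range (cb σ) ⊔ Submodule.span (ZMod 2) (Set.range loop) ≤
      LinearMap.ker (S.mkQ ∘ₗ bd G) := by
    refine sup_le ?_ (Submodule.span_le.2 ?_)
    · rintro _ ⟨s, rfl⟩
      show S.mkQ (bd G _) = 0
      rw [bd_cb hσ.fst, map_zero]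
    · rintro _ ⟨e, rfl⟩
      show S.mkQ (bd G (_ + Ψ (bd G _))) = 0
      rw [map_add, map_add, hQ, ← map_add]
      exact (congrArg S.mkQ (self_add' _)).trans (map_zero _)
  have h1 := finrank_ker_cb hc hσ.cyc
  have h2 : LinearMap.range (S.mkQ ∘ₗ bd G) = ⊤ := LinearMap.range_eq_top.2 fun q => by
    obtain ⟨f, rfl⟩ := S.mkQ_surjective q
    exact ⟨Ψ f, hQ f⟩
  have h3 := LinearMap.finrank_range_add_finrank_ker (cb σ)
  have h4 := LinearMap.finrank_range_add_finrank_ker (S.mkQ ∘ₗ bd G)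
  have h6 := S.finrank_quotient_add_finrank
  have h7 := Submodule.finrank_mono hle
  rw [h2, finrank_top] at h4
  rw [Module.finrank_fintype_fun_eq_card] at h3 h4 h6
  have h5 : Nat.card G.edgeSet + 2 ≤ Nat.card V + Nat.card (Faces G σ) + g := hσ.euler
  rw [Nat.card_eq_fintype_card, Nat.card_eq_fintype_card, Nat.card_eq_fintype_card] at h5
  obtain ⟨I, hI, hZ⟩ := exists_few loop
    (Z := LinearMap.range (cb σ) ⊔ Submodule.span (ZMod 2) (Set.range loop))
    (fun e => Submodule.mem_sup_right (Submodule.subset_span ⟨e, rfl⟩)) (g + R.card)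
    (LinearMap.range (cb σ)) le_sup_left le_rfl (by omega)
  refine ⟨I.image rep, Finset.card_image_le.trans hI, fun Z L' hL hZp hLZ z z1 z2 => ?_⟩
  have hz : ∀ d, z (rep (eOf d)) = z d := fun d => by
    rcases eOf_eq (eOf_rep (eOf d)) with k | k <;> rw [k]
    exact z1 d
  have hM : M (fun e => z (rep e)) ∈ Submodule.span (ZMod 2) (Set.range loop) := by
    rw [pi_eq_sum_univ' fun e => z (rep e), map_sum]
    exact Submodule.sum_mem _ fun e _ => by
      rw [map_smul]
      exact Submodule.smul_mem _ _ (Submodule.subset_span ⟨e, rfl⟩)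
  obtain ⟨_, ⟨s, rfl⟩, y, hy, e⟩ := Submodule.mem_sup.1 (hZ (Submodule.mem_sup_right hM))
  refine ⟨fun d => s ⟦d⟧, fun d => congrArg s (face_eq σ d), fun d hd => ?_⟩
  have t0 : ∀ v ∈ Z, T v (eOf d) = 0 := fun v hv =>
    T2 v Z hZp hv d (fun k => hd (.inl k)) fun k => hd (.inr (.inl k))
  have y0 : y (eOf d) = 0 := by
    refine Submodule.span_induction (p := fun y _ => y (eOf d) = 0) ?_ rfl
      (fun x y _ _ hx hy => by rw [Pi.add_apply, hx, hy, add_zero])
      (fun a x _ hx => by rw [Pi.smul_apply, hx, smul_zero]) hy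
    rintro _ ⟨e, he, rfl⟩
    have hm := Finset.mem_image_of_mem rep he
    show (Pi.single e 1 : G.edgeSet → ZMod 2) (eOf d) + Ψ (bd G (Pi.single e 1)) (eOf d) = 0
    rw [← eOf_rep e, bd_single, map_add, hΨ, hΨ, Pi.add_apply, t0 _ (hLZ _ hm).1,
      t0 _ (hLZ _ hm).2, Pi.single_eq_of_ne, add_zero, add_zero]
    intro k
    rcases eOf_eq k with rfl | rfl
    · exact hd (.inr (.inr (.inl (hL hm))))
    · exact hd (.inr (.inr (.inr (hL hm))))
  have e' := congrFun e (eOf d)
  rw [Pi.add_apply, y0, add_zero, cb_apply] at e'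
  rw [e']
  show _ = z (rep (eOf d)) + Ψ _ _
  rw [hz, Fintype.linearCombination_apply, Finset.sum_apply, Finset.sum_eq_zero, add_zero]
  intro v _
  by_cases hv : v ∈ Z
  · rw [Pi.smul_apply, t0 v hv, smul_zero]
  · have : bd G (fun e => z (rep e)) v = 0 := by
      rw [← z2 v hv]
      exact Finset.sum_congr rfl fun d _ => hz d
    rw [Pi.smul_apply, this, zero_smul]

end Vale.Agent.P235G.Cut
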