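import Vale.Agent.P235G.E1.Cut1
import Vale.Agent.P235.Comp.Core

/-! P235G, block E1: the boundary cycles of the cut graph (helper57). -/

set_option linter.all false

namespace Vale.Agent.P235G.Cut

open Vale.Agent.P235 Vale.Agent.P235.H206 Equiv

section hit

variable {α : Type} {ρ : Perm α} {E : α → Prop}

open Classical in
/-- the first element of `E` on the orbit -/
noncomputable def sec (ρ : Perm α) (E : α → Prop) (d : α) : α :=
  if h : ∃ k : ℕ, E (ρ^[k] d) then ρ^[Nat.find h] d else d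

theorem sec_pos {d : α} (h : E d) : sec ρ E d = d := by
  classical
  have k : ∃ k : ℕ, E (ρ^[k] d) := ⟨0, h⟩
  rw [sec, dif_pos k, (Nat.find_eq_zero k).2 h]
  rfl

theorem sec_neg {d : α} (h : ¬ E d) (k : ∃ k : ℕ, E (ρ^[k] d)) : sec ρ E (ρ d) = sec ρ E d := by
  classical
  have k' : ∃ k : ℕ, E (ρ^[k + 1] d) := by
    obtain ⟨_ | n, hn⟩ := k
    exacts [absurd hn h, ⟨n, hn⟩]
  rw [sec, sec, dif_pos k, dif_pos (show ∃ k : ℕ, E (ρ^[k] (ρ d)) from k'),
    Nat.find_comp_succ k k' h]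
  rfl

theorem ind_hit [Finite α] {P : α → Prop} (h0 : ∀ d, E d → P d)
    (h1 : ∀ d, ¬ E d → P (ρ d) → P d) {d e : α} (h : ρ.SameCycle d e) (he : E e) : P d := by
  obtain ⟨n, -, rfl⟩ := h.exists_pow_eq'
  clear h
  induction n generalizing d with
  | zero => exact h0 d he
  | succ n ih =>
    by_cases k : E d
    exacts [h0 d k, h1 d k (ih (by rwa [pow_succ] at he))]

theorem ind_cyc [Finite α] {P : α → Prop} (h1 : ∀ d, P d → P (ρ d)) {d e : α}
    (h : ρ.SameCycle d e) (hd : P d) : P e :=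
  ind_hit (E := fun x => x = e) (P := fun x => P x → P e) (fun _ k => k ▸ id)
    (fun x _ k a => k (h1 x a)) h rfl hd

end hit

variable {V : Type} {G : SimpleGraph V}

open Classical in
/-- reverse the darts of the cut graph -/
noncomputable def aE (par : V → V) (Z : Set V) (L : Finset G.Dart) : Perm G.Dart :=
  Function.Involutive.toPerm (fun d => if Ed par Z L d then d.symm else d) fun d => by
    by_cases h : Ed par Z L d
    · simp only [if_pos h, if_pos h.symm, SimpleGraph.Dart.symm_symm]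
    · simp only [if_neg h]

/-- the data of a cut -/
structure Sit [Fintype G.Dart] [DecidableEq V] (σ : Perm G.Dart) (par : V → V) (h : V → ℝ)
    (Z : Set V) (W : Finset V) (L : Finset G.Dart) : Prop where
  conn : G.Connected
  fst : ∀ d, (σ d).fst = d.fst
  cyc : ∀ d d' : G.Dart, d.fst = d'.fst → σ.SameCycle d d'
  hp : ∀ v, par v = v ∨ (G.Adj v (par v) ∧ h (par v) < h v)
  clo : ∀ v ∈ Z, par v ∈ Z
  gen : ∀ v ∈ Z, v ∈ W ∨ ∃ u ∈ Z, par u = v
  lz : ∀ d ∈ L, d.fst ∈ Z ∧ d.snd ∈ Z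
  cov : ∀ v ∈ Z, ∃ d, Ed par Z L d ∧ d.fst = v
  ne : Z.Nonempty
  cr : CR σ Z (Ed par Z L)

variable {σ : Perm G.Dart} {par : V → V} {h : V → ℝ} {Z : Set V} {W : Finset V}
  {L : Finset G.Dart}

theorem aE_pos {d : G.Dart} (k : Ed par Z L d) : aE par Z L d = d.symm := if_pos k

theorem aE_neg {d : G.Dart} (k : ¬ Ed par Z L d) : aE par Z L d = d := if_neg k

theorem phi_pos {d : G.Dart} (k : Ed par Z L d) : (σ * aE par Z L) d = σ d.symm :=
  congrArg σ (aE_pos k)

theorem phi_neg {d : G.Dart} (k : ¬ Ed par Z L d) : (σ * aE par Z L) d = σ d :=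
  congrArg σ (aE_neg k)

variable [Fintype V] [DecidableEq V] [Fintype G.Dart] (S : Sit σ par h Z W L)
include S

theorem Sit.ez {d : G.Dart} (k : Ed par Z L d) : d.fst ∈ Z := by
  rcases k with k | k | k | k
  exacts [k.1, (show d.fst = _ from k.2) ▸ S.clo _ k.1, (S.lz _ k).1, (S.lz _ k).2]

theorem Sit.phi_z {d : G.Dart} (k : d.fst ∈ Z) : ((σ * aE par Z L) d).fst ∈ Z := by
  by_cases e : Ed par Z L d
  · rw [phi_pos e, S.fst]
    exact S.ez e.symm
  · rwa [phi_neg e, S.fst]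

theorem Sit.cyc_z {d e : G.Dart} (k : d.fst ∈ Z) (c : (σ * aE par Z L).SameCycle d e) :
    e.fst ∈ Z := ind_cyc (P := fun d => d.fst ∈ Z) (fun _ => S.phi_z) c k

theorem Sit.same {d d' : G.Dart} (k : d.fst ∈ Z) (k' : d'.fst ∈ Z)
    (r : ReachOff G Z d.snd d'.snd) : (σ * aE par Z L).SameCycle d d' := by
  classical
  by_contra hn
  obtain ⟨w, hw⟩ := id r
  obtain ⟨s, s1, s2⟩ := S.cr (fun e => (chain w + Pi.single (eOf d) 1 + Pi.single (eOf d') 1 :
    G.edgeSet → ZMod 2) (eOf e)) (fun e => by rw [eOf_symm]) fun v hv => by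
      show bd G _ v = 0
      rw [map_add, map_add, bd_chain, bd_single, bd_single]
      simp only [Pi.add_apply]
      rw [Pi.single_eq_of_ne (ne_of_mem_of_not_mem k hv).symm,
        Pi.single_eq_of_ne (ne_of_mem_of_not_mem k' hv).symm]
      linear_combination CharTwo.add_self_eq_zero
        ((Pi.single d.snd 1 : V → ZMod 2) v + (Pi.single d'.snd 1 : V → ZMod 2) v)
  have e0 : ∑ e with (σ * aE par Z L).SameCycle d e, s ((σ * aE par Z L) e) =
      ∑ e with (σ * aE par Z L).SameCycle d e, s e :=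
    Finset.sum_equiv (σ * aE par Z L) (fun e => by simp only [Finset.mem_filter, Finset.mem_univ,
      true_and, Perm.sameCycle_apply_right]) fun _ _ => rfl
  have e1 : ∀ e, (σ * aE par Z L).SameCycle d e → ¬ Ed par Z L e →
      s ((σ * aE par Z L) e) + s e = (Pi.single (eOf d) 1 : G.edgeSet → ZMod 2) (eOf e) := by
    intro e c ne
    have a := s1 e.symm
    have b := S.cyc_z k c
    have n : e.edge ∉ w.edges := fun m => hw _ (w.fst_mem_support_of_mem_edges m) b
    rw [SimpleGraph.Dart.symm_symm] at a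
    rw [phi_neg ne, a, add_comm, ← s2 e ne, Pi.add_apply, Pi.add_apply,
      Pi.single_eq_of_ne (i := eOf d'), add_zero, show chain w (eOf e) = 0 by
        simp [chain, eOf, List.count_eq_zero_of_not_mem n], zero_add]
    intro q
    rcases eOf_eq q with rfl | rfl
    exacts [hn c, r.right b]
  have e2 := CharTwo.add_eq_zero.2 e0
  rw [← Finset.sum_add_distrib, Finset.sum_eq_single d, e1 d (.refl _ _)
    fun q => r.left (S.ez q.symm), Pi.single_eq_same] at e2
  · exact one_ne_zero e2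
  · intro e he ne
    by_cases q : Ed par Z L e
    · rw [phi_pos q, s1, CharTwo.add_self_eq_zero]
    · have c := (Finset.mem_filter.1 he).2
      rw [e1 e c q, Pi.single_eq_of_ne]
      intro q
      rcases eOf_eq q with rfl | rfl
      exacts [ne rfl, r.left (S.cyc_z k c)]
  · exact fun q => (q (Finset.mem_filter.2 ⟨Finset.mem_univ _, .refl _ _⟩)).elim

theorem Sit.ind {ρ : Perm G.Dart} (hρ : ρ = σ ∨ ρ = σ⁻¹) {P : G.Dart → Prop}
    (h0 : ∀ d, Ed par Z L d → P d)
    (h1 : ∀ d, d.fst ∈ Z → ¬ Ed par Z L d → P (ρ d) → P d) {d : G.Dart} (k : d.fst ∈ Z) : P d := by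
  obtain ⟨e, he, e1⟩ := S.cov _ k
  have c := S.cyc d e e1.symm
  refine ind_hit (ρ := ρ) (P := fun d => d.fst ∈ Z → P d) (fun d q _ => h0 d q)
    (fun d q a b => h1 d b q (a ?_)) ?_ he k
  · rcases hρ with rfl | rfl
    · rwa [S.fst]
    · rwa [← S.fst, Perm.coe_inv, apply_symm_apply]
  · rcases hρ with rfl | rfl
    exacts [c, Perm.sameCycle_inv.2 c]

theorem Sit.sec_neg {d : G.Dart} (k : d.fst ∈ Z) (q : ¬ Ed par Z L d) :
    sec σ (Ed par Z L) (σ d) = sec σ (Ed par Z L) d := by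
  obtain ⟨e, he, e1⟩ := S.cov _ k
  obtain ⟨n, -, rfl⟩ := (S.cyc d e e1.symm).exists_pow_eq'
  exact Cut.sec_neg q ⟨n, by rwa [Perm.iterate_eq_pow]⟩

theorem Sit.sec_spec {d : G.Dart} (k : d.fst ∈ Z) : Ed par Z L (sec σ (Ed par Z L) d) ∧
    (sec σ (Ed par Z L) d).fst = d.fst ∧ (σ * aE par Z L).SameCycle d (sec σ (Ed par Z L) d) := by
  refine S.ind (.inl rfl) (P := fun d => Ed par Z L (sec σ (Ed par Z L) d) ∧
    (sec σ (Ed par Z L) d).fst = d.fst ∧ (σ * aE par Z L).SameCycle d (sec σ (Ed par Z L) d))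
    (fun d q => ?_) (fun d a q b => ?_) k
  · rw [sec_pos q]
    exact ⟨q, rfl, .refl _ _⟩
  · rw [S.sec_neg a q, S.fst, ← phi_neg q, Perm.sameCycle_apply_left] at b
    exact b

/-- all but boundedly many sectors lie in the middle of a lane -/
theorem Sit.term : ∃ T : Set G.Dart, T.ncard ≤ 8 * L.card + 2 * W.card ∧ ∀ e, Ed par Z L e →
    e ∈ T ∨ ∃ μ, Ed par Z L μ ∧ sec σ (Ed par Z L) (σ μ.symm) = e ∧
      (Dn par Z μ ∧ Dn par Z e ∨ Dn par Z μ.symm ∧ Dn par Z e.symm) := by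
  classical
  let nx : G.Dart → G.Dart := fun d => if Ed par Z L d then sec σ (Ed par Z L) (σ d.symm) else d
  have pv : ∀ e, Ed par Z L e → ∃ μ, Ed par Z L μ ∧ sec σ (Ed par Z L) (σ μ.symm) = e := by
    intro e he
    have := S.ind (.inr rfl) (P := fun d => ∃ μ, Ed par Z L μ ∧
      sec σ (Ed par Z L) (σ μ.symm) = sec σ (Ed par Z L) (σ d)) (fun d q => ⟨d.symm, q.symm, rfl⟩)
      (fun d a q b => by rwa [Perm.coe_inv, apply_symm_apply, ← S.sec_neg a q] at b)
      (d := σ.symm e) (by rw [← S.fst, apply_symm_apply]; exact S.ez he)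
    rwa [apply_symm_apply, sec_pos he] at this
  have su : Function.Surjective nx := fun e => by
    by_cases he : Ed par Z L e
    · obtain ⟨μ, a, b⟩ := pv e he
      exact ⟨μ, (if_pos a).trans b⟩
    · exact ⟨e, if_neg he⟩
  let A : Set G.Dart := {d | Dn par Z d}
  let M : Set G.Dart := L ∪ SimpleGraph.Dart.symm '' L
  have hM : M.ncard ≤ 2 * L.card := by
    have := Set.ncard_union_le (L : Set G.Dart) (SimpleGraph.Dart.symm '' L)
    have := Set.ncard_image_le (s := (L : Set G.Dart)) (f := SimpleGraph.Dart.symm)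
    rw [Set.ncard_coe_finset] at *
    show Set.ncard (_ ∪ _) ≤ _
    omega
  have mM : ∀ d, Ed par Z L d → ¬ Dn par Z d → d ∈ M ∨ Dn par Z d.symm := by
    rintro d (q | q | q | q) n
    exacts [absurd q n, .inr q, .inl (.inl q), .inl (.inr ⟨_, q, rfl⟩)]
  have c1 : (nx ⁻¹' A).ncard = A.ncard := by
    rw [← Set.ncard_image_of_injective _ (Finite.injective_iff_surjective.2 su),
      Set.image_preimage_eq _ su]
  have c2 := Set.ncard_inter_add_ncard_diff_eq_ncard A (nx ⁻¹' A)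
  have c3 := Set.ncard_inter_add_ncard_diff_eq_ncard (nx ⁻¹' A) A
  rw [Set.inter_comm] at c3
  have c4 : ((nx ⁻¹' A \ A) \ M).ncard ≤ W.card := by
    have key : ∀ μ ∈ (nx ⁻¹' A \ A) \ M, Dn par Z μ.symm ∧ Dn par Z (nx μ) := by
      rintro μ ⟨⟨a, b⟩, c⟩
      by_cases q : Ed par Z L μ
      · exact ⟨(mM μ q b).resolve_left c, a⟩
      · exact absurd ((show nx μ = μ from if_neg q) ▸ a) b
    rw [← Set.ncard_coe_finset]
    refine Set.ncard_le_ncard_of_injOn (fun μ => μ.snd) (fun μ m => ?_) fun μ m μ' m' e =>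
      SimpleGraph.Dart.ext _ _ (Prod.ext ((key μ m).1.2.trans
        ((congrArg par e).trans (key μ' m').1.2.symm)) e)
    obtain ⟨a, b⟩ := key μ m
    have q : Ed par Z L μ.symm := .inl a
    rw [show nx μ = _ from if_pos q.symm] at b
    have f := (S.sec_spec (d := σ μ.symm) (by rw [S.fst]; exact a.1)).2.1
    rw [S.fst] at f
    have e : sec σ (Ed par Z L) (σ μ.symm) = μ.symm :=
      SimpleGraph.Dart.ext _ _ (Prod.ext f (b.2.trans ((congrArg par f).trans a.2.symm)))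
    refine (S.gen _ a.1).resolve_right ?_
    rintro ⟨u, hu, e'⟩
    have n : h (par μ.symm.fst) < h μ.symm.fst :=
      ((S.hp _).resolve_left fun k => μ.symm.adj.ne (a.2.trans k).symm).2
    obtain k | k := S.hp u
    · rw [← e', k, k] at n
      exact lt_irrefl _ n
    have := ind_cyc (P := fun d => d.fst = μ.symm.fst ∧ sec σ (Ed par Z L) d = μ.symm)
      (fun d ⟨x, y⟩ => ⟨(S.fst d).trans x, ?_⟩) (S.cyc μ.symm ⟨(par u, u), k.1.symm⟩ e'.symm)
      ⟨rfl, sec_pos q⟩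
    · rw [sec_pos (.inr (.inl ⟨hu, rfl⟩))] at this
      rw [← a.2, ← this.2] at n
      exact lt_asymm n k.2
    · by_cases t : Ed par Z L d
      · rw [sec_pos t] at y
        rw [y, e]
      · rw [S.sec_neg (x ▸ a.1) t, y]
  have c5 := Set.ncard_le_ncard_diff_add_ncard (nx ⁻¹' A \ A) M
  refine ⟨nx '' (A \ nx ⁻¹' A ∪ nx ⁻¹' A \ A ∪ M) ∪ M, ?_, fun e he => ?_⟩
  · have := Set.ncard_union_le (nx '' (A \ nx ⁻¹' A ∪ nx ⁻¹' A \ A ∪ M)) M
    have := Set.ncard_image_le (s := A \ nx ⁻¹' A ∪ nx ⁻¹' A \ A ∪ M) (f := nx)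
    have := Set.ncard_union_le (A \ nx ⁻¹' A ∪ nx ⁻¹' A \ A) M
    have := Set.ncard_union_le (A \ nx ⁻¹' A) (nx ⁻¹' A \ A)
    omega
  obtain ⟨μ, a, b⟩ := pv e he
  have n : nx μ = e := (if_pos a).trans b
  have n' : μ ∈ nx ⁻¹' A ↔ Dn par Z e := by rw [← n]; rfl
  by_cases x : Dn par Z μ <;> by_cases y : Dn par Z e
  · exact .inr ⟨μ, a, b, .inl ⟨x, y⟩⟩
  · exact .inl (.inl ⟨μ, .inl (.inl ⟨x, mt n'.1 y⟩), n⟩)
  · exact .inl (.inl ⟨μ, .inl (.inr ⟨n'.2 y, x⟩), n⟩)
  · rcases mM μ a x with u | u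
    · exact .inl (.inl ⟨μ, .inr u, n⟩)
    · exact (mM e he y).imp .inr fun v => ⟨μ, a, b, .inr ⟨u, v⟩⟩

end Vale.Agent.P235G.Cut
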