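import Vale.Agent.P235U99.Defs

/-! P235G, block E1: cutting a surface graph along geodesics (statement; helper57). -/

namespace Vale.Agent.P235G

open Vale.Agent.P235 Vale.Agent.P235U

/-- The plane piece `K` with hub `o` attached to the component `C` of `G - Z`: `K - o` is `C`
with lanes over `Z`. -/
structure Pc {V : Type} (G : SimpleGraph V) (par : V → V) (Z C : Set V) (m : ℕ) {U : Type}
    (K : SimpleGraph U) (o : U) (p : U → V) (i : V → U) : Prop where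
  conn : K.Connected
  conn' : (K.induce {a | a ≠ o}).Connected
  plane : ∃ σ, PlaneMap K σ
  deg : (K.neighborSet o).ncard ≤ m
  hom : ∀ a b, K.Adj a b → a ≠ o → b ≠ o → G.Adj (p a) (p b)
  sec : ∀ v ∈ C, p (i v) = v ∧ i v ≠ o
  lift : ∀ v ∈ C, ∀ w, G.Adj v w → ∃ a, a ≠ o ∧ K.Adj (i v) a ∧ p a = w ∧ (w ∈ C → a = i w)
  lane : ∀ a, a ≠ o → (p a ∈ C ∧ a = i (p a)) ∨ (p a ∈ Z ∧ (K.Adj o a ∨ ∃ a₁ a₂, a₁ ≠ o ∧
    a₂ ≠ o ∧ K.Adj a a₁ ∧ K.Adj a a₂ ∧ p a₁ = par (p a) ∧ par (p a₂) = p a ∧ p a₂ ∈ Z))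

/-- the union of the root paths of the vertices in `W` -/
def anc {V : Type} (par : V → V) (W : Finset V) : Set V := {z | ∃ w ∈ W, ∃ k, par^[k] w = z}

/-- cutting along boundedly many paths of a spanning tree -/
def CUT : Prop := ∀ g : ℕ, ∃ n m : ℕ, ∀ (V : Type) [Finite V] (G : SimpleGraph V), G.Connected →
  OnSurface g G → ∀ (par : V → V) (h : V → ℝ) (s t : V), G.Adj s t → par s = s →
  (∀ v, v ≠ s → G.Adj v (par v) ∧ h (par v) < h v) → ∃ W : Finset V, W.card ≤ n ∧ s ∈ W ∧ t ∈ W ∧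
    ∀ x, x ∉ anc par W → ∃ (U : Type) (_ : Finite U) (K : SimpleGraph U) (o : U) (p : U → V)
      (i : V → U), Pc G par (anc par W) (compSet G (anc par W) x) m K o p i

end Vale.Agent.P235G
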