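import Vale.Agent.P235.H105.Hop
import Vale.Agent.P235.H105.Induced

/-! P235G, block E1: plane graphs from permutations; the wheel over a hypermap (helper57). -/

set_option linter.all false

namespace Vale.Agent.P235G.Whl

open Vale.Agent.P235 Equiv

section gen

variable {X A : Type} (F : X → A) (rv : X → X) (pr : X → Prop)

/-- the graph whose darts are the present elements of `X` -/
def gr : SimpleGraph A := SimpleGraph.fromRel fun a b => ∃ y, pr y ∧ F y = a ∧ F (rv y) = b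

variable {F rv pr}

theorem gr_adj (hi : ∀ y, rv (rv y) = y) (hp : ∀ y, pr y → pr (rv y))
    (hl : ∀ y, pr y → F y ≠ F (rv y)) {a b : A} :
    (gr F rv pr).Adj a b ↔ ∃ y, pr y ∧ F y = a ∧ F (rv y) = b := by
  rw [gr, SimpleGraph.fromRel_adj]
  refine ⟨?_, fun h => ⟨?_, Or.inl h⟩⟩
  · rintro ⟨-, h | ⟨y, h, h1, h2⟩⟩
    · exact h
    · exact ⟨rv y, hp y h, h2, by rw [hi, h1]⟩
  · obtain ⟨y, h, rfl, rfl⟩ := h
    exact hl y h

theorem ret_inv {α β K : Type} [Finite α] [Finite β] (ρ : Perm α) {ι : β → α}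
    (hι : Function.Injective ι) {L : α → K} (h : ∀ y, y ∉ Set.range ι → L (ρ y) = L y) (b : β) :
    L (ι (retPerm ρ hι b)) = L (ρ (ι b)) := by
  have key : ∀ j : ℕ, j < retTime ρ ι b → L ((ρ ^ (j + 1)) (ι b)) = L (ρ (ι b)) := by
    intro j
    induction j with
    | zero => intro _; rw [zero_add, pow_one]
    | succ j ih =>
      intro hj
      rw [pow_succ', Perm.mul_apply, h, ih (by omega)]
      intro hr
      have := retTime_min ρ ι b (Nat.succ_pos j) hr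
      omega
  obtain ⟨m, hm⟩ := Nat.exists_eq_succ_of_ne_zero (retTime_pos ρ ι b).ne'
  rw [retPerm_apply ρ hι, hm]
  exact key m (by omega)

/-- a rotation on `X` and the criterion modulo two give a plane map -/
theorem gen [Fintype X] [Finite A] [DecidableEq A] (ρ : Perm X) (hi : ∀ y, rv (rv y) = y)
    (hp : ∀ y, pr y → pr (rv y)) (hl : ∀ y, pr y → F y ≠ F (rv y))
    (hs : ∀ y y', pr y → pr y' → F y = F y' → F (rv y) = F (rv y') → y = y')
    (hF : ∀ y, F (ρ y) = F y) (hc : ∀ y y', F y = F y' → ρ.SameCycle y y')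
    (hcon : (gr F rv pr).Connected) (hne : ∃ y, pr y)
    (hz : ∀ Z : X → ZMod 2, (∀ y, Z (rv y) = Z y) → (∀ y, ¬ pr y → Z y = 0) →
      (∀ a, ∑ y with F y = a, Z y = 0) →
      ∃ L : X → ZMod 2, (∀ y, Z y = L y + L (ρ y)) ∧ ∀ y, L (rv y) = L (ρ y)) :
    ∃ σ, PlaneMap (gr F rv pr) σ := by
  classical
  have := Fintype.ofFinite A
  have : Fintype (gr F rv pr).Dart := Fintype.ofFinite _
  have := hcon.nonempty
  choose ι h1 h2 h3 using fun d : (gr F rv pr).Dart => (gr_adj hi hp hl).1 d.adj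
  have hι : Function.Injective ι := fun d d' e => SimpleGraph.Dart.ext _ _
    (Prod.ext (by rw [← h2, ← h2, e]) (by rw [← h3, ← h3, e]))
  have hr : ∀ y, pr y → y ∈ Set.range ι := fun y hy =>
    ⟨⟨(F y, F (rv y)), (gr_adj hi hp hl).2 ⟨y, hy, rfl, rfl⟩⟩, hs _ _ (h1 _) hy (h2 _) (h3 _)⟩
  have hsy : ∀ d, ι d.symm = rv (ι d) := fun d => hs _ _ (h1 _) (hp _ (h1 _))
    (by rw [h2, h3]; rfl) (by rw [h3, hi, h2]; rfl)
  refine ⟨retPerm ρ hι, SurfMap.plane hcon ⟨fun d => ?_, fun d d' e => retPerm_sameCycle ρ hι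
    (hc _ _ (by rw [h2, h2, e])), ?_⟩⟩
  · rw [← h2, ret_inv ρ hι (L := F) (fun y _ => hF y), hF, h2]
  rw [add_zero]
  obtain ⟨y0, hy0⟩ := hne
  obtain ⟨d0, -⟩ := hr y0 hy0
  refine euler_of_cycles ⟨d0⟩ fun z z1 z2 => ?_
  have e1 : ∀ d, Function.extend ι z 0 (ι d) = z d := hι.extend_apply z 0
  have e0 : ∀ y, ¬ pr y → Function.extend ι z 0 y = 0 := fun y hy =>
    Function.extend_apply' _ _ _ fun ⟨d, e⟩ => hy (e ▸ h1 d)
  refine (hz (Function.extend ι z 0) (fun y => ?_) e0 fun a => ?_).elim fun L ⟨l1, l2⟩ => ?_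
  rotate_left 2
  · refine ⟨fun d => L (ι d), fun d => ?_, fun d => ?_⟩
    · show L (ι (retPerm ρ hι d.symm)) = _
      rw [ret_inv ρ hι (L := L) (fun y hy => ?_), ← l2, hsy, hi]
      have := l1 y
      rw [e0 y fun k => hy (hr y k)] at this
      exact (CharTwo.add_eq_zero.1 this.symm).symm
    · show _ = L (ι d) + L (ι d.symm)
      rw [← e1, l1, hsy, l2]
  · by_cases hy : pr y
    · obtain ⟨d, rfl⟩ := hr y hy
      rw [← hsy, e1, e1, z1]
    · rw [e0 y hy, e0 _ fun k => hy (hi y ▸ hp _ k)]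
  · rw [← z2 a]
    refine (Finset.sum_of_injOn ι hι.injOn (fun d hd => ?_) (fun y _ hy => ?_)
      fun d _ => (e1 d).symm).symm
    · simp only [Finset.coe_filter, Finset.mem_univ, true_and, Set.mem_setOf_eq,
        Finset.mem_filter] at hd ⊢
      rw [h2, hd]
    · refine e0 y fun k => hy ?_
      obtain ⟨d, rfl⟩ := hr y k
      refine ⟨d, ?_, rfl⟩
      simp_all

end gen

section wheel

variable {D A : Type} (φ : Perm D) (α : D → D) (ctr : D → A) (sp ch : D → Prop)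

/-- the start of a dart of the wheel -/
def wF : D × Fin 5 → A ⊕ D := fun y => if y.2 = 0 then .inl (ctr y.1) else .inr y.1

/-- the reversal -/
def wR : D × Fin 5 → D × Fin 5 := fun y =>
  ![(y.1, 1), (y.1, 0), (φ.symm y.1, 4), (α y.1, 3), (φ y.1, 2)] y.2

/-- the darts which are present -/
def wP : D × Fin 5 → Prop := fun y =>
  ![sp y.1, sp y.1, ch (φ.symm y.1), α y.1 ≠ y.1, ch y.1] y.2

/-- the rotation -/
def wρ : Perm (D × Fin 5) where
  toFun y := ![(φ y.1, 0), (y.1, 2), (y.1, 3), (y.1, 4), (y.1, 1)] y.2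
  invFun y := ![(φ.symm y.1, 0), (y.1, 4), (y.1, 1), (y.1, 2), (y.1, 3)] y.2
  left_inv := by rintro ⟨d, i⟩; fin_cases i <;> simp
  right_inv := by rintro ⟨d, i⟩; fin_cases i <;> simp

/-- centres, and the elements of `D` joined by spokes, chords and the involution -/
abbrev wh : SimpleGraph (A ⊕ D) := gr (wF ctr) (wR φ α) (wP φ α sp ch)

variable {φ α ctr sp ch}

theorem wR_wR (hα : ∀ d, α (α d) = d) (y : D × Fin 5) : wR φ α (wR φ α y) = y := by
  obtain ⟨d, i⟩ := y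
  fin_cases i <;> simp [wR, hα]

theorem wP_wR (hα : ∀ d, α (α d) = d) (y : D × Fin 5) (h : wP φ α sp ch y) :
    wP φ α sp ch (wR φ α y) := by
  obtain ⟨d, i⟩ := y
  fin_cases i <;> simp [wR, wP, hα] at h ⊢ <;> first | exact h | exact Ne.symm h

theorem wF_ne (h2 : ∀ d, ch d → φ (φ d) ≠ d) (y : D × Fin 5) (h : wP φ α sp ch y) :
    wF ctr y ≠ wF ctr (wR φ α y) := by
  obtain ⟨d, i⟩ := y
  fin_cases i <;> simp [wR, wP, wF] at h ⊢
  · exact fun e => h2 _ h (by rw [Equiv.apply_symm_apply, ← e]; nth_rw 1 [e]; simp)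
  · exact Ne.symm h
  · exact fun e => h2 _ h (by rw [← e, ← e])

theorem wh_adj (hα : ∀ d, α (α d) = d) (h2 : ∀ d, ch d → φ (φ d) ≠ d) {a b : A ⊕ D} :
    (wh φ α ctr sp ch).Adj a b ↔ ∃ d, (sp d ∧ a = .inl (ctr d) ∧ b = .inr d) ∨
      (sp d ∧ a = .inr d ∧ b = .inl (ctr d)) ∨ (ch d ∧ a = .inr (φ d) ∧ b = .inr d) ∨
      (α d ≠ d ∧ a = .inr d ∧ b = .inr (α d)) ∨ (ch d ∧ a = .inr d ∧ b = .inr (φ d)) := by
  rw [gr_adj (wR_wR hα) (wP_wR hα) (wF_ne h2)]
  constructor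
  · rintro ⟨⟨d, i⟩, h, rfl, rfl⟩
    fin_cases i
    · exact ⟨d, .inl ⟨h, rfl, rfl⟩⟩
    · exact ⟨d, .inr (.inl ⟨h, rfl, rfl⟩)⟩
    · exact ⟨φ.symm d, .inr (.inr (.inl ⟨h, by simp [wF], rfl⟩))⟩
    · exact ⟨d, .inr (.inr (.inr (.inl ⟨h, rfl, rfl⟩)))⟩
    · exact ⟨d, .inr (.inr (.inr (.inr ⟨h, rfl, rfl⟩)))⟩
  · rintro ⟨d, ⟨h, rfl, rfl⟩ | ⟨h, rfl, rfl⟩ | ⟨h, rfl, rfl⟩ | ⟨h, rfl, rfl⟩ | ⟨h, rfl, rfl⟩⟩
    · exact ⟨(d, 0), h, rfl, rfl⟩
    · exact ⟨(d, 1), h, rfl, rfl⟩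
    · exact ⟨(φ d, 2), by simpa [wP] using h, rfl, by simp [wF, wR]⟩
    · exact ⟨(d, 3), h, rfl, rfl⟩
    · exact ⟨(d, 4), h, rfl, rfl⟩

theorem wheel [Fintype D] [Finite A] [DecidableEq A] [Nonempty D] (hα : ∀ d, α (α d) = d)
    (h2 : ∀ d, ch d → φ (φ d) ≠ d) (h3 : ∀ d, ch d → φ d ≠ α d) (hF : ∀ d, ctr (φ d) = ctr d)
    (hc : ∀ d d', ctr d = ctr d' → φ.SameCycle d d') (hcon : (wh φ α ctr sp ch).Connected)
    (hne : ∃ d, sp d)
    (hz : ∀ c : D → ZMod 2, (∀ d, c (α d) = c d) → (∀ d, α d = d → c d = 0) →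
      (∀ a, ∑ d with ctr d = a, c d = 0) →
      ∃ u : D → ZMod 2, (∀ d, u (φ (α d)) = u d) ∧ ∀ d, c d = u d + u (α d)) :
    ∃ σ, PlaneMap (wh φ α ctr sp ch) σ := by
  classical
  refine gen (wρ φ) (wR_wR hα) (wP_wR hα) (wF_ne h2) ?_ ?_ ?_ hcon
    (hne.elim fun d h => ⟨(d, 0), h⟩) fun Z z1 z2 z3 => ?_
  · rintro ⟨d, i⟩ ⟨d', j⟩ a b e e'
    fin_cases i <;> fin_cases j <;> simp [wR, wP, wF] at a b e e' ⊢ <;> try exact e
    all_goals first | exact e' | subst e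
    · exact h3 _ a (by rw [Equiv.apply_symm_apply, e', hα])
    · exact h2 _ b (by rw [← e', Equiv.apply_symm_apply])
    · exact h3 _ b (by rw [Equiv.apply_symm_apply, ← e', hα])
    · exact h3 _ b e'.symm
    · exact h2 _ a (by rw [e', Equiv.apply_symm_apply])
    · exact h3 _ a e'
  · rintro ⟨d, i⟩
    fin_cases i <;> simp [wρ, wF, hF]
  · have k0 : ∀ d d', φ.SameCycle d d' → (wρ φ).SameCycle (d, 0) (d', 0) := by
      rintro d _ h
      obtain ⟨n, -, rfl⟩ := h.exists_pow_eq'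
      induction n with
      | zero => exact .refl _ _
      | succ n ih =>
        rw [pow_succ', Perm.mul_apply]
        exact (ih ⟨n, rfl⟩).trans ⟨1, rfl⟩
    have k1 : ∀ d (i : Fin 5), i ≠ 0 → (wρ φ).SameCycle (d, 1) (d, i) := by
      intro d i hi
      fin_cases i
      exacts [absurd rfl hi, ⟨0, rfl⟩, ⟨1, rfl⟩, ⟨2, rfl⟩, ⟨3, rfl⟩]
    rintro ⟨d, i⟩ ⟨d', j⟩ e
    by_cases hi : i = 0 <;> by_cases hj : j = 0 <;> simp [wF, hi, hj] at e
    · rw [hi, hj]
      exact k0 _ _ (hc _ _ e)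
    · rw [← e]
      exact (k1 d i hi).symm.trans (k1 d j hj)
  have s1 : ∀ d, Z (d, 1) = Z (d, 0) := fun d => z1 (d, 0)
  have s2 : ∀ d, Z (d, 2) = Z (φ.symm d, 4) := fun d => (z1 (d, 2)).symm
  have v : ∀ d, Z (d, 0) = Z (φ.symm d, 4) + Z (d, 3) + Z (d, 4) := by
    intro d
    have := z3 (.inr d)
    rw [Finset.sum_filter, Fintype.sum_prod_type, Finset.sum_eq_single d (fun b _ hb =>
      Finset.sum_eq_zero fun i _ => if_neg (by unfold wF; split_ifs <;> simp [hb])) (by simp),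
      Fin.sum_univ_five] at this
    simp [wF, s1, s2] at this
    linear_combination (exp := 1) this - CharTwo.add_self_eq_zero (Z (φ.symm d, 4) + Z (d, 3) + Z (d, 4))
  refine (hz (fun d => Z (d, 3)) (fun d => z1 (d, 3))
    (fun d h => z2 (d, 3) fun k => k h) fun a => ?_).elim fun u ⟨u1, u2⟩ => ?_
  rotate_left
  · have u3 : ∀ d, u (α d) = u (φ d) := fun d => by rw [← u1, hα]
    refine ⟨fun y => ![u y.1 + Z (φ.symm y.1, 4), u (φ y.1) + Z (y.1, 4), u y.1 + Z (φ.symm y.1, 4),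
      u y.1, u (φ y.1)] y.2, ?_, ?_⟩
    · rintro ⟨d, i⟩
      have a := u2 d
      have b := v d
      rw [u3] at a
      have t := CharTwo.add_self_eq_zero (u d)
      have t' := CharTwo.add_self_eq_zero (u (φ d))
      fin_cases i <;> simp [wρ, s1, s2]
      · linear_combination a + b
      · linear_combination a + b
      · linear_combination -t
      · exact a
      · linear_combination -t'
    · rintro ⟨d, i⟩
      fin_cases i <;> simp [wρ, wR, u3]
  · have := z3 (.inl a)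
    rw [Finset.sum_filter, Fintype.sum_prod_type] at this
    simp only [Fin.sum_univ_five] at this
    simp [wF] at this
    rw [← Finset.sum_filter] at this
    simp only [v, Finset.sum_add_distrib] at this
    have e : ∑ d with ctr d = a, Z (φ.symm d, 4) = ∑ d with ctr d = a, Z (d, 4) :=
      Finset.sum_equiv φ.symm (fun d => by
        simp only [Finset.mem_filter, Finset.mem_univ, true_and]
        rw [← hF (φ.symm d), Equiv.apply_symm_apply]) fun _ _ => rfl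
    rw [e] at this
    linear_combination this - CharTwo.add_self_eq_zero (∑ d with ctr d = a, Z (d, 4))

end wheel

end Vale.Agent.P235G.Whl
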