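import Vale.Agent.P235G.E1.Cut2
import Vale.Agent.P235G.E1.Whl
import Vale.Agent.P235G.E1.CutSt
import Vale.Agent.P235.R2.H582.Contract

/-! P235G, block E1: the plane piece of one component (helper57). -/

set_option linter.all false

namespace Vale.Agent.P235G.Cut

open Vale.Agent.P235 Vale.Agent.P235.H206 Equiv Whl Sum

theorem conn_of {X : Type} {H : SimpleGraph X} {S : Set X} {y0 : X} (h0 : y0 ∈ S)
    (h : ∀ Q : X → Prop, Q y0 → (∀ a b, H.Adj a b → a ∈ S → b ∈ S → Q a → Q b) → ∀ y ∈ S, Q y) :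
    (H.induce S).Connected := by
  refine (SimpleGraph.connected_iff_exists_forall_reachable _).2 ⟨⟨y0, h0⟩, fun y => ?_⟩
  exact (h (fun y => ∃ hy : y ∈ S, (H.induce S).Reachable ⟨y0, h0⟩ ⟨y, hy⟩) ⟨h0, .refl _⟩
    (fun a b k _ hb ⟨ha, r⟩ => ⟨hb, r.trans (SimpleGraph.Adj.reachable k)⟩) y y.2).2

variable {V : Type} {G : SimpleGraph V}

theorem ind_comp {Z : Set V} {x : V} {P : V → Prop} (h : ∀ u v, G.Adj u v → u ∈ compSet G Z x →
    v ∈ compSet G Z x → P u → P v) {a b : V} (ha : a ∈ compSet G Z x) (hb : b ∈ compSet G Z x) :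
    P a → P b := by
  obtain ⟨w, hw⟩ := ReachOff.trans (ReachOff.symm ha) hb
  induction w with
  | nil => exact id
  | cons k w ih =>
    have hv := ReachOff.trans ha (.adj (ReachOff.right ha) (hw _ (by simp)) k)
    exact fun q => ih hv hb (fun a m => hw a (by simp [m])) (h _ _ k ha hv q)

variable {σ : Perm G.Dart} {par : V → V} {h : V → ℝ} {Z : Set V} {W : Finset V}
  {L : Finset G.Dart} [Fintype V] [DecidableEq V] [Fintype G.Dart]

theorem Sit.att (S : Sit σ par h Z W L) {x : V} (hx : x ∉ Z) :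
    ∃ d : G.Dart, d.fst ∈ Z ∧ d.snd ∈ compSet G Z x := by
  obtain ⟨z, hz⟩ := S.ne
  obtain ⟨d, -, a, b⟩ := (S.conn x z).some.exists_boundary_dart (compSet G Z x) (ReachOff.refl hx)
    fun k => ReachOff.right k hz
  exact ⟨d.symm, by_contra fun k => b (ReachOff.trans a (.adj (ReachOff.right a) k d.adj)), a⟩

theorem Sit.piece (S : Sit σ par h Z W L) {x : V} (hx : x ∉ Z) :
    ∃ (U : Type) (_ : Finite U) (K : SimpleGraph U) (o : U) (p : U → V) (i : V → U),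
      Pc G par Z (compSet G Z x) (8 * L.card + 2 * W.card + 1) K o p i := by
  classical
  obtain ⟨d0, z0, c0⟩ := S.att hx
  obtain ⟨T, hT, tm⟩ := S.term
  set C := compSet G Z x with hC
  set φ0 := σ * aE par Z L with hφ0
  have zC : ∀ v ∈ C, v ∉ Z := fun v k => ReachOff.right k
  have cC : ∀ d : G.Dart, d.snd ∈ C → d.fst ∉ Z → d.fst ∈ C := fun d a b =>
    ReachOff.trans a (.adj (zC _ a) b d.adj.symm)
  have nE : ∀ d : G.Dart, d.fst ∈ C ∨ d.snd ∈ C → ¬ Ed par Z L d := fun d a q =>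
    a.elim (fun a => zC _ a (S.ez q)) fun a => zC _ a (S.ez q.symm)
  have fC : ∀ d : G.Dart, d.fst ∉ Z → (φ0 d).fst = d.fst := fun d a => by
    rw [phi_neg fun q => a (S.ez q), S.fst]
  have iC : ∀ d : G.Dart, (φ0 d).fst ∈ C ↔ d.fst ∈ C := fun d => by
    by_cases a : d.fst ∈ Z
    · exact iff_of_false (fun k => zC _ k (S.phi_z a)) fun k => zC _ k a
    · rw [fC d a]
  let D := {d : G.Dart // d.fst ∈ C ∨ φ0.SameCycle d0 d}
  have mem : ∀ e : G.Dart, e.fst ∈ C ∨ e.snd ∈ C → e.fst ∈ C ∨ φ0.SameCycle d0 e := fun e a =>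
    or_iff_not_imp_left.2 fun k => S.same z0 (by_contra fun n => k (cC e (a.resolve_left k) n))
      (ReachOff.trans (ReachOff.symm c0) (a.resolve_left k))
  have oz : ∀ d : D, d.1.fst ∉ C → d.1.fst ∈ Z := fun d a => S.cyc_z z0 (d.2.resolve_left a)
  obtain ⟨φ, φ1, φ2⟩ : ∃ φ : Perm D, (∀ d, (φ d).1 = φ0 d.1) ∧
      ∀ d d' : D, φ0.SameCycle d.1 d'.1 → φ.SameCycle d d' :=
    ⟨φ0.subtypePerm fun d => by rw [iC, Perm.sameCycle_apply_right], fun _ => rfl,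
      fun _ _ k => k.subtypePerm⟩
  obtain ⟨α, α1, α2⟩ : ∃ α : D → D, (∀ d : D, d.1.fst ∈ C ∨ d.1.snd ∈ C → (α d).1 = d.1.symm) ∧
      ∀ d : D, ¬ (d.1.fst ∈ C ∨ d.1.snd ∈ C) → α d = d :=
    ⟨fun d => if k : d.1.fst ∈ C ∨ d.1.snd ∈ C then ⟨d.1.symm, mem _ k.symm⟩ else d,
      fun d k => by simp only [dif_pos k], fun d k => dif_neg k⟩
  obtain ⟨ctr, c1, c2⟩ : ∃ ctr : D → Option C, (∀ (d : D) (k : d.1.fst ∈ C), ctr d = some ⟨_, k⟩) ∧
      ∀ d : D, d.1.fst ∉ C → ctr d = none :=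
    ⟨fun d => if k : d.1.fst ∈ C then some ⟨_, k⟩ else none, fun d k => dif_pos k,
      fun d k => dif_neg k⟩
  have c3 : ∀ (d : D) (v : C), ctr d = some v ↔ d.1.fst = v := fun d v => by
    by_cases k : d.1.fst ∈ C
    · rw [c1 d k, Option.some_inj, Subtype.ext_iff]
    · exact iff_of_false (by simp [c2 d k]) fun e => k (e ▸ v.2)
  obtain ⟨sc, s1⟩ : ∃ sc : D → D, ∀ d : D, d.1.fst ∉ C → (sc d).1 = sec σ (Ed par Z L) d.1 :=
    ⟨fun d => if k : d.1.fst ∈ C then d else ⟨_, .inr ((d.2.resolve_left k).trans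
      (S.sec_spec (oz d k)).2.2)⟩, fun d k => by simp only [dif_neg k]⟩
  obtain ⟨r, r1, r2, r3⟩ : ∃ r : Option C ⊕ D → Option C ⊕ D, (∀ a, r (inl a) = inl a) ∧
      (∀ d : D, d.1.fst ∈ C → r (inr d) = inl (ctr d)) ∧ ∀ d : D, d.1.fst ∉ C → r (inr d) = inr (sc d) :=
    ⟨Sum.elim inl fun d => if d.1.fst ∈ C then inl (ctr d) else inr (sc d), fun _ => rfl,
      fun d k => if_pos k, fun d k => if_neg k⟩
  have s2 : ∀ d : D, d.1.fst ∉ C → (sc d).1.fst = d.1.fst := fun d k => by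
    rw [s1 d k, (S.sec_spec (oz d k)).2.1]
  have r4 : ∀ d : D, Ed par Z L d.1 → r (inr d) = inr d := fun d q => by
    have k := fun k => nE d.1 (.inl k) q
    rw [r3 d k, Subtype.ext ((s1 d k).trans (sec_pos q))]
  have r5 : ∀ d : D, d.1.fst ∉ C → ¬ Ed par Z L d.1 → r (inr (φ d)) = r (inr d) := fun d k q => by
    have k' : (φ d).1.fst ∉ C := by rwa [φ1, iC]
    rw [r3 d k, r3 _ k', Subtype.ext (show (sc (φ d)).1 = (sc d).1 by
      rw [s1 d k, s1 _ k', φ1, phi_neg q, S.sec_neg (oz d k) q])]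
  have rr : ∀ y, r (r y) = r y := by
    rintro (a | d)
    · rw [r1, r1]
    · by_cases k : d.1.fst ∈ C
      · rw [r2 d k, r1]
      · rw [r3 d k, r4 _ (s1 d k ▸ (S.sec_spec (oz d k)).1)]
  have r0 : ∀ y, y ≠ inl none → r y ≠ inl none := by
    rintro (a | d) n
    · rwa [r1]
    · by_cases k : d.1.fst ∈ C
      · simp [r2 d k, c1 d k]
      · simp [r3 d k]
  let p0 : Option C ⊕ D → V := Sum.elim (fun a => a.elim x Subtype.val) fun d => d.1.fst
  have pr : ∀ y, p0 (r y) = p0 y := by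
    rintro (a | d)
    · rw [r1]
    · by_cases k : d.1.fst ∈ C
      · rw [r2 d k, c1 d k]
        rfl
      · rw [r3 d k]
        exact s2 d k
  have hα : ∀ d, α (α d) = d := fun d => by
    by_cases k : d.1.fst ∈ C ∨ d.1.snd ∈ C
    · exact Subtype.ext (by rw [α1 _ (by rw [α1 d k]; exact k.symm), α1 d k]; rfl)
    · rw [α2 d k, α2 d k]
  have αn : ∀ d : D, d.1.fst ∈ C ∨ d.1.snd ∈ C → α d ≠ d := fun d k e =>
    d.1.symm_ne (by rw [← α1 d k, e])
  have h2 : ∀ d : D, d.1.fst ∉ C → φ (φ d) ≠ d := fun d k e => by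
    have e1 := ind_cyc (P := fun e => φ0 (φ0 e) = e) (fun _ => congrArg φ0)
      (d.2.resolve_left k).symm (by rw [← φ1, ← φ1, e])
    have q := nE d0 (.inr c0)
    rw [phi_neg q] at e1
    by_cases q' : Ed par Z L (σ d0)
    · rw [phi_pos q'] at e1
      exact (σ d0).adj.ne (by rw [S.fst]; nth_rw 1 [← e1]; rw [S.fst]; rfl)
    rw [phi_neg q'] at e1
    obtain ⟨e, he, e2⟩ := S.cov _ z0
    rcases ind_cyc (P := fun e => e = d0 ∨ e = σ d0) (by rintro _ (rfl | rfl) <;> simp [e1])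
      (S.cyc d0 e e2.symm) (.inl rfl) with rfl | rfl
    exacts [q he, q' he]
  let H := wh φ α ctr (fun d => d.1.fst ∈ C ∨ d.1 ∈ insert d0 T) fun d => d.1.fst ∉ C
  have adj := fun a b => wh_adj (φ := φ) (ctr := ctr) (ch := fun d => d.1.fst ∉ C)
    (sp := fun d => d.1.fst ∈ C ∨ d.1 ∈ insert d0 T) hα h2 (a := a) (b := b)
  have a1 : ∀ d : D, d.1.fst ∈ C ∨ d.1 ∈ insert d0 T → H.Adj (inl (ctr d)) (inr d) := fun d k =>
    (adj _ _).2 ⟨d, .inl ⟨k, rfl, rfl⟩⟩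
  have a2 : ∀ d : D, d.1.fst ∉ C → H.Adj (inr d) (inr (φ d)) := fun d k =>
    (adj _ _).2 ⟨d, .inr (.inr (.inr (.inr ⟨k, rfl, rfl⟩)))⟩
  have a3 : ∀ d : D, d.1.fst ∈ C ∨ d.1.snd ∈ C → H.Adj (inr d) (inr (α d)) := fun d k =>
    (adj _ _).2 ⟨d, .inr (.inr (.inr (.inl ⟨αn d k, rfl, rfl⟩)))⟩
  let e0 : D := ⟨d0, .inr (.refl _ _)⟩
  have n0 : d0.fst ∉ C := fun k => zC _ k z0
  have hQ : ∀ Q : Option C ⊕ D → Prop, Q (inr e0) → (∀ a b, H.Adj a b → a ≠ inl none →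
      b ≠ inl none → Q a → Q b) → ∀ y, y ≠ inl none → Q y := by
    intro Q q0 q1
    have t1 : ∀ (d : D) (k : d.1.fst ∈ C), Q (inr d) ↔ Q (inl (some ⟨_, k⟩)) := fun d k =>
      ⟨q1 _ _ (c1 d k ▸ (a1 d (.inl k)).symm) (by simp) (by simp),
        q1 _ _ (c1 d k ▸ a1 d (.inl k)) (by simp) (by simp)⟩
    have t2 : ∀ (d : G.Dart) (k : d.fst ∈ C ∨ φ0.SameCycle d0 d) (k' : d.snd ∈ C),
        Q (inr ⟨d, k⟩) → Q (inl (some ⟨_, k'⟩)) := fun d k k' q => by
      have := q1 _ _ (a3 ⟨d, k⟩ (.inr k')) (by simp) (by simp) q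
      rw [show α ⟨d, k⟩ = ⟨d.symm, .inl k'⟩ from Subtype.ext (α1 _ (.inr k'))] at this
      exact (t1 ⟨d.symm, .inl k'⟩ k').1 this
    have t3 : ∀ v (k : v ∈ C), Q (inl (some ⟨v, k⟩)) := fun v k =>
      ind_comp (P := fun v => ∀ k : v ∈ C, Q (inl (some ⟨v, k⟩))) (fun u v a hu hv q _ =>
        t2 ⟨(u, v), a⟩ (.inl hu) hv ((t1 ⟨⟨(u, v), a⟩, .inl hu⟩ hu).2 (q hu))) c0 k
        (fun _ => t2 d0 _ c0 q0) k
    rintro ((_ | v) | d) n
    · exact absurd rfl n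
    · exact t3 v v.2
    · by_cases k : d.1.fst ∈ C
      · exact (t1 d k).2 (t3 _ k)
      · exact (ind_cyc (P := fun d : D => d.1.fst ∉ C ∧ Q (inr d)) (fun d ⟨a, b⟩ =>
          ⟨by rwa [φ1, iC], q1 _ _ (a2 d a) (by simp) (by simp) b⟩)
          (φ2 e0 d (d.2.resolve_left k)) ⟨n0, q0⟩).2
  have a0 : H.Adj (inl none) (inr e0) := c2 e0 n0 ▸ a1 e0 (.inr (.inl rfl))
  have hH : H.Connected := Quo.induce_univ_conn (conn_of (y0 := inr e0) trivial fun Q q0 q1 y _ => by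
    by_cases n : y = inl none
    · exact n ▸ q1 _ _ a0.symm trivial trivial q0
    · exact hQ Q q0 (fun a b k _ _ => q1 a b k trivial trivial) y n)
  have : Nonempty D := ⟨e0⟩
  have hP : ∃ σ, PlaneMap H σ := by
    refine wheel hα h2 (fun d k e => ?_) (fun d => ?_) (fun d d' e => φ2 _ _ ?_) hH
      ⟨e0, .inr (.inl rfl)⟩ fun c t1 t2 t3 => ?_
    · by_cases a : d.1.fst ∈ C ∨ d.1.snd ∈ C
      · exact k ((iC _).1 (by rw [← φ1, e, α1 d a]; exact a.resolve_left k))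
      · rw [α2 d a] at e
        exact h2 d k (by rw [e, e])
    · by_cases k : d.1.fst ∈ C
      · rw [c1 d k, c3, φ1, fC _ (zC _ k)]
      · rw [c2 d k, c2 _ (by rwa [φ1, iC])]
    · by_cases k : d.1.fst ∈ C
      · rw [c1 d k, eq_comm, c3] at e
        exact (ind_cyc (P := fun e => e.fst ∉ Z ∧ φ0.SameCycle d.1 e) (fun e ⟨a, b⟩ =>
          ⟨by rwa [S.fst], by rwa [← phi_neg fun q => a (S.ez q), Perm.sameCycle_apply_right]⟩)
          (S.cyc d.1 d'.1 e.symm) ⟨zC _ k, .refl _ _⟩).2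
      · exact (d.2.resolve_left k).symm.trans (d'.2.resolve_left fun k' => by
          simp [c1 d' k', c2 d k] at e)
    obtain ⟨z, z1, z2⟩ : ∃ z : G.Dart → ZMod 2, (∀ d : D, d.1.fst ∈ C ∨ d.1.snd ∈ C →
        z d.1 = c d) ∧ ∀ e, ¬ (e.fst ∈ C ∨ e.snd ∈ C) → z e = 0 :=
      ⟨fun e => if k : e.fst ∈ C ∨ e.snd ∈ C then c ⟨e, mem e k⟩ else 0, fun d k => dif_pos k,
        fun e k => dif_neg k⟩
    refine (S.cr z (fun e => ?_) fun v hv => ?_).elim fun s ⟨u1, u2⟩ =>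
      ⟨fun d => s d.1, fun d => ?_, fun d => ?_⟩
    · by_cases k : e.fst ∈ C ∨ e.snd ∈ C
      · rw [z1 ⟨e, mem e k⟩ k, ← t1, ← z1 _ (by rw [α1 _ k]; exact k.symm), α1 _ k]
      · rw [z2 e k, z2 _ fun k' => k k'.symm]
    · by_cases k : v ∈ C
      · rw [← t3 (some ⟨v, k⟩)]
        refine (Finset.sum_of_injOn Subtype.val Subtype.val_injective.injOn (fun d hd => ?_)
          (fun e he n => (n ⟨⟨e, .inl ((Finset.mem_filter.1 he).2.symm ▸ k)⟩, ?_, rfl⟩).elim)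
          fun d hd => (z1 d (.inl ?_)).symm).symm
        · simpa [c3] using hd
        · simpa [c3] using he
        · rwa [(c3 _ _).1 (Finset.mem_filter.1 hd).2]
      · refine Finset.sum_eq_zero fun e he => z2 e fun a => k ?_
        rw [← (Finset.mem_filter.1 he).2] at hv ⊢
        exact a.elim id fun a => cC e a hv
    · show s (φ (α d)).1 = s d.1
      by_cases k : d.1.fst ∈ C ∨ d.1.snd ∈ C
      · rw [φ1, α1 d k, phi_neg (nE d.1.symm k.symm), u1]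
      rw [α2 d k, φ1]
      by_cases q : Ed par Z L d.1
      · rw [phi_pos q, u1]
      · rw [phi_neg q, CharTwo.add_eq_zero.1 ((u2 _ q).symm.trans (z2 _ k)), ← u1 d.1.symm]
        rfl
    · show c d = s d.1 + s (α d).1
      by_cases k : d.1.fst ∈ C ∨ d.1.snd ∈ C
      · rw [α1 d k, ← z1 d k, u2 _ (nE _ k)]
      · rw [t2 d (α2 d k), α2 d k, CharTwo.add_self_eq_zero]
  let π : Option C ⊕ D → {y // r y = y} := fun y => ⟨r y, rr y⟩
  have πs : ∀ a, π a.1 = a := fun a => Subtype.ext a.2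
  have π0 : ∀ y, y ≠ inl none → π y ≠ π (inl none) := fun y n e =>
    r0 y n ((congrArg Subtype.val e).trans (r1 _))
  have aK : ∀ y y', H.Adj y y' → p0 y ≠ p0 y' → (Quo.quo H π).Adj (π y) (π y') := fun y y' a n =>
    ⟨fun e => n (by rw [← pr, ← pr y']; exact congrArg (fun a => p0 a.1) e), y, y', a, rfl, rfl⟩
  obtain ⟨i, i1⟩ : ∃ i : V → {y // r y = y}, ∀ v (k : v ∈ C), i v = π (inl (some ⟨v, k⟩)) :=
    ⟨fun v => if k : v ∈ C then π (inl (some ⟨v, k⟩)) else π (inl none), fun v k => dif_pos k⟩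
  have i2 : ∀ d : D, d.1.fst ∈ C → π (inr d) = i d.1.fst := fun d k => by
    rw [i1 _ k]
    exact Subtype.ext ((r2 d k).trans ((r1 _).trans (by rw [c1 d k])).symm)
  refine ⟨_, inferInstance, Quo.quo H π, π (inl none), fun a => p0 a.1, i,
    Quo.quo_conn hH fun a => ⟨_, πs a⟩, conn_of (π0 (inr e0) (by simp)) fun Q q0 q1 a n => ?_,
    Quo.rowQuo R2.H582.Contract.rowCon _ _ H π hH hP (fun w => conn_of (πs w) fun Q q0 q1 => ?_)
    (Finite.one_lt_card_iff_nontrivial.2 ⟨_, _, π0 (inr e0) (by simp)⟩), ?_, ?_, fun v k => ?_,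
    fun v k w a => ?_, ?_⟩
  · rw [← πs a] at n ⊢
    refine hQ (fun y => Q (π y)) q0 (fun y y' k m m' q => ?_) _ fun e => n (by rw [e])
    by_cases e : π y = π y'
    · exact e ▸ q
    · exact q1 _ _ ⟨e, y, y', k, rfl, rfl⟩ (π0 y m) (π0 y' m') q
  · have t : ∀ y, r y = y → π y = w → Q y := fun y e e' =>
      (e.symm.trans (congrArg Subtype.val e')).symm ▸ q0
    rintro (a | d) e
    · exact t _ (r1 a) e
    by_cases k : d.1.fst ∈ C
    · have e' : π (inl (ctr d)) = w := (Subtype.ext ((r1 _).trans (r2 d k).symm)).trans e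
      exact q1 _ _ (a1 d (.inl k)) e' e (t _ (r1 _) e')
    · refine S.ind (.inl rfl) (P := fun e => ∀ d : D, d.1 = e → π (inr d) = w → Q (inr d))
        (fun _ q d e e' => t _ (r4 d (e ▸ q)) e') ?_ (oz d k) d rfl e
      rintro _ a q b d rfl e
      have k := fun k => zC _ k a
      have e' : π (inr (φ d)) = w := (Subtype.ext (r5 d k q)).trans e
      exact q1 _ _ (a2 d k).symm e' e (b _ (by rw [φ1, phi_neg q]) e')
  · refine (Set.ncard_le_ncard (t := (fun d : D => π (inr d)) '' {d | d.1 ∈ insert d0 T})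
      ?_).trans ((Set.ncard_image_le (Set.toFinite _)).trans ((Set.ncard_le_ncard_of_injOn Subtype.val
        (fun _ k => k) Subtype.val_injective.injOn).trans
          ((Set.ncard_insert_le _ _).trans (by omega))))
    rintro _ ⟨n, y, y', a, e, rfl⟩
    obtain rfl : y = inl none := by_contra fun m => π0 y m e
    obtain ⟨d, ⟨k, e1, rfl⟩ | ⟨-, e1, -⟩ | ⟨-, e1, -⟩ | ⟨-, e1, -⟩ | ⟨-, e1, -⟩⟩ := (adj _ _).1 a
    · exact ⟨d, k.resolve_left fun k => by simp [c1 d k] at e1, rfl⟩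
    all_goals cases e1
  · have t1 : ∀ d : D, π (inl (ctr d)) ≠ π (inr d) → π (inl (ctr d)) = π (inl none) := fun d n => by
      rw [c2 d fun k => n (Subtype.ext ((r1 _).trans (r2 d k).symm))]
    have t2 : ∀ d : D, d.1.fst ∉ C → π (inr d) ≠ π (inr (φ d)) →
        G.Adj (p0 (r (inr d))) (p0 (r (inr (φ d)))) := fun d k n => by
      have q : Ed par Z L d.1 := by_contra fun q => n (Subtype.ext (r5 d k q).symm)
      rw [pr, pr]
      show G.Adj d.1.fst (φ d).1.fst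
      rw [φ1, phi_pos q, S.fst]
      exact d.1.adj
    rintro _ _ ⟨n, y, y', a, rfl, rfl⟩ m m'
    obtain ⟨d, ⟨-, rfl, rfl⟩ | ⟨-, rfl, rfl⟩ | ⟨k, rfl, rfl⟩ | ⟨k, rfl, rfl⟩ | ⟨k, rfl, rfl⟩⟩ :=
      (adj _ _).1 a
    · exact absurd (t1 d n) m
    · exact absurd (t1 d n.symm) m'
    · exact (t2 d k n.symm).symm
    · show G.Adj (p0 (r _)) (p0 (r _))
      rw [pr, pr]
      show G.Adj d.1.fst (α d).1.fst
      rw [α1 d (by_contra fun n => k (α2 d n))]
      exact d.1.adj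
    · exact t2 d k n
  · rw [i1 v k]
    exact ⟨pr _, π0 _ (by simp)⟩
  · let d : D := ⟨⟨(v, w), a⟩, .inl k⟩
    have e : (α d).1.fst = w := by rw [α1 d (.inl k)]; rfl
    refine ⟨π (inr (α d)), π0 _ (by simp), i2 d k ▸ aK _ _ (a3 d (.inl k)) ?_, (pr _).trans e,
      fun m => by rw [i2 _ (e.symm ▸ m), e]⟩
    exact fun n => a.ne (n.trans e)
  · rintro ⟨(_ | v) | d, e⟩ n
    · exact absurd (Subtype.ext e.symm) n
    · exact .inl ⟨v.2, (i1 v v.2).symm ▸ Subtype.ext e.symm⟩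
    have k : d.1.fst ∉ C := fun k => by simp [r2 d k] at e
    have q : Ed par Z L d.1 := by
      rw [r3 d k, inr.injEq] at e
      rw [← e, s1 d k]
      exact (S.sec_spec (oz d k)).1
    have e' : π (inr d) = ⟨inr d, e⟩ := Subtype.ext e
    refine .inr ⟨oz d k, (tm d.1 q).imp (fun t => ⟨n.symm, _, _,
      a1 d (.inr (.inr t)), by rw [c2 d k], e'⟩) ?_⟩
    rintro ⟨μ, q', e1, t⟩
    have z1 : (σ μ.symm).fst ∈ Z := by rw [S.fst]; exact S.ez q'.symm
    have f1 : d.1.fst = μ.snd := by rw [← e1, (S.sec_spec z1).2.1, S.fst]; rfl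
    have f2 : (φ d).1.fst = d.1.snd := by rw [φ1, phi_pos q, S.fst]; rfl
    let m : D := ⟨μ, .inr ((d.2.resolve_left k).trans (by
      rw [← e1, ← Perm.sameCycle_apply_right, phi_pos q']
      exact (S.sec_spec z1).2.2.symm))⟩
    have km : m.1.fst ∉ C := fun k => nE μ (.inl k) q'
    have km' : (φ m).1.fst ∉ C := by rwa [φ1, iC]
    have b1 := aK _ _ (a2 d k) fun n => d.1.adj.ne (n.trans f2)
    have b2 := aK _ _ (a2 m km).symm fun n => μ.adj.ne
      (n.symm.trans (show (φ m).1.fst = _ by rw [φ1, phi_pos q', S.fst]; rfl))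
    rw [show π (inr (φ m)) = π (inr d) from Subtype.ext ((r3 _ km').trans
      ((congrArg inr (Subtype.ext (by rw [s1 _ km', φ1, phi_pos q', e1]))).trans e.symm))] at b2
    rw [e'] at b1 b2
    have p1 : p0 (r (inr (φ d))) = d.1.snd := (pr _).trans f2
    have p2 : p0 (r (inr m)) = μ.fst := pr _
    rcases t with ⟨t, t'⟩ | ⟨t, t'⟩
    · exact ⟨_, _, π0 _ (by simp), π0 _ (by simp), b1, b2, p1.trans t'.2,
        (congrArg par p2).trans (t.2.symm.trans f1.symm), p2 ▸ t.1⟩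
    · exact ⟨_, _, π0 _ (by simp), π0 _ (by simp), b2, b1,
        p2.trans (t.2.trans (congrArg par f1.symm)), (congrArg par p1).trans t'.2.symm, p1 ▸ t'.1⟩

end Vale.Agent.P235G.Cut
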