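import Vale.Agent.P235.Bdl.B1

/-!
P235G, block E1 (helper14): directed cuts.  `IsD D`: `D` is a finite nonnegative combination of
directed cuts.  `q d u`: the directed length which belongs to a `1`-Lipschitz function `u`.
The directed form of an embedding which is exact on one pair.
-/

namespace Vale.Agent.P235G.E1

open Finset Vale.Agent.P235

/-- the directed cut of the set `c` -/
def dc {V : Type} (c : V → Bool) (a b : V) : ℝ := if c a = true ∧ c b = false then 1 else 0

/-- finite nonnegative combination of directed cuts -/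
def IsD {V : Type} (D : V → V → ℝ) : Prop :=
  ∃ (ι : Type) (_ : Fintype ι) (w : ι → ℝ) (c : ι → V → Bool),
    (∀ i, 0 ≤ w i) ∧ ∀ x y, D x y = ∑ i, w i * dc (c i) x y

/-- the directed length -/
def q {V : Type} (d : V → V → ℝ) (u : V → ℝ) (a b : V) : ℝ := d a b - u b + u a

/-- `u` is `1`-Lipschitz -/
def Lip {V : Type} (d : V → V → ℝ) (u : V → ℝ) : Prop := ∀ a b, u b ≤ u a + d a b

/-- the directed cut on truth values -/
def db (p r : Bool) : ℝ := if p = true ∧ r = false then 1 else 0

theorem dc_eq {V : Type} (c : V → Bool) (a b : V) : dc c a b = db (c a) (c b) := rfl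

section dc
variable {V : Type}

theorem dc_nonneg (c : V → Bool) (a b : V) : 0 ≤ dc c a b := by
  unfold dc; split_ifs <;> norm_num

theorem dc_le_one (c : V → Bool) (a b : V) : dc c a b ≤ 1 := by
  unfold dc; split_ifs <;> norm_num

theorem dc_self (c : V → Bool) (a : V) : dc c a a = 0 := by
  unfold dc; cases c a <;> simp

theorem dc_tri (c : V → Bool) (a b e : V) : dc c a e ≤ dc c a b + dc c b e := by
  unfold dc; cases c a <;> cases c b <;> cases c e <;> norm_num

theorem dc_not (c : V → Bool) (a b : V) : dc (fun v => !c v) a b = dc c b a := by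
  unfold dc; cases h1 : c a <;> cases h2 : c b <;> simp [h1, h2]

theorem dc_add (c : V → Bool) (a b : V) :
    dc c a b + dc c b a = if c a = c b then 0 else 1 := by
  unfold dc; cases c a <;> cases c b <;> norm_num

theorem dc_sub (c : V → Bool) (a b : V) :
    dc c a b - dc c b a = (if c a = true then 1 else 0) - (if c b = true then 1 else 0) := by
  unfold dc; cases c a <;> cases c b <;> norm_num

end dc

namespace IsD

variable {V : Type} {D E : V → V → ℝ}

theorem self (h : IsD D) (x : V) : D x x = 0 := by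
  obtain ⟨ι, _, w, c, hw, hD⟩ := h
  rw [hD]; simp only [dc_self, mul_zero, sum_const_zero]

theorem nonneg (h : IsD D) (x y : V) : 0 ≤ D x y := by
  obtain ⟨ι, _, w, c, hw, hD⟩ := h
  rw [hD]
  exact Finset.sum_nonneg fun i _ => mul_nonneg (hw i) (dc_nonneg _ _ _)

theorem tri (h : IsD D) (x y z : V) : D x z ≤ D x y + D y z := by
  obtain ⟨ι, _, w, c, hw, hD⟩ := h
  rw [hD, hD, hD, ← Finset.sum_add_distrib]
  refine Finset.sum_le_sum fun i _ => ?_
  rw [← mul_add]
  exact mul_le_mul_of_nonneg_left (dc_tri _ _ _ _) (hw i)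

theorem congr (hD : IsD D) (h : ∀ x y, E x y = D x y) : IsD E := by
  have : E = D := by funext x y; exact h x y
  rw [this]; exact hD

theorem add (hD : IsD D) (hE : IsD E) : IsD (fun x y => D x y + E x y) := by
  obtain ⟨ι, _, w, c, hw, hD⟩ := hD
  obtain ⟨κ, _, v, d, hv, hE⟩ := hE
  refine ⟨ι ⊕ κ, inferInstance, Sum.elim w v, Sum.elim c d, ?_, ?_⟩
  · rintro (i | i)
    · exact hw i
    · exact hv i
  · intro x y
    show D x y + E x y = _
    rw [hD, hE, Fintype.sum_sum_type]
    rfl

theorem smul (hD : IsD D) {a : ℝ} (ha : 0 ≤ a) : IsD (fun x y => a * D x y) := by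
  obtain ⟨ι, _, w, c, hw, hD⟩ := hD
  refine ⟨ι, inferInstance, fun i => a * w i, c, fun i => mul_nonneg ha (hw i), ?_⟩
  intro x y
  show a * D x y = _
  rw [hD, Finset.mul_sum]
  exact Finset.sum_congr rfl fun i _ => by ring

theorem zero : IsD (fun _ _ : V => (0 : ℝ)) :=
  ⟨Empty, inferInstance, fun i => i.elim, fun i => i.elim, fun i => i.elim, by simp⟩

theorem sum {ι : Type} (s : Finset ι) (F : ι → V → V → ℝ) (h : ∀ i ∈ s, IsD (F i)) :
    IsD (fun x y => ∑ i ∈ s, F i x y) := by
  classical
  induction s using Finset.induction_on with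
  | empty => simpa using (zero : IsD (fun _ _ : V => (0 : ℝ)))
  | insert a s ha ih =>
    have h1 := h a (Finset.mem_insert_self a s)
    have h2 := ih (fun i hi => h i (Finset.mem_insert_of_mem hi))
    refine (h1.add h2).congr ?_
    intro x y
    rw [Finset.sum_insert ha]

/-- reverse all directions -/
theorem flip (hD : IsD D) : IsD (fun x y => D y x) := by
  obtain ⟨ι, _, w, c, hw, hD⟩ := hD
  refine ⟨ι, inferInstance, w, fun i v => !c i v, hw, fun x y => ?_⟩
  show D y x = _
  rw [hD]
  exact Finset.sum_congr rfl fun i _ => by rw [dc_not]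

/-- pull back along a map -/
theorem comap {W : Type} (hD : IsD D) (φ : W → V) : IsD (fun x y => D (φ x) (φ y)) := by
  obtain ⟨ι, _, w, c, hw, hD⟩ := hD
  exact ⟨ι, inferInstance, w, fun i v => c i (φ v), hw, fun x y => hD _ _⟩

theorem isL1 (hD : IsD D) : IsL1 (fun x y => D x y + D y x) := by
  obtain ⟨ι, _, w, c, hw, hD⟩ := hD
  refine ⟨ι, inferInstance, w, c, hw, fun x y => ?_⟩
  show D x y + D y x = _
  rw [hD, hD, ← Finset.sum_add_distrib]
  exact Finset.sum_congr rfl fun i _ => by rw [← mul_add, dc_add]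

/-- the antisymmetric part is a coboundary -/
theorem pot (hD : IsD D) : ∃ φ : V → ℝ, ∀ x y, D x y - D y x = φ x - φ y := by
  obtain ⟨ι, _, w, c, hw, hD⟩ := hD
  refine ⟨fun v => ∑ i, w i * (if c i v = true then 1 else 0), fun x y => ?_⟩
  rw [hD, hD, ← Finset.sum_sub_distrib, ← Finset.sum_sub_distrib]
  exact Finset.sum_congr rfl fun i _ => by rw [← mul_sub, ← mul_sub, dc_sub]

end IsD

/-- monotone thresholds -/
theorem real_dir (S : Finset ℝ) :
    ∃ (ι : Type) (_ : Fintype ι) (w : ι → ℝ) (c : ι → ℝ → Bool),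
    (∀ i, 0 ≤ w i) ∧ ∀ x ∈ S, ∀ y ∈ S, max (x - y) 0 = ∑ i, w i * dc (c i) x y := by
  classical
  induction S using Finset.induction_on_max with
  | empty =>
    exact ⟨Empty, inferInstance, fun i => i.elim, fun i => i.elim, fun i => i.elim, by simp⟩
  | insert m S hm ih =>
    obtain ⟨ι, _, w, c, hw, hc⟩ := ih
    rcases S.eq_empty_or_nonempty with rfl | hne
    · refine ⟨Empty, inferInstance, fun i => i.elim, fun i => i.elim, fun i => i.elim, ?_⟩
      intro x hx y hy
      simp at hx hy
      subst hx; subst hy; simp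
    · obtain ⟨m', hm'⟩ : ∃ m', m' = S.max' hne := ⟨_, rfl⟩
      have hm'S : m' ∈ S := hm' ▸ S.max'_mem hne
      have hlt : m' < m := hm m' hm'S
      have hle : ∀ x ∈ S, x ≤ m' := fun x hx => hm' ▸ S.le_max' x hx
      have hmin : ∀ x ∈ insert m S, min x m' ∈ S := by
        intro x hx
        rcases Finset.mem_insert.1 hx with rfl | hx
        · rw [min_eq_right hlt.le]; exact hm'S
        · rw [min_eq_left (hle x hx)]; exact hx
      refine ⟨Option ι, inferInstance, fun i => i.elim (m - m') w,
        fun i x => i.elim (decide (m' < x)) (fun i => c i (min x m')), ?_, ?_⟩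
      · rintro (_ | i)
        · simp only [Option.elim]; linarith
        · exact hw i
      · intro x hx y hy
        rw [Fintype.sum_option]
        have h1 := hc _ (hmin x hx) _ (hmin y hy)
        have h2 : ∑ i, w i * dc (fun x => c i (min x m')) x y =
            ∑ i, w i * dc (c i) (min x m') (min y m') := rfl
        simp only [Option.elim]
        rw [h2, ← h1]
        unfold dc
        rw [Finset.mem_insert] at hx hy
        rcases hx with rfl | hx <;> rcases hy with rfl | hy
        · simp [hlt]
        · have h3 := hle y hy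
          have h4 : ¬ m' < y := not_lt.2 h3
          simp only [hlt, h4, decide_true, decide_false, and_self, if_true, mul_one,
            min_eq_right hlt.le, min_eq_left h3]
          rw [max_eq_left (by linarith), max_eq_left (by linarith)]
          ring
        · have h3 := hle x hx
          have h4 : ¬ m' < x := not_lt.2 h3
          simp only [h4, decide_false, Bool.false_eq_true, false_and, if_false, mul_zero,
            min_eq_right hlt.le, min_eq_left h3, zero_add]
          rw [max_eq_right (by linarith), max_eq_right (by linarith)]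
        · have h3 := hle x hx
          have h4 : ¬ m' < x := not_lt.2 h3
          simp only [h4, decide_false, Bool.false_eq_true, false_and, if_false, mul_zero,
            min_eq_left (hle y hy), min_eq_left h3, zero_add]

/-- the level cuts of a function -/
theorem isD_line {V : Type} [Finite V] (f : V → ℝ) : IsD (fun x y => max (f x - f y) 0) := by
  classical
  have := Fintype.ofFinite V
  obtain ⟨ι, _, w, c, hw, hc⟩ := real_dir (Finset.univ.image f)
  refine ⟨ι, inferInstance, w, fun i x => c i (f x), hw, ?_⟩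
  intro x y
  exact hc _ (Finset.mem_image_of_mem f (Finset.mem_univ x)) _
    (Finset.mem_image_of_mem f (Finset.mem_univ y))

theorem max_add_max (a b : ℝ) : max (a - b) 0 + max (b - a) 0 = |a - b| := by
  rcases le_total a b with h | h
  · rw [max_eq_right (by linarith), max_eq_left (by linarith), abs_of_nonpos (by linarith)]; ring
  · rw [max_eq_left (by linarith), max_eq_right (by linarith), abs_of_nonneg (by linarith)]; ring

section lip
variable {V : Type} {d : V → V → ℝ} {u v : V → ℝ}

theorem q_nonneg (hu : Lip d u) (a b : V) : 0 ≤ q d u a b := by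
  have := hu a b; unfold q; linarith

theorem q_le (hd : IsMet d) (hu : Lip d u) (a b : V) : q d u a b ≤ 2 * d a b := by
  have := hu b a; rw [hd.symm b a] at this; unfold q; linarith

theorem q_neg (hd : IsMet d) (a b : V) : q d (fun x => -u x) a b = q d u b a := by
  unfold q; rw [hd.symm b a]; ring

theorem Lip.neg (hd : IsMet d) (hu : Lip d u) : Lip d (fun x => -u x) := by
  intro a b
  have := hu b a; rw [hd.symm b a] at this
  show -u b ≤ -u a + d a b
  linarith

theorem Lip.abs (hd : IsMet d) (hu : Lip d u) (a b : V) : |u a - u b| ≤ d a b := by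
  have h1 := hu a b
  have h2 := hu b a
  rw [hd.symm b a] at h2
  rw [abs_le]; constructor <;> linarith

theorem lip_of_abs (h : ∀ a b, |u a - u b| ≤ d a b) : Lip d u := by
  intro a b
  have := (abs_le.1 (h a b)).1
  linarith

/-- (T1) the level cuts of `u + f` are free -/
theorem line_le (hd : IsMet d) (hu : Lip d u) (hv : Lip d v) (a b : V) :
    max ((u a + v a) - (u b + v b)) 0 ≤ q d u a b := by
  refine max_le ?_ (q_nonneg hu a b)
  have := hv b a; rw [hd.symm b a] at this
  unfold q; linarith

theorem line_self_le (hd : IsMet d) (hu : Lip d u) (a b : V) : max (u a - u b) 0 ≤ q d u a b := by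
  refine max_le ?_ (q_nonneg hu a b)
  have := hd.nonneg a b
  unfold q; linarith

/-- (T1) every `1`-Lipschitz function is free -/
theorem free_lip [Finite V] (hd : IsMet d) (hu : Lip d u) (hv : Lip d v) :
    ∃ D, IsD D ∧ (∀ a b, D a b ≤ 2 * q d u a b) ∧ ∀ x y, |v x - v y| ≤ D x y + D y x := by
  refine ⟨fun a b => max ((u a + v a) - (u b + v b)) 0 + max (u a - u b) 0,
    (isD_line fun a => u a + v a).add (isD_line u), fun a b => ?_, fun x y => ?_⟩
  · have h1 := line_le hd hu hv a b
    have h2 := line_self_le hd hu a b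
    linarith
  · have h1 := max_add_max (u x + v x) (u y + v y)
    have h2 := max_add_max (u x) (u y)
    have h3 : |v x - v y| ≤ |u x + v x - (u y + v y)| + |u x - u y| := by
      have := abs_sub (u x + v x - (u y + v y)) (u x - u y)
      have e : u x + v x - (u y + v y) - (u x - u y) = v x - v y := by ring
      rwa [e] at this
    show _ ≤ max _ 0 + max _ 0 + (max _ 0 + max _ 0)
    linarith

end lip

/-- (T0, from the directed form) -/
theorem exact_of_dir {V : Type} [Finite V] {d : V → V → ℝ} (hd : IsMet d) {u : V → ℝ}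
    {s t : V} (hst : u t - u s = d s t) {D : V → V → ℝ} (hD : IsD D) {C : ℝ}
    (hC : 0 < C) (h1 : ∀ a b, D a b ≤ C * q d u a b) (h2 : ∀ x y, d x y ≤ D x y + D y x) :
    ∃ F : V → V → ℝ, IsL1 F ∧ F s t = d s t ∧ (∀ x y, 1 / (2 * C) * d x y ≤ F x y) ∧
      ∀ x y, F x y ≤ d x y := by
  obtain ⟨φ, hφ⟩ := hD.pot
  obtain ⟨l, hl⟩ : ∃ l : ℝ, l = 1 / (2 * C) := ⟨_, rfl⟩
  have hl0 : 0 < l := by rw [hl]; positivity
  have hlC : l * (2 * C) = 1 := by rw [hl]; field_simp
  have hup : ∀ x y, |(u x - l * φ x) - (u y - l * φ y)| + l * (D x y + D y x) ≤ d x y := by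
    intro x y
    have e := hφ x y
    have a1 := mul_le_mul_of_nonneg_left (h1 x y) hl0.le
    have a2 := mul_le_mul_of_nonneg_left (h1 y x) hl0.le
    have b1 : l * (C * q d u x y) = q d u x y / 2 := by
      have : l * C = 1 / 2 := by linarith
      rw [← mul_assoc, this]; ring
    have b2 : l * (C * q d u y x) = q d u y x / 2 := by
      have : l * C = 1 / 2 := by linarith
      rw [← mul_assoc, this]; ring
    rw [b1] at a1
    rw [b2] at a2
    unfold q at a1 a2
    rw [hd.symm y x] at a2
    have e2 : l * φ x - l * φ y = l * D x y - l * D y x := by rw [← mul_sub, ← e]; ring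
    rcases abs_cases ((u x - l * φ x) - (u y - l * φ y)) with ⟨h, _⟩ | ⟨h, _⟩ <;> rw [h] <;>
      nlinarith
  refine ⟨fun x y => |(u x - l * φ x) - (u y - l * φ y)| + l * (D x y + D y x),
    (isL1_line fun x => u x - l * φ x).add (hD.isL1.smul hl0.le), ?_, fun x y => ?_, hup⟩
  · refine le_antisymm (hup s t) ?_
    have e := hφ s t
    have e2 : l * φ s - l * φ t = l * D s t - l * D t s := by rw [← mul_sub, ← e]; ring
    have a1 := mul_nonneg hl0.le (hD.nonneg s t)
    have a3 := neg_le_abs ((u s - l * φ s) - (u t - l * φ t))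
    show d s t ≤ _ + l * (D s t + D t s)
    nlinarith
  · rw [← hl]
    have a1 := mul_le_mul_of_nonneg_left (h2 x y) hl0.le
    have a2 := abs_nonneg ((u x - l * φ x) - (u y - l * φ y))
    show _ ≤ _ + l * (D x y + D y x)
    linarith

/-- (T0, to the directed form) -/
theorem dir_of_exact {V : Type} {d F : V → V → ℝ} (hF : IsL1 F) {s t : V} (hst : F s t = d s t)
    {c : ℝ} (hc : 0 < c) (h1 : ∀ x y, c * d x y ≤ F x y) (h2 : ∀ x y, F x y ≤ d x y) :
    ∃ (u : V → ℝ) (D : V → V → ℝ), Lip d u ∧ u t - u s = d s t ∧ IsD D ∧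
      (∀ a b, D a b ≤ 1 / (2 * c) * q d u a b) ∧ ∀ x y, d x y ≤ D x y + D y x := by
  obtain ⟨ι, _, w, e, hw, hFe⟩ := hF
  -- two orientations of every cut: the side without `s`, the side with `t`
  let e1 : ι → V → Bool := fun i v => xor (e i v) (e i s)
  let e2 : ι → V → Bool := fun i v => !xor (e i v) (e i t)
  let D0 : V → V → ℝ := fun a b =>
    ∑ i, w i / 2 * dc (e1 i) a b + ∑ i, w i / 2 * dc (e2 i) a b
  have hw2 : ∀ i, 0 ≤ w i / 2 := fun i => by have := hw i; linarith
  have hD0 : IsD D0 :=
    IsD.add ⟨ι, inferInstance, _, e1, hw2, fun _ _ => rfl⟩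
      ⟨ι, inferInstance, _, e2, hw2, fun _ _ => rfl⟩
  have hsum : ∀ a b, D0 a b + D0 b a = F a b := by
    intro a b
    rw [hFe]
    show ∑ i, _ + ∑ i, _ + (∑ i, _ + ∑ i, _) = _
    rw [← Finset.sum_add_distrib, ← Finset.sum_add_distrib, ← Finset.sum_add_distrib]
    refine Finset.sum_congr rfl fun i _ => ?_
    simp only [e1, e2, dc_eq]
    cases e i a <;> cases e i b <;> cases e i s <;> cases e i t <;> simp [db]
  have hst0 : D0 s t = 0 := by
    show ∑ i, _ + ∑ i, _ = _
    rw [← Finset.sum_add_distrib]
    refine Finset.sum_eq_zero fun i _ => ?_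
    simp only [e1, e2, dc_eq]
    cases e i s <;> cases e i t <;> simp [db]
  obtain ⟨φ, hφ⟩ := hD0.pot
  have hq : ∀ a b, 2 * D0 a b ≤ q d φ a b := by
    intro a b
    have a1 := hφ a b
    have a2 := hsum a b
    have a3 := h2 a b
    unfold q
    linarith
  refine ⟨φ, fun a b => 1 / c * D0 a b, fun a b => ?_, ?_, hD0.smul (by positivity),
    fun a b => ?_, fun x y => ?_⟩
  · have a1 := hq a b
    have a2 := hD0.nonneg a b
    unfold q at a1
    linarith
  · have a1 := hφ s t
    have a2 := hsum s t
    linarith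
  · have a1 := mul_le_mul_of_nonneg_left (hq a b) (by positivity : (0 : ℝ) ≤ 1 / (2 * c))
    have a2 : 1 / (2 * c) * (2 * D0 a b) = 1 / c * D0 a b := by field_simp
    show 1 / c * D0 a b ≤ _
    linarith
  · have a1 := mul_le_mul_of_nonneg_left (h1 x y) (by positivity : (0 : ℝ) ≤ 1 / c)
    have a2 : 1 / c * (c * d x y) = d x y := by field_simp
    show _ ≤ 1 / c * D0 x y + 1 / c * D0 y x
    rw [← mul_add, hsum]
    linarith

end Vale.Agent.P235G.E1
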