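import Vale.Agent.P235G.E1.PadG
import Vale.Agent.P235G.E1.CutSt
import Vale.Agent.P235.Comp.PathSum

/-!
P235G, block E1 (helper14): geodesic trees, and the box of one component of `G - Z`.
-/

namespace Vale.Agent.P235G.E1

open SimpleGraph Vale.Agent.P235 Vale.Agent.P235G

variable {V : Type} {G : SimpleGraph V} {ℓ : Sym2 V → ℝ}

/-- a tree of shortest paths -/
theorem exists_par [Finite V] (hc : G.Connected) (hℓ : ∀ e ∈ G.edgeSet, 0 < ℓ e) (s : V) :
    ∃ par : V → V, par s = s ∧ ∀ v, v ≠ s →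
      G.Adj v (par v) ∧ pathDist G ℓ s (par v) + ℓ s(v, par v) = pathDist G ℓ s v := by
  have hd := pathDist_isMet hc hℓ
  have h : ∀ v, ∃ w, (v = s → w = s) ∧ (v ≠ s →
      G.Adj v w ∧ pathDist G ℓ s w + ℓ s(v, w) = pathDist G ℓ s v) := by
    intro v
    by_cases hv : v = s
    · exact ⟨s, fun _ => rfl, fun h => absurd hv h⟩
    obtain ⟨p, hp⟩ := exists_geodesic hc hℓ v s
    cases p with
    | nil => exact absurd rfl hv
    | @cons _ w _ h p =>
      refine ⟨w, fun h => absurd h hv, fun _ => ⟨h, ?_⟩⟩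
      rw [Walk.edges_cons, List.map_cons, List.sum_cons] at hp
      have h1 := pathDist_le hℓ p
      have h2 := pathDist_adj hℓ h
      have h3 := hd.tri v w s
      rw [hd.symm s w, hd.symm s v]
      linarith
  choose par h1 h2 using h
  exact ⟨par, h1 s rfl, h2⟩

theorem lane_le [Finite V] (hc : G.Connected) (hℓ : ∀ e ∈ G.edgeSet, 0 < ℓ e) {s : V}
    {par : V → V} (hs : par s = s) (hpar : ∀ v, v ≠ s →
      G.Adj v (par v) ∧ pathDist G ℓ s (par v) + ℓ s(v, par v) = pathDist G ℓ s v) (w : V)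
    (k : ℕ) : pathDist G ℓ w (par^[k] w) ≤ pathDist G ℓ s w - pathDist G ℓ s (par^[k] w) := by
  have hd := pathDist_isMet hc hℓ
  induction k with
  | zero => simp [hd.self]
  | succ k ih =>
    rw [Function.iterate_succ_apply']
    by_cases h : par^[k] w = s
    · rw [h] at ih ⊢
      rwa [hs]
    · obtain ⟨h1, h2⟩ := hpar _ h
      have h3 := pathDist_adj hℓ h1
      have h4 := hd.tri w (par^[k] w) (par (par^[k] w))
      linarith

theorem lane_abs [Finite V] (hc : G.Connected) (hℓ : ∀ e ∈ G.edgeSet, 0 < ℓ e) {s : V}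
    {par : V → V} (hs : par s = s) (hpar : ∀ v, v ≠ s →
      G.Adj v (par v) ∧ pathDist G ℓ s (par v) + ℓ s(v, par v) = pathDist G ℓ s v) (w : V)
    (j k : ℕ) : pathDist G ℓ (par^[j] w) (par^[k] w) ≤
      |pathDist G ℓ s (par^[j] w) - pathDist G ℓ s (par^[k] w)| := by
  have hd := pathDist_isMet hc hℓ
  rcases le_total j k with h | h
  · obtain ⟨n, rfl⟩ := Nat.exists_eq_add_of_le' h
    rw [Function.iterate_add_apply]
    exact (lane_le hc hℓ hs hpar _ n).trans (le_abs_self _)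
  · obtain ⟨n, rfl⟩ := Nat.exists_eq_add_of_le' h
    rw [Function.iterate_add_apply, hd.symm, abs_sub_comm]
    exact (lane_le hc hℓ hs hpar _ n).trans (le_abs_self _)

theorem walk_mid [Finite V] (hc : G.Connected) (hℓ : ∀ e ∈ G.edgeSet, 0 < ℓ e) {a b : V}
    (p : G.Walk a b) : ∀ v ∈ p.support,
      pathDist G ℓ a v + pathDist G ℓ v b ≤ (p.edges.map ℓ).sum := by
  have hd := pathDist_isMet hc hℓ
  induction p with
  | nil =>
    intro v hv
    simp only [Walk.support_nil, List.mem_singleton] at hv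
    subst hv
    simp [hd.self]
  | @cons a w b h p ih =>
    intro v hv
    rw [Walk.support_cons, List.mem_cons] at hv
    rcases hv with rfl | hv
    · rw [hd.self, zero_add]
      exact pathDist_le hℓ _
    · rw [Walk.edges_cons, List.map_cons, List.sum_cons]
      have h1 := ih v hv
      have h2 := pathDist_adj hℓ h
      have h3 := hd.tri a w v
      linarith

/-- the statement `MSt` with its constants -/
def MAt (m : ℕ) (C : ℝ) : Prop :=
  ∀ (U : Type) [Finite U] (K : SimpleGraph U) (o : U), K.Connected → (∃ σ, PlaneMap K σ) →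
    (K.neighborSet o).ncard ≤ m →
    ∀ d : ({a | a ≠ o} : Set U) → ({a | a ≠ o} : Set U) → ℝ, IsMet d →
      Gen (K.induce {a | a ≠ o}) d → ∀ z : ({a | a ≠ o} : Set U) → ℝ,
      (∀ a b : ({a | a ≠ o} : Set U), K.Adj o a → K.Adj o b → z b ≤ z a + d a b) →
      ∃ (u : ({a | a ≠ o} : Set U) → ℝ)
        (D : ({a | a ≠ o} : Set U) → ({a | a ≠ o} : Set U) → ℝ), Lip d u ∧
        (∀ a : ({a | a ≠ o} : Set U), K.Adj o a → u a = z a) ∧ IsD D ∧
        (∀ a b, D a b ≤ C * q d u a b) ∧ ∀ a b, d a b ≤ D a b + D b a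

/-- what one component of `G - Z` contributes -/
structure Comp (G : SimpleGraph V) (ℓ : Sym2 V → ℝ) (s : V) (Z A : Set V) (C : ℝ) (u : V → ℝ)
    (D : V → V → ℝ) : Prop where
  isD : IsD D
  inn : ∀ v ∈ A, ∀ w ∈ A, G.Adj v w → |u v - u w| ≤ ℓ s(v, w)
  out : ∀ v ∈ A, ∀ w ∈ Z, G.Adj v w → |u v - pathDist G ℓ s w| ≤ ℓ s(v, w)
  low : ∀ a ∈ A, ∀ b ∈ A, pathDist G ℓ a b ≤ D a b + D b a
  up : ∀ a ∈ A, ∀ (b : V) (p : G.Walk a b), (∀ v ∈ p.support, v ∉ Z) →
    D a b ≤ C * ((p.edges.map ℓ).sum - u b + u a)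

open Classical in
theorem piece [Finite V] {m : ℕ} {C : ℝ} (hC : 0 < C) (hM : MAt m C) (hc : G.Connected)
    (hℓ : ∀ e ∈ G.edgeSet, 0 < ℓ e) {s : V} {par : V → V} (hs : par s = s)
    (hpar : ∀ v, v ≠ s →
      G.Adj v (par v) ∧ pathDist G ℓ s (par v) + ℓ s(v, par v) = pathDist G ℓ s v)
    {Z : Set V} (hZ : ∀ z ∈ Z, par z ∈ Z) {x : V} (hx : x ∉ Z) {U : Type} [Finite U]
    {K : SimpleGraph U} {o : U} {p : U → V} {i : V → U}
    (h : Pc G par Z (compSet G Z x) m K o p i) :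
    ∃ u D, Comp G ℓ s Z (compSet G Z x) C u D := by
  have hd := pathDist_isMet hc hℓ
  obtain ⟨A, hA⟩ : ∃ A, A = compSet G Z x := ⟨_, rfl⟩
  have hAZ : ∀ v ∈ A, v ∉ Z := fun v hv => ReachOff.right (hA ▸ hv)
  have hAadj : ∀ v ∈ A, ∀ w, G.Adj v w → w ∉ Z → w ∈ A := by
    intro v hv w hvw hw
    rw [hA] at hv ⊢
    exact ReachOff.trans hv (ReachOff.adj (ReachOff.right hv) hw hvw)
  have hxA : x ∈ A := hA ▸ ReachOff.refl hx
  rw [← hA] at h ⊢
  let T : Set U := {a | a ≠ o}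
  let H : SimpleGraph T := K.induce T
  let lH : Sym2 T → ℝ := fun e => ℓ (e.map fun a : T => p a)
  have hadj : ∀ a b : T, H.Adj a b → G.Adj (p a) (p b) := fun a b hab => h.hom a b hab a.2 b.2
  have hlH : ∀ e ∈ H.edgeSet, 0 < lH e := by
    intro e
    induction e using Sym2.ind with
    | _ a b => exact fun he => hℓ s(p a, p b) (hadj a b he)
  have hH : H.Connected := h.conn'
  have hdH := pathDist_isMet hH hlH
  have hgen : Gen H (pathDist H lH) := fun f hf a b =>
    pathDist_gen hH (fun u v huv => (hf u v huv).trans (pathDist_adj hlH huv)) a b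
  have hedge : ∀ a b : T, K.Adj a b → pathDist H lH a b ≤ ℓ s(p a, p b) := fun a b hab =>
    pathDist_adj (G := H) hlH hab
  have hproj : ∀ a b : T, pathDist G ℓ (p a) (p b) ≤ pathDist H lH a b := by
    intro a b
    have h1 := pathDist_gen (ℓ := lH) hH (f := fun v : T => pathDist G ℓ (p a) (p v))
      (fun u v huv => ((lip_dist hd (p a)).abs hd _ _).trans (pathDist_adj hℓ (hadj u v huv))) a b
    simp only [hd.self, zero_sub, abs_neg] at h1
    exact (le_abs_self _).trans h1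
  obtain ⟨u, D, hu, huz, hD, hup, hlow⟩ := hM U K o h.conn h.plane h.deg (pathDist H lH) hdH hgen
    (fun a => pathDist G ℓ s (p a)) fun a b _ _ =>
      (hd.tri s (p a) (p b)).trans (add_le_add le_rfl (hproj a b))
  -- on the lanes `u` is the distance from `s`
  have hne : ∀ v, G.Adj v (par v) → v ≠ s := by
    rintro v hv rfl
    rw [hs] at hv
    exact hv.ne rfl
  have hlane : ∀ a : T, p a ∈ Z → K.Adj o a ∨ ∃ a₁ a₂ : T, K.Adj a a₁ ∧ K.Adj a a₂ ∧
      p a₁ = par (p a) ∧ par (p a₂) = p a ∧ p a₂ ∈ Z := by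
    intro a ha
    rcases h.lane a a.2 with ⟨h1, -⟩ | ⟨-, h1 | ⟨a₁, a₂, h1, h2, h3⟩⟩
    · exact absurd ha (hAZ _ h1)
    · exact Or.inl h1
    · exact Or.inr ⟨⟨a₁, h1⟩, ⟨a₂, h2⟩, h3⟩
  have hupper : ∀ a : T, p a ∈ Z → u a ≤ pathDist G ℓ s (p a) := by
    by_contra hno
    push Not at hno
    obtain ⟨a, ⟨ha1, ha2⟩, hmin⟩ := Set.exists_min_image
      {a : T | p a ∈ Z ∧ pathDist G ℓ s (p a) < u a} (fun a => pathDist G ℓ s (p a))
      (Set.toFinite _) hno
    rcases hlane a ha1 with h1 | ⟨a₁, a₂, h1, -, h3, -, -⟩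
    · exact absurd (huz a h1) (ne_of_gt ha2)
    · have h4 : G.Adj (p a) (par (p a)) := h3 ▸ h.hom _ _ h1 a.2 a₁.2
      have h5 := (hpar _ (hne _ h4)).2
      have h6 := hℓ s(p a, par (p a)) h4
      have h7 := hu a₁ a
      have h8 := hedge a a₁ h1
      rw [hdH.symm a₁ a] at h7
      rw [h3] at h8
      have h9 := hmin a₁ ⟨h3 ▸ hZ _ ha1, by rw [h3]; linarith⟩
      simp only [h3] at h9
      linarith
  have hlower : ∀ a : T, p a ∈ Z → pathDist G ℓ s (p a) ≤ u a := by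
    by_contra hno
    push Not at hno
    obtain ⟨a, ⟨ha1, ha2⟩, hmax⟩ := Set.exists_max_image
      {a : T | p a ∈ Z ∧ u a < pathDist G ℓ s (p a)} (fun a => pathDist G ℓ s (p a))
      (Set.toFinite _) hno
    rcases hlane a ha1 with h1 | ⟨a₁, a₂, -, h2, -, h3, h3'⟩
    · exact absurd (huz a h1) (ne_of_lt ha2)
    · have h4 : G.Adj (p a₂) (par (p a₂)) := h3.symm ▸ (h.hom _ _ h2 a.2 a₂.2).symm
      have h5 := (hpar _ (hne _ h4)).2
      have h6 := hℓ s(p a₂, par (p a₂)) h4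
      have h7 := hu a a₂
      have h8 := hedge a₂ a h2.symm
      rw [hdH.symm a a₂] at h7
      rw [h3] at h5 h6
      have h9 := hmax a₂ ⟨h3', by linarith⟩
      linarith
  let j : V → T := fun v => if hv : v ∈ A then ⟨i v, (h.sec v hv).2⟩ else ⟨i x, (h.sec x hxA).2⟩
  have hj : ∀ v ∈ A, (j v : U) = i v := fun v hv => by simp only [j, hv, dif_pos]
  have hpj : ∀ v ∈ A, p (j v) = v := fun v hv => by rw [hj v hv, (h.sec v hv).1]
  have hjadj : ∀ v ∈ A, ∀ w ∈ A, G.Adj v w → pathDist H lH (j v) (j w) ≤ ℓ s(v, w) := by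
    intro v hv w hw hvw
    obtain ⟨a, -, h2, -, h4⟩ := h.lift v hv w hvw
    have h5 := hedge (j v) (j w) (by rw [hj v hv, hj w hw, ← h4 hw]; exact h2)
    rwa [hpj v hv, hpj w hw] at h5
  have hwalk : ∀ (a b : V) (r : G.Walk a b), a ∈ A → (∀ v ∈ r.support, v ∉ Z) →
      pathDist H lH (j a) (j b) ≤ (r.edges.map ℓ).sum := by
    intro a b r
    induction r with
    | nil => intro _ _; simp [hdH.self]
    | @cons a w b hw r ih =>
      intro ha hr
      have h1 : w ∈ A := hAadj a ha w hw (hr w (by simp))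
      have h2 := ih h1 fun v hv => hr v (by simp [hv])
      have h3 := hjadj a ha w h1 hw
      have h4 := hdH.tri (j a) (j w) (j b)
      rw [Walk.edges_cons, List.map_cons, List.sum_cons]
      linarith
  refine ⟨fun v => u (j v), fun a b => D (j a) (j b), hD.comap j, fun v hv w hw hvw => ?_,
    fun v hv w hw hvw => ?_, fun a ha b hb => ?_, fun a ha b r hr => ?_⟩
  · exact (hu.abs hdH _ _).trans (hjadj v hv w hw hvw)
  · obtain ⟨a, h1, h2, h3, -⟩ := h.lift v hv w hvw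
    have h4 : p (⟨a, h1⟩ : T) ∈ Z := h3.symm ▸ hw
    have h5 : u ⟨a, h1⟩ = pathDist G ℓ s w := by
      rw [le_antisymm (hupper _ h4) (hlower _ h4)]
      exact congrArg _ h3
    have h6 := hedge (j v) ⟨a, h1⟩ (by rw [hj v hv]; exact h2)
    rw [hpj v hv] at h6
    simp only [h3] at h6
    rw [← h5]
    exact (hu.abs hdH _ _).trans h6
  · have h1 := (hproj (j a) (j b)).trans (hlow (j a) (j b))
    rwa [hpj a ha, hpj b hb] at h1
  · refine (hup (j a) (j b)).trans (mul_le_mul_of_nonneg_left ?_ hC.le)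
    have h1 := hwalk a b r ha hr
    unfold q
    linarith

end Vale.Agent.P235G.E1
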