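import Vale.Agent.P235G.E1.Fin1
import Vale.Agent.P235.H206.Final

/-!
P235G, block E1 (helper14): the boxes of the components of `G - Z` give an embedding which is exact
on the edge `s t`.
-/

namespace Vale.Agent.P235G.E1

open SimpleGraph Vale.Agent.P235 Vale.Agent.P235G

variable {V : Type} {G : SimpleGraph V} {ℓ : Sym2 V → ℝ}

open Classical in
theorem assemble [Finite V] {n : ℕ} {C L : ℝ} (hC : 0 < C) (hL : 1 ≤ L) (hc : G.Connected)
    (hℓ : ∀ e ∈ G.edgeSet, 0 < ℓ e) (hP : Pad (pathDist G ℓ) L) {s : V} {par : V → V}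
    (hs : par s = s) (hpar : ∀ v, v ≠ s →
      G.Adj v (par v) ∧ pathDist G ℓ s (par v) + ℓ s(v, par v) = pathDist G ℓ s v)
    {W : Finset V} (hW : W.card ≤ n) (hsW : s ∈ W)
    (h : ∀ x, x ∉ anc par W → ∃ u D, Comp G ℓ s (anc par W) (compSet G (anc par W) x) C u D) :
    ∃ u D, Lip (pathDist G ℓ) u ∧ (∀ z ∈ anc par W, u z = pathDist G ℓ s z) ∧ IsD D ∧
      (∀ a b, D a b ≤ (18432 * L * C + 24576 * L ^ 2 * 24 + 4 + 8 * n) * q (pathDist G ℓ) u a b) ∧
      ∀ x y, pathDist G ℓ x y ≤ D x y + D y x := by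
  have hd := pathDist_isMet hc hℓ
  obtain ⟨d, hd'⟩ : ∃ d, d = pathDist G ℓ := ⟨_, rfl⟩
  obtain ⟨Z, hZ⟩ : ∃ Z, Z = anc par W := ⟨_, rfl⟩
  rw [← hZ] at h ⊢
  have h0 : ∀ A : Set V, ∃ u D, (∃ x, x ∉ Z ∧ A = compSet G Z x) → Comp G ℓ s Z A C u D := by
    intro A
    by_cases hA : ∃ x, x ∉ Z ∧ A = compSet G Z x
    · obtain ⟨x, hx, rfl⟩ := hA
      obtain ⟨u, D, hu⟩ := h x hx
      exact ⟨u, D, fun _ => hu⟩
    · exact ⟨fun _ => 0, fun _ _ => 0, fun h => absurd h hA⟩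
  choose uC DC hCo using h0
  have hCx : ∀ x, x ∉ Z → Comp G ℓ s Z (compSet G Z x) C (uC (compSet G Z x))
      (DC (compSet G Z x)) := fun x hx => hCo _ ⟨x, hx, rfl⟩
  have hself : ∀ x, x ∉ Z → x ∈ compSet G Z x := fun x hx => ReachOff.refl hx
  have heq : ∀ x y, y ∈ compSet G Z x → compSet G Z y = compSet G Z x := by
    intro x y hy
    ext v
    exact ⟨fun hv => ReachOff.trans hy hv, fun hv => ReachOff.trans (ReachOff.symm hy) hv⟩
  let u : V → ℝ := fun v => if v ∈ Z then pathDist G ℓ s v else uC (compSet G Z v) v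
  have huZ : ∀ z ∈ Z, u z = pathDist G ℓ s z := fun z hz => if_pos hz
  have huC : ∀ x, ∀ v ∈ compSet G Z x, u v = uC (compSet G Z x) v := by
    intro x v hv
    have : v ∉ Z := ReachOff.right hv
    simp only [u, this, if_false, heq x v hv]
  have hu : Lip (pathDist G ℓ) u := by
    refine lip_of_abs (pathDist_gen hc fun v w hvw => ?_)
    have mixed : ∀ v w, G.Adj v w → v ∉ Z → w ∈ Z → |u v - u w| ≤ ℓ s(v, w) := by
      intro v w hvw hv hw
      rw [huZ w hw, huC v v (hself v hv)]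
      exact (hCx v hv).out v (hself v hv) w hw hvw
    by_cases hv : v ∈ Z
    · by_cases hw : w ∈ Z
      · rw [huZ v hv, huZ w hw]
        exact ((lip_dist hd s).abs hd v w).trans (pathDist_adj hℓ hvw)
      · rw [abs_sub_comm, Sym2.eq_swap]
        exact mixed w v hvw.symm hw hv
    · by_cases hw : w ∈ Z
      · exact mixed v w hvw hv hw
      · have hw' : w ∈ compSet G Z v := ReachOff.adj hv hw hvw
        rw [huC v v (hself v hv), huC v w hw']
        exact (hCx v hv).inn v (hself v hv) w hw' hvw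
  have hZne : Z.Nonempty := ⟨s, hZ ▸ ⟨s, hsW, 0, rfl⟩⟩
  obtain ⟨f, hf1, hf2, hf3⟩ := exists_dist hd hZne
  have hf0 : ∀ v, 0 ≤ f v := fun v => by
    obtain ⟨z, -, hz⟩ := hf2 v
    rw [hz]
    exact hd.nonneg v z
  have hbox : ∀ c, Box (pathDist G ℓ) u C c (f c / 3) := by
    intro c
    by_cases hcZ : c ∈ Z
    · refine ⟨fun _ _ => 0, IsD.zero, fun a b ha hb => ⟨mul_nonneg hC.le (q_nonneg hu a b), ?_⟩⟩
      have h1 := hf3 c c hcZ
      have h2 := hd.tri a c b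
      rw [hd.self] at h1
      rw [hd.symm a c] at h2
      linarith
    · have hpos : 0 < f c := by
        obtain ⟨z, hz1, hz⟩ := hf2 c
        rw [hz]
        exact hd.pos c z fun e => hcZ (e ▸ hz1)
      have hnear : ∀ v, pathDist G ℓ c v < f c → v ∉ Z := fun v hv hvZ =>
        absurd (hf3 c v hvZ) (not_le.2 hv)
      have hin : ∀ a, pathDist G ℓ c a ≤ f c / 3 → a ∈ compSet G Z c := by
        intro a ha
        obtain ⟨r, hr⟩ := exists_geodesic hc hℓ c a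
        refine ⟨r, fun v hv => hnear v ?_⟩
        have h1 := walk_mid hc hℓ r v hv
        have h2 := hd.nonneg v a
        linarith
      refine ⟨DC (compSet G Z c), (hCx c hcZ).isD, fun a b ha hb =>
        ⟨?_, (hCx c hcZ).low a (hin a ha) b (hin b hb)⟩⟩
      obtain ⟨r, hr⟩ := exists_geodesic hc hℓ a b
      have h1 := (hCx c hcZ).up a (hin a ha) b r fun v hv => hnear v (by
        have h1 := walk_mid hc hℓ r v hv
        have h2 := hd.tri c a v
        have h3 := hd.tri c b v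
        have h4 := hd.tri a c b
        rw [hd.symm b v] at h3
        rw [hd.symm a c] at h4
        linarith)
      rw [hr, ← huC c a (hin a ha), ← huC c b (hin b hb)] at h1
      exact h1
  obtain ⟨D1, hD1, a1, a2⟩ := LG hd hL hC (K := 24) (by norm_num) hP hu (ρ := fun v => f v / 3)
    (fun v => by have := hf0 v; positivity) (fun a b => by
      have h1 := hf1 a b
      have h2 := hd.nonneg a b
      show f b / 3 ≤ f a / 3 + _
      linarith) hbox
  obtain ⟨D2, hD2, b1, b2⟩ := free_lip hd hu (lip_dist hd s)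
  have h3 := fun w : V => exists_dist hd (A := {z | ∃ k, par^[k] w = z}) ⟨w, 0, rfl⟩
  choose g hg1 hg2 hg3 using h3
  choose D3 hD3 c1 c2 using fun w => free_lip hd hu (hg1 w)
  have hS : IsD fun a b => ∑ w ∈ W, D3 w a b := IsD.sum W D3 fun w _ => hD3 w
  refine ⟨u, fun a b => D1 a b + 2 * D2 a b + 4 * ∑ w ∈ W, D3 w a b, hu, huZ,
    (hD1.add (hD2.smul (by norm_num))).add (hS.smul (by norm_num)), fun a b => ?_, fun x y => ?_⟩
  · have e1 := a1 a b
    have e2 := b1 a b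
    have e3 := Finset.sum_le_sum fun w (_ : w ∈ W) => c1 w a b
    rw [Finset.sum_const, nsmul_eq_mul] at e3
    have e4 : (W.card : ℝ) ≤ n := by exact_mod_cast hW
    have e5 := mul_le_mul_of_nonneg_right e4 (q_nonneg hu a b)
    show D1 a b + 2 * D2 a b + 4 * ∑ w ∈ W, D3 w a b ≤ _
    linarith
  · have n1 := hD1.nonneg x y
    have n2 := hD1.nonneg y x
    have n3 := hD2.nonneg x y
    have n4 := hD2.nonneg y x
    have n5 := hS.nonneg x y
    have n6 := hS.nonneg y x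
    show _ ≤ D1 x y + 2 * D2 x y + 4 * ∑ w ∈ W, D3 w x y +
      (D1 y x + 2 * D2 y x + 4 * ∑ w ∈ W, D3 w y x)
    by_cases hxy : pathDist G ℓ x y ≤ 24 * (f x / 3)
    · have := a2 x y hxy
      linarith
    · obtain ⟨z, hz1, hz2⟩ := hf2 x
      rw [hZ] at hz1
      obtain ⟨w, hw, j, rfl⟩ := hz1
      obtain ⟨_, ⟨k, rfl⟩, hy⟩ := hg2 w y
      have e1 := hg3 w x _ ⟨j, rfl⟩
      have e2 := lane_abs hc hℓ hs hpar w j k
      have e3 := b2 x y
      have e4 := c2 w x y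
      have e5 : D3 w x y + D3 w y x ≤ ∑ w ∈ W, D3 w x y + ∑ w ∈ W, D3 w y x :=
        add_le_add
          (Finset.single_le_sum (f := fun w => D3 w x y) (fun w _ => (hD3 w).nonneg x y) hw)
          (Finset.single_le_sum (f := fun w => D3 w y x) (fun w _ => (hD3 w).nonneg y x) hw)
      have e6 := hd.tri x (par^[j] w) y
      have e7 := hd.tri (par^[j] w) (par^[k] w) y
      rw [hd.symm (par^[k] w) y] at e7
      have e8 := abs_le.1 ((lip_dist hd s).abs hd x (par^[j] w))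
      have e9 := abs_le.1 ((lip_dist hd s).abs hd y (par^[k] w))
      have e10 : |pathDist G ℓ s (par^[j] w) - pathDist G ℓ s (par^[k] w)| ≤
          pathDist G ℓ x (par^[j] w) + |pathDist G ℓ s x - pathDist G ℓ s y| +
            pathDist G ℓ y (par^[k] w) := by
        have t1 := le_abs_self (pathDist G ℓ s x - pathDist G ℓ s y)
        have t2 := neg_le_abs (pathDist G ℓ s x - pathDist G ℓ s y)
        rw [abs_le]
        constructor <;> linarith [e8.1, e8.2, e9.1, e9.2]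
      have e11 := neg_le_abs (g w x - g w y)
      have e12 := not_le.1 hxy
      linarith

/-- from the directed form to `EdgeIso` -/
theorem edgeIso_of_dir [Finite V] {C : ℝ} (hC : 0 < C) (hc : G.Connected)
    (h : ∀ ℓ : Sym2 V → ℝ, (∀ e ∈ G.edgeSet, 0 < ℓ e) → ∀ s t, G.Adj s t →
      ∃ u D, u t - u s = pathDist G ℓ s t ∧ IsD D ∧
        (∀ a b, D a b ≤ C * q (pathDist G ℓ) u a b) ∧ ∀ x y, pathDist G ℓ x y ≤ D x y + D y x) :
    EdgeIso G (2 * C) := by
  intro ℓ hℓ s t hst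
  obtain ⟨u, D, h1, h2, h3, h4⟩ := h ℓ hℓ s t hst
  obtain ⟨F, hF, hst', hlow, hup⟩ := exact_of_dir (pathDist_isMet hc hℓ) h1 h2 hC h3 h4
  obtain ⟨Ω, hΩ, μ, f, hf⟩ := hF.toL1S
  refine ⟨Ω, hΩ, μ, f, by rw [← hf]; exact hst', fun x y => ⟨by rw [← hf]; exact hup x y, ?_⟩⟩
  rw [← hf]
  have h5 := mul_le_mul_of_nonneg_left (hlow x y) (by positivity : (0 : ℝ) ≤ 2 * C)
  have h6 : 2 * C * (1 / (2 * C) * pathDist G ℓ x y) = pathDist G ℓ x y := by field_simp
  rw [h6] at h5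
  exact h5

theorem fin_of (hM : ∀ m : ℕ, ∃ C : ℝ, 0 < C ∧ MAt m C) (hCut : CUT)
    (hK : ∀ g : ℕ, ∃ r : ℕ, ∀ (V : Type) [Finite V] (G : SimpleGraph V), G.Connected →
      P235U.OnSurface g G → Kr.NoK r G) (g : ℕ) :
    ∃ C : ℝ, 1 ≤ C ∧ ∀ (V : Type) [Finite V] (G : SimpleGraph V), G.Connected →
      P235U.OnSurface g G → EdgeIso G C := by
  obtain ⟨n, m, hcut⟩ := hCut g
  obtain ⟨C, hC, hm⟩ := hM m
  obtain ⟨r, hr⟩ := hK g
  obtain ⟨L, hL⟩ : ∃ L : ℝ, L = 64 * ((r : ℝ) + 2) ^ 3 := ⟨_, rfl⟩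
  have hL1 : 1 ≤ L := hL ▸ one_le_padc r
  have h1 : 0 ≤ 18432 * L * C + 24576 * L ^ 2 * 24 := by positivity
  have h2 : (0 : ℝ) ≤ 8 * n := by positivity
  refine ⟨2 * (18432 * L * C + 24576 * L ^ 2 * 24 + 4 + 8 * n), by linarith,
    fun V _ G hc hs => edgeIso_of_dir (by linarith) hc fun ℓ hℓ s t hst => ?_⟩
  obtain ⟨par, hp1, hp2⟩ := exists_par hc hℓ s
  obtain ⟨W, hW, hsW, htW, hpc⟩ := hcut V G hc hs par (pathDist G ℓ s) s t hst hp1 fun v hv =>
    ⟨(hp2 v hv).1, by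
      have := hℓ s(v, par v) (hp2 v hv).1
      linarith [(hp2 v hv).2]⟩
  have hZ : ∀ z ∈ anc par W, par z ∈ anc par W := by
    rintro _ ⟨w, hw, k, rfl⟩
    exact ⟨w, hw, k + 1, Function.iterate_succ_apply' _ _ _⟩
  obtain ⟨u, D, -, a2, a3, a4, a5⟩ := assemble hC hL1 hc hℓ (hL ▸ pad_of_noK hc (hr V G hc hs) hℓ)
    hp1 hp2 hW hsW fun x hx => by
      obtain ⟨U, _, K, o, p, i, h⟩ := hpc x hx
      exact piece hC hm hc hℓ hp1 hp2 hZ hx h
  refine ⟨u, D, ?_, a3, a4, a5⟩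
  rw [a2 t ⟨t, htW, 0, rfl⟩, a2 s ⟨s, hsW, 0, rfl⟩, (pathDist_isMet hc hℓ).self, sub_zero]

end Vale.Agent.P235G.E1
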