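import Vale.Agent.P235L.Defs
import Vale.Agent.P235.H350.Defs
import Vale.Agent.P235.H206.Defs

/-! P235: the pieces of the sums along cliques with at most three vertices. Definitions only. -/

namespace Vale.Agent.P235G.E1

open Vale.Agent.P235 Vale.Agent.P235.H134 Vale.Agent.P235L
open Vale.Agent.P235.H350 (QuasiFour)

/-- `B` is drawn on a closed surface of Euler genus at most `g` or has treewidth at most `k`. -/
def SPiece (g k : ℕ) {W : Type} (B : SimpleGraph W) : Prop := Drawn g B ∨ TreewidthLE B k

/-- Every connected quasi-4-connected minor of `B` is drawn on a closed surface of Euler genus at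
most `g` or has treewidth at most `k`. -/
def QPiece (g k : ℕ) {W : Type} (B : SimpleGraph W) : Prop :=
  ∀ (U : Type) [Finite U] (M : SimpleGraph U), M.Connected → QuasiFour M → IsMinor M B →
    SPiece g k M

end Vale.Agent.P235G.E1
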