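import Vale.Agent.P235G.E1.Clus

/-!
P235G, block E1 (helper14): the local-to-global lemma `LG` for directed cuts.
-/

namespace Vale.Agent.P235G.E1

open Finset Vale.Agent.P235

section ada
variable {V : Type} {d : V → V → ℝ} {ρ : V → ℝ} {cen : V → V} {f : V → ℝ}

theorem Ada.ball (hd : IsMet d) (h : Ada d ρ cen f) (a : V) : d (cen a) a ≤ ρ (cen a) := by
  have h1 := h.rad a
  have h2 := hd.nonneg (cen a) a
  linarith

theorem Ada.up (hd : IsMet d) (hρ : Lip d ρ) (h : Ada d ρ cen f) (a : V) :
    ρ (cen a) ≤ 2 * ρ a := by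
  have h1 := h.rad a
  have h2 := hρ a (cen a)
  rw [hd.symm a] at h2
  linarith

theorem Ada.fle (hd : IsMet d) (hρ : Lip d ρ) (h : Ada d ρ cen f) (a : V) :
    f a ≤ 2 * ρ (cen a) := by
  have h1 := h.ball hd a
  have h2 := hρ (cen a) a
  have h3 := h.le a
  linarith

end ada

open Classical in
/-- the sets of the local measures which miss the centre -/
theorem loc1 {V : Type} [Finite V] {d : V → V → ℝ} (hd : IsMet d) {u ρ : V → ℝ} (hu : Lip d u)
    (hρ0 : ∀ v, 0 ≤ ρ v) (hρ : Lip d ρ) {cen : V → V} {f : V → ℝ} (hA : Ada d ρ cen f) {C : ℝ}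
    (hC : 0 < C) (ι : V → Type) [∀ c, Fintype (ι c)] (w : ∀ c, ι c → ℝ)
    (T : ∀ c, ι c → V → Bool) (hw : ∀ c i, 0 ≤ w c i)
    (hup : ∀ c a b, d c a ≤ ρ c → d c b ≤ ρ c → ∑ i, w c i * dc (T c i) a b ≤ C * q d u a b) :
    ∃ D, IsD D ∧ (∀ a b, D a b ≤ 2 * q d u a b) ∧
      ∀ x y m, cen x = cen y → 0 ≤ m → m ≤ f x → m ≤ f y →
        m * ∑ i, w (cen x) i * ((dc (T (cen x) i) x y + dc (T (cen x) i) y x) *
          if T (cen x) i (cen x) = true then 0 else 1) ≤
        16 * C * ρ (cen x) * (D x y + D y x + |u x - u y|) := by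
  have := Fintype.ofFinite V
  let S : (Σ c, ι c) → V → Bool := fun k v =>
    decide (cen v = k.1) && T k.1 k.2 v && !T k.1 k.2 k.1
  let p : (Σ c, ι c) → ℝ := fun k => min (w k.1 k.2 / (8 * C * ρ k.1)) 1
  have hΔ : ∀ c, 0 ≤ 8 * C * ρ c := fun c => mul_nonneg (by positivity) (hρ0 c)
  have hp0 : ∀ k, 0 ≤ p k := fun k => le_min (div_nonneg (hw _ _) (hΔ _)) zero_le_one
  have hp1 : ∀ k, p k ≤ 1 := fun k => min_le_right _ _
  have hp2 : ∀ k, p k ≤ w k.1 k.2 / (8 * C * ρ k.1) := fun k => min_le_left _ _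
  -- a sum over all sets is a sum over the sets of one cluster
  have hone : ∀ (c0 : V) (φ : (Σ c, ι c) → ℝ), (∀ k, k.1 ≠ c0 → φ k = 0) →
      ∑ k, φ k = ∑ i, φ ⟨c0, i⟩ := by
    intro c0 φ h
    rw [Fintype.sum_sigma, Finset.sum_eq_single c0]
    · intro c _ hc
      exact Finset.sum_eq_zero fun i _ => h ⟨c, i⟩ hc
    · intro h'
      exact absurd (Finset.mem_univ _) h'
  have hdc : ∀ a b, cen a = cen b → ∑ k, p k * dc (S k) a b =
      ∑ i, p ⟨cen a, i⟩ * (dc (T (cen a) i) a b * if T (cen a) i (cen a) = true then 0 else 1) := by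
    intro a b h
    rw [hone (cen a)]
    · refine Finset.sum_congr rfl fun i _ => ?_
      simp only [dc_eq, S, ← h, decide_true, Bool.true_and]
      cases T (cen a) i a <;> cases T (cen a) i b <;> cases T (cen a) i (cen a) <;> simp [db]
    · intro k hk
      have : decide (cen a = k.1) = false := decide_eq_false fun h' => hk h'.symm
      simp only [dc_eq, S, this, Bool.false_and]
      simp [db]
  obtain ⟨D, hD, h1, h2⟩ := layer hd hu hA.toClu S p hp0 hp1
  refine ⟨D, hD, fun a b => ?_, fun x y m hxy hm hmx hmy => ?_⟩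
  · have hq := q_nonneg hu a b
    refine (h1 a b).trans ?_
    split_ifs with h
    · rw [hdc a b h]
      have a1 := hup (cen a) a b (hA.ball hd a) (by rw [h]; exact hA.ball hd b)
      have a2 : f a * ∑ i, p ⟨cen a, i⟩ *
          (dc (T (cen a) i) a b * if T (cen a) i (cen a) = true then 0 else 1) ≤
          1 / (4 * C) * ∑ i, w (cen a) i * dc (T (cen a) i) a b := by
        rw [Finset.mul_sum, Finset.mul_sum]
        refine Finset.sum_le_sum fun i _ => ?_
        have b1 : f a * p ⟨cen a, i⟩ ≤ 1 / (4 * C) * w (cen a) i := by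
          have b2 := mul_le_mul (hA.fle hd hρ a) (hp2 ⟨cen a, i⟩) (hp0 _)
            (mul_nonneg (by norm_num) (hρ0 _))
          refine b2.trans ?_
          rcases (hρ0 (cen a)).eq_or_lt with h0 | h0
          · rw [← h0, mul_zero, zero_mul]
            exact mul_nonneg (by positivity) (hw _ _)
          · apply le_of_eq
            field_simp
            ring
        have b3 : (dc (T (cen a) i) a b * if T (cen a) i (cen a) = true then 0 else 1) ≤
            dc (T (cen a) i) a b := by
          have := dc_nonneg (T (cen a) i) a b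
          split_ifs <;> linarith
        have b4 : 0 ≤ f a * p ⟨cen a, i⟩ := mul_nonneg (hA.nn a) (hp0 _)
        calc _ = f a * p ⟨cen a, i⟩ *
              (dc (T (cen a) i) a b * if T (cen a) i (cen a) = true then 0 else 1) := by ring
          _ ≤ f a * p ⟨cen a, i⟩ * dc (T (cen a) i) a b := mul_le_mul_of_nonneg_left b3 b4
          _ ≤ 1 / (4 * C) * w (cen a) i * dc (T (cen a) i) a b :=
              mul_le_mul_of_nonneg_right b1 (dc_nonneg _ _ _)
          _ = _ := by ring
      have a3 := mul_le_mul_of_nonneg_left a1 (by positivity : 0 ≤ 1 / (4 * C))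
      have a4 : 1 / (4 * C) * (C * q d u a b) = q d u a b / 4 := by field_simp
      linarith
    · linarith
  · obtain ⟨c, hc⟩ : ∃ c, c = cen x := ⟨_, rfl⟩
    have hcy : c = cen y := hc.trans hxy
    have hx : d c x ≤ ρ c := by rw [hc]; exact hA.ball hd x
    have hy : d c y ≤ ρ c := by rw [hcy]; exact hA.ball hd y
    have hcc : d c c ≤ ρ c := by rw [hd.self]; exact hρ0 c
    have hR : 0 ≤ D x y + D y x + |u x - u y| := by
      have := hD.nonneg x y
      have := hD.nonneg y x
      have := abs_nonneg (u x - u y)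
      linarith
    rcases (hρ0 c).eq_or_lt with h0 | h0
    · have a1 := hA.fle hd hρ x
      rw [← hc, ← h0] at a1
      have a2 : m = 0 := by linarith
      rw [a2, zero_mul]
      exact mul_nonneg (mul_nonneg (by positivity) (hρ0 _)) hR
    have hΔ0 : 0 < 8 * C * ρ c := by positivity
    have hv : ∀ v, d c v ≤ ρ c → ∑ i, w c i * dc (T c i) v c ≤ 2 * C * ρ c := by
      intro v hv
      have a1 := hup c v c hv hcc
      have a2 := q_le hd hu v c
      rw [hd.symm v c] at a2
      have a3 : C * q d u v c ≤ C * (2 * ρ c) := mul_le_mul_of_nonneg_left (by linarith) hC.le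
      linarith
    have hpe : ∀ v, d c v ≤ ρ c → ∀ i, T c i v = true → T c i c = false →
        p ⟨c, i⟩ = w c i / (8 * C * ρ c) := by
      intro v hv' i h3 h4
      refine min_eq_left ?_
      rw [div_le_one hΔ0]
      have a1 := Finset.single_le_sum (f := fun i => w c i * dc (T c i) v c)
        (fun i _ => mul_nonneg (hw c i) (dc_nonneg _ _ _)) (Finset.mem_univ i)
      have a2 : dc (T c i) v c = 1 := by simp [dc, h3, h4]
      simp only [a2, mul_one] at a1
      have a3 := hv v hv'
      have a4 : 0 ≤ C * ρ c := by positivity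
      show w c i ≤ 8 * C * ρ c
      linarith
    have hσ : ∑ k, p k * un (S k) x y ≤ 1 / 2 := by
      rw [hone c]
      · have a1 : ∑ i, p ⟨c, i⟩ * un (S ⟨c, i⟩) x y ≤
            ∑ i, 1 / (8 * C * ρ c) * (w c i * dc (T c i) x c + w c i * dc (T c i) y c) := by
          refine Finset.sum_le_sum fun i _ => ?_
          have b1 : un (S ⟨c, i⟩) x y ≤ dc (T c i) x c + dc (T c i) y c := by
            simp only [un_eq, dc_eq, S, ← hc, ← hcy, decide_true, Bool.true_and]
            cases T c i x <;> cases T c i y <;> cases T c i c <;> norm_num [db, ub]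
          have b2 := mul_le_mul (hp2 ⟨c, i⟩) b1 (un_nonneg _ _ _) (div_nonneg (hw _ _) (hΔ _))
          refine b2.trans (le_of_eq ?_)
          ring
        rw [← Finset.mul_sum, Finset.sum_add_distrib] at a1
        have a2 := mul_le_mul_of_nonneg_left (add_le_add (hv x hx) (hv y hy))
          (by positivity : 0 ≤ 1 / (8 * C * ρ c))
        have a3 : 1 / (8 * C * ρ c) * (2 * C * ρ c + 2 * C * ρ c) = 1 / 2 := by
          field_simp
          norm_num
        linarith
      · intro k hk
        have b1 : decide (cen x = k.1) = false := decide_eq_false fun h' => hk (h'.symm.trans hc.symm)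
        have b2 : decide (cen y = k.1) = false :=
          decide_eq_false fun h' => hk (h'.symm.trans hcy.symm)
        simp only [un_eq, S, b1, b2, Bool.false_and]
        simp [ub]
    have hτ : ∀ a b, cen a = c → cen b = c → d c a ≤ ρ c → ∑ k, p k * dc (S k) a b =
        1 / (8 * C * ρ c) *
          ∑ i, w c i * (dc (T c i) a b * if T c i c = true then 0 else 1) := by
      intro a b ha hb ha'
      rw [hdc a b (ha.trans hb.symm), ha, Finset.mul_sum]
      refine Finset.sum_congr rfl fun i _ => ?_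
      cases h3 : T c i a
      · simp [dc, h3]
      · cases h4 : T c i c
        · rw [hpe a ha' i h3 h4]
          ring
        · simp
    have a1 := h2 x y
    rw [hτ x y hc.symm hcy.symm hx, hτ y x hcy.symm hc.symm hy] at a1
    rw [← hc]
    obtain ⟨A, hA'⟩ : ∃ A, A = ∑ i, w c i * (dc (T c i) x y * if T c i c = true then 0 else 1) :=
      ⟨_, rfl⟩
    obtain ⟨B, hB'⟩ : ∃ B, B = ∑ i, w c i * (dc (T c i) y x * if T c i c = true then 0 else 1) :=
      ⟨_, rfl⟩
    have hnn : ∀ a b, 0 ≤ ∑ i, w c i * (dc (T c i) a b * if T c i c = true then 0 else 1) :=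
      fun a b => Finset.sum_nonneg fun i _ => mul_nonneg (hw c i)
        (mul_nonneg (dc_nonneg _ _ _) (by split_ifs <;> norm_num))
    have hA0 : 0 ≤ A := hA' ▸ hnn x y
    have hB0 : 0 ≤ B := hB' ▸ hnn y x
    have e : ∑ i, w c i * ((dc (T c i) x y + dc (T c i) y x) *
        if T c i c = true then 0 else 1) = A + B := by
      rw [hA', hB', ← Finset.sum_add_distrib]
      exact Finset.sum_congr rfl fun i _ => by ring
    rw [← hA', ← hB'] at a1
    rw [e]
    obtain ⟨σ, hσ'⟩ : ∃ σ, σ = ∑ k, p k * un (S k) x y := ⟨_, rfl⟩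
    rw [← hσ'] at a1 hσ
    have hi : 0 ≤ 1 / (8 * C * ρ c) := by positivity
    have b1 : m * (1 / 2 * (1 / (8 * C * ρ c) * A)) ≤ f x * ((1 - σ) * (1 / (8 * C * ρ c) * A)) :=
      mul_le_mul hmx (mul_le_mul_of_nonneg_right (by linarith) (mul_nonneg hi hA0))
        (mul_nonneg (by norm_num) (mul_nonneg hi hA0)) (hA.nn x)
    have b2 : m * (1 / 2 * (1 / (8 * C * ρ c) * B)) ≤ f y * ((1 - σ) * (1 / (8 * C * ρ c) * B)) :=
      mul_le_mul hmy (mul_le_mul_of_nonneg_right (by linarith) (mul_nonneg hi hB0))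
        (mul_nonneg (by norm_num) (mul_nonneg hi hB0)) (hA.nn y)
    have b3 := mul_le_mul_of_nonneg_left ((add_le_add b1 b2).trans a1)
      (by positivity : 0 ≤ 16 * C * ρ c)
    have b4 : 16 * C * ρ c * (m * (1 / 2 * (1 / (8 * C * ρ c) * A)) +
        m * (1 / 2 * (1 / (8 * C * ρ c) * B))) = m * (A + B) := by
      field_simp
      ring
    rw [b4] at b3
    exact b3

/-- a box for `u` on the ball with centre `c` and radius `r` -/
def Box {V : Type} (d : V → V → ℝ) (u : V → ℝ) (C : ℝ) (c : V) (r : ℝ) : Prop :=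
  ∃ D, IsD D ∧ ∀ a b, d c a ≤ r → d c b ≤ r → D a b ≤ C * q d u a b ∧ d a b ≤ D a b + D b a

open Classical in
/-- the local measures, glued along one family of clusters -/
theorem loc {V : Type} [Finite V] {d : V → V → ℝ} (hd : IsMet d) {u ρ : V → ℝ} (hu : Lip d u)
    (hρ0 : ∀ v, 0 ≤ ρ v) (hρ : Lip d ρ) {cen : V → V} {f : V → ℝ} (hA : Ada d ρ cen f) {C : ℝ}
    (hC : 0 < C) (hB : ∀ c, Box d u C c (ρ c)) :
    ∃ D, IsD D ∧ (∀ a b, D a b ≤ 6 * q d u a b) ∧
      ∀ x y, 2 * d x y ≤ f x → f x * d x y ≤ 64 * C * ρ x * (D x y + D y x) := by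
  have h0 : ∀ c, ∃ (ι : Type) (_ : Fintype ι) (w : ι → ℝ) (T : ι → V → Bool), (∀ i, 0 ≤ w i) ∧
      ∀ a b, d c a ≤ ρ c → d c b ≤ ρ c → ∑ i, w i * dc (T i) a b ≤ C * q d u a b ∧
        d a b ≤ ∑ i, w i * dc (T i) a b + ∑ i, w i * dc (T i) b a := by
    intro c
    obtain ⟨D, ⟨ι, _, w, T, hw, hD⟩, h⟩ := hB c
    refine ⟨ι, inferInstance, w, T, hw, fun a b ha hb => ?_⟩
    rw [← hD, ← hD]
    exact h a b ha hb
  choose ι inst w T hw h using h0
  obtain ⟨D1, hD1, a1, a2⟩ := loc1 hd hu hρ0 hρ hA hC ι w T hw fun c a b ha hb =>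
    (h c a b ha hb).1
  obtain ⟨D2, hD2, b1, b2⟩ := loc1 hd (hu.neg hd) hρ0 hρ hA hC ι w (fun c i v => !T c i v) hw
    fun c a b ha hb => by
      simp only [dc_not]
      rw [q_neg hd]
      exact (h c b a hb ha).1
  refine ⟨fun a b => D1 a b + D2 b a + 2 * max (u a - u b) 0,
    (hD1.add hD2.flip).add ((isD_line u).smul (by norm_num)), fun a b => ?_, fun x y hxy => ?_⟩
  · have c1 := a1 a b
    have c2 := b1 b a
    rw [q_neg hd] at c2
    have c3 := line_self_le hd hu a b
    show D1 a b + D2 b a + 2 * max (u a - u b) 0 ≤ _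
    linarith
  · have hR : 0 ≤ D1 x y + D2 y x + 2 * max (u x - u y) 0 +
        (D1 y x + D2 x y + 2 * max (u y - u x) 0) := by
      have := hD1.nonneg x y
      have := hD1.nonneg y x
      have := hD2.nonneg x y
      have := hD2.nonneg y x
      have := le_max_right (u x - u y) 0
      have := le_max_right (u y - u x) 0
      linarith
    show _ ≤ _ * (D1 x y + D2 y x + 2 * max (u x - u y) 0 +
      (D1 y x + D2 x y + 2 * max (u y - u x) 0))
    rcases (hA.nn x).eq_or_lt with hx | hx
    · rw [← hx, zero_mul]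
      exact mul_nonneg (mul_nonneg (by positivity) (hρ0 _)) hR
    have hd0 := hd.nonneg x y
    have hcen : cen x = cen y := by
      by_contra hne
      have := hA.bd x y hne
      linarith
    have hy : f x / 2 ≤ f y := by
      have := hA.lip x y
      linarith
    have c1 := a2 x y (f x / 2) hcen (by linarith) (by linarith) hy
    have c2 := b2 x y (f x / 2) hcen (by linarith) (by linarith) hy
    have c3 := (h (cen x) x y (hA.ball hd x) (by rw [hcen]; exact hA.ball hd y)).2
    have c4 : ∑ i, w (cen x) i * ((dc (T (cen x) i) x y + dc (T (cen x) i) y x) *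
          if T (cen x) i (cen x) = true then 0 else 1) +
        ∑ i, w (cen x) i * ((dc (fun v => !T (cen x) i v) x y + dc (fun v => !T (cen x) i v) y x) *
          if (!T (cen x) i (cen x)) = true then 0 else 1) =
        ∑ i, w (cen x) i * dc (T (cen x) i) x y + ∑ i, w (cen x) i * dc (T (cen x) i) y x := by
      rw [← Finset.sum_add_distrib, ← Finset.sum_add_distrib]
      refine Finset.sum_congr rfl fun i _ => ?_
      simp only [dc_not]
      cases T (cen x) i (cen x) <;> simp <;> ring
    have c5 : |-u x - -u y| = |u x - u y| := by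
      rw [← abs_neg]; congr 1; ring
    rw [c5] at c2
    have c6 := max_add_max (u x) (u y)
    have c7 := mul_le_mul_of_nonneg_left c3 (by linarith : 0 ≤ f x / 2)
    rw [← c4, mul_add] at c7
    have c8 : 16 * C * ρ (cen x) ≤ 32 * C * ρ x := by
      have := mul_le_mul_of_nonneg_left (hA.up hd hρ x) (by positivity : 0 ≤ 16 * C)
      linarith
    have c9 := mul_le_mul_of_nonneg_right c8 hR
    have e : 16 * C * ρ (cen x) * (D1 x y + D2 y x + 2 * max (u x - u y) 0 +
        (D1 y x + D2 x y + 2 * max (u y - u x) 0)) =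
        16 * C * ρ (cen x) * (D1 x y + D1 y x + |u x - u y|) +
        16 * C * ρ (cen x) * (D2 x y + D2 y x + |u x - u y|) := by
      rw [← c6]; ring
    rw [e] at c9
    linarith

open Classical in
/-- random bumps on the clusters -/
theorem bump {V : Type} [Finite V] {d : V → V → ℝ} (hd : IsMet d) {u : V → ℝ} (hu : Lip d u)
    {cen : V → V} {f : V → ℝ} (hA : Clu d cen f) :
    ∃ D, IsD D ∧ (∀ a b, D a b ≤ 2 * q d u a b) ∧
      ∀ x y, cen x ≠ cen y → f x ≤ 8 * (D x y + D y x) := by
  have := Fintype.ofFinite V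
  obtain ⟨D, hD, h1, h2⟩ := layer hd hu hA (fun c v => decide (cen v = c)) (fun _ => 1 / 4)
    (fun _ => by norm_num) (fun _ => by norm_num)
  refine ⟨fun a b => D a b + max (u a - u b) 0, hD.add (isD_line u), fun a b => ?_,
    fun x y hxy => ?_⟩
  · have a1 := h1 a b
    have a2 := line_self_le hd hu a b
    have a3 : (if cen a = cen b then f a * ∑ c, 1 / 4 * dc (fun v => decide (cen v = c)) a b
        else 0) = 0 := by
      split_ifs with h
      · rw [Finset.sum_eq_zero, mul_zero]
        intro c _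
        simp only [dc_eq, h]
        cases decide (cen b = c) <;> simp [db]
      · rfl
    rw [a3] at a1
    show D a b + max (u a - u b) 0 ≤ _
    linarith
  · have a1 := h2 x y
    have e1 : ∀ a b, cen a ≠ cen b →
        ∑ c, 1 / 4 * dc (fun v => decide (cen v = c)) a b = 1 / 4 := by
      intro a b h
      rw [Finset.sum_eq_single (cen a)]
      · simp [dc, h.symm]
      · intro c _ hc
        simp [dc, hc.symm]
      · intro h'
        exact absurd (Finset.mem_univ _) h'
    have e2 : ∑ c, 1 / 4 * un (fun v => decide (cen v = c)) x y = 1 / 2 := by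
      rw [Finset.sum_eq_add (cen x) (cen y) hxy]
      · simp [un]
        norm_num
      · intro c _ hc
        simp [un, hc.1.symm, hc.2.symm]
      · intro h'
        exact absurd (Finset.mem_univ _) h'
      · intro h'
        exact absurd (Finset.mem_univ _) h'
    rw [e1 x y hxy, e1 y x hxy.symm, e2] at a1
    have a2 := max_add_max (u x) (u y)
    have a3 := hA.nn y
    show _ ≤ 8 * (D x y + max (u x - u y) 0 + (D y x + max (u y - u x) 0))
    linarith

open Classical in
/-- the average of finitely many measures, each good on an event -/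
theorem average {V Ω : Type} [Fintype Ω] [Nonempty Ω] {D : Ω → V → V → ℝ} (hD : ∀ ω, IsD (D ω))
    {Q : V → V → ℝ} (hQ : ∀ ω a b, D ω a b ≤ Q a b) :
    ∃ E, IsD E ∧ (∀ a b, E a b ≤ Q a b) ∧ ∀ (x y : V) (P : Ω → Prop) (m : ℝ), 0 ≤ m →
      (Fintype.card Ω : ℝ) ≤ 6 * ∑ ω, (if P ω then (1 : ℝ) else 0) →
      (∀ ω, P ω → m ≤ D ω x y + D ω y x) → m ≤ 6 * (E x y + E y x) := by
  have hc : (0 : ℝ) < Fintype.card Ω := by exact_mod_cast Fintype.card_pos
  refine ⟨fun a b => 1 / (Fintype.card Ω : ℝ) * ∑ ω, D ω a b,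
    (IsD.sum _ D fun ω _ => hD ω).smul (by positivity), fun a b => ?_,
    fun x y P m hm hP h => ?_⟩
  · have a1 := Finset.sum_le_sum fun ω (_ : ω ∈ Finset.univ) => hQ ω a b
    rw [Finset.sum_const, Finset.card_univ, nsmul_eq_mul] at a1
    have a2 := mul_le_mul_of_nonneg_left a1 (by positivity : 0 ≤ 1 / (Fintype.card Ω : ℝ))
    have a3 : 1 / (Fintype.card Ω : ℝ) * (Fintype.card Ω * Q a b) = Q a b := by field_simp
    show 1 / (Fintype.card Ω : ℝ) * ∑ ω, D ω a b ≤ _
    linarith
  · have a1 : ∀ ω, m * (if P ω then (1 : ℝ) else 0) ≤ D ω x y + D ω y x := by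
      intro ω
      split_ifs with hω
      · rw [mul_one]; exact h ω hω
      · rw [mul_zero]; exact add_nonneg ((hD ω).nonneg x y) ((hD ω).nonneg y x)
    have a2 := Finset.sum_le_sum fun ω (_ : ω ∈ Finset.univ) => a1 ω
    rw [← Finset.mul_sum, Finset.sum_add_distrib] at a2
    have a3 := mul_le_mul_of_nonneg_left hP hm
    have a4 : m * (Fintype.card Ω : ℝ) ≤ 6 * (∑ ω, D ω x y + ∑ ω, D ω y x) := by linarith
    have a5 := mul_le_mul_of_nonneg_left a4 (by positivity : 0 ≤ 1 / (Fintype.card Ω : ℝ))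
    have a6 : 1 / (Fintype.card Ω : ℝ) * (m * Fintype.card Ω) = m := by field_simp
    show _ ≤ 6 * (1 / (Fintype.card Ω : ℝ) * ∑ ω, D ω x y + 1 / (Fintype.card Ω : ℝ) * ∑ ω, D ω y x)
    linarith

/-- one scale function is free: pairs at distance about `ρ` -/
theorem bumps {V : Type} [Finite V] {d : V → V → ℝ} (hd : IsMet d) {L : ℝ} (hL : 1 ≤ L)
    (hP : Pad d L) {u ρ : V → ℝ} (hu : Lip d u) (hρ0 : ∀ v, 0 ≤ ρ v) (hρ : Lip d ρ) :
    ∃ D, IsD D ∧ (∀ a b, D a b ≤ 2 * q d u a b) ∧
      ∀ x y, 2 * ρ x < d x y → ρ x ≤ 384 * L * (D x y + D y x) := by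
  classical
  obtain ⟨Ω, _, _, cen, f, hA, hpad⟩ := clusters hd hL hP hρ0 hρ
  choose D hD h1 h2 using fun ω => bump hd hu (hA ω).toClu
  obtain ⟨E, hE, e1, e2⟩ := average hD h1
  have hL0 : 0 < L := by linarith
  refine ⟨E, hE, e1, fun x y hxy => ?_⟩
  have a1 := e2 x y (fun ω => ρ x ≤ 8 * L * f ω x) (ρ x / (64 * L))
    (div_nonneg (hρ0 x) (by positivity)) (by convert hpad x) fun ω hω => by
      have b1 : cen ω x ≠ cen ω y := by
        intro h
        have c1 := (hA ω).rad x
        have c2 := (hA ω).rad y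
        have c3 := (hA ω).up hd hρ x
        have c4 := hd.tri x (cen ω x) y
        rw [← h] at c2
        rw [hd.symm x (cen ω x)] at c4
        linarith
      have b2 := mul_le_mul_of_nonneg_left (h2 ω x y b1) (by positivity : 0 ≤ 8 * L)
      rw [div_le_iff₀ (by positivity)]
      linarith
  rw [div_le_iff₀ (by positivity)] at a1
  linarith

/-- **(LG) local to global.** -/
theorem LG {V : Type} [Finite V] {d : V → V → ℝ} (hd : IsMet d) {L C K : ℝ} (hL : 1 ≤ L)
    (hC : 0 < C) (hK : 0 ≤ K) (hP : Pad d L) {u ρ : V → ℝ} (hu : Lip d u) (hρ0 : ∀ v, 0 ≤ ρ v)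
    (hρ : Lip d ρ) (hB : ∀ c, Box d u C c (ρ c)) :
    ∃ D, IsD D ∧ (∀ a b, D a b ≤ (18432 * L * C + 24576 * L ^ 2 * K) * q d u a b) ∧
      ∀ x y, d x y ≤ K * ρ x → d x y ≤ D x y + D y x := by
  classical
  have hL0 : 0 < L := by linarith
  obtain ⟨Ω, _, _, cen, f, hA, hpad⟩ := clusters hd hL hP hρ0 hρ
  choose D hD h1 h2 using fun ω => loc hd hu hρ0 hρ (hA ω) hC hB
  obtain ⟨E, hE, e1, e2⟩ := average hD h1
  obtain ⟨F, hF, f1, f2⟩ := bumps hd hL hP (ρ := fun v => ρ v / (32 * L)) hu
    (fun v => div_nonneg (hρ0 v) (by positivity)) fun a b => by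
      have a1 := hρ a b
      have a2 := hd.nonneg a b
      show ρ b / (32 * L) ≤ ρ a / (32 * L) + d a b
      rw [div_add' _ _ _ (by positivity), div_le_div_iff_of_pos_right (by positivity)]
      nlinarith
  refine ⟨fun a b => 3072 * L * C * E a b + 12288 * L ^ 2 * K * F a b,
    (hE.smul (by positivity)).add (hF.smul (by positivity)), fun a b => ?_, fun x y hxy => ?_⟩
  · have a1 := mul_le_mul_of_nonneg_left (e1 a b) (by positivity : 0 ≤ 3072 * L * C)
    have a2 := mul_le_mul_of_nonneg_left (f1 a b) (by positivity : 0 ≤ 12288 * L ^ 2 * K)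
    show 3072 * L * C * E a b + 12288 * L ^ 2 * K * F a b ≤ _
    linarith
  · have hE0 : 0 ≤ 3072 * L * C * (E x y + E y x) :=
      mul_nonneg (by positivity) (add_nonneg (hE.nonneg x y) (hE.nonneg y x))
    have hF0 : 0 ≤ 12288 * L ^ 2 * K * (F x y + F y x) :=
      mul_nonneg (by positivity) (add_nonneg (hF.nonneg x y) (hF.nonneg y x))
    have hd0 := hd.nonneg x y
    show _ ≤ 3072 * L * C * E x y + 12288 * L ^ 2 * K * F x y +
      (3072 * L * C * E y x + 12288 * L ^ 2 * K * F y x)
    rcases (hρ0 x).eq_or_lt with hx | hx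
    · rw [← hx, mul_zero] at hxy
      linarith
    by_cases hs : 16 * L * d x y ≤ ρ x
    · have a1 := e2 x y (fun ω => ρ x ≤ 8 * L * f ω x) (d x y / (512 * L * C))
        (div_nonneg hd0 (by positivity)) (by convert hpad x) fun ω hω => by
          have b1 : 2 * d x y ≤ f ω x := by
            have : 8 * L * (2 * d x y) ≤ 8 * L * f ω x := by linarith
            exact le_of_mul_le_mul_left this (by positivity)
          have b2 := mul_le_mul_of_nonneg_left (h2 ω x y b1) (by positivity : 0 ≤ 8 * L)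
          have b3 := mul_le_mul_of_nonneg_right hω hd0
          have b4 : ρ x * d x y ≤ ρ x * ((D ω x y + D ω y x) * (512 * L * C)) := by linarith
          rw [div_le_iff₀ (by positivity)]
          exact le_of_mul_le_mul_left b4 hx
      rw [div_le_iff₀ (by positivity)] at a1
      linarith
    · have a1 := f2 x y (by
        show 2 * (ρ x / (32 * L)) < d x y
        rw [← mul_div_assoc, div_lt_iff₀ (by positivity)]
        linarith [not_le.1 hs])
      have a2 : ρ x ≤ 384 * L * (F x y + F y x) * (32 * L) := by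
        rwa [div_le_iff₀ (by positivity)] at a1
      have a3 := mul_le_mul_of_nonneg_left a2 hK
      linarith

end Vale.Agent.P235G.E1
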