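import Vale.Agent.P235.K5.H558.Centre
import Vale.Agent.P235G.E1.Dir

/-!
P235G, block E1 (helper77): two points which are almost tight for one source and for two sinks on
the face of the hub are close to each other.
-/

namespace Vale.Agent.P235G.E1

open SimpleGraph Vale.Agent.P235 Vale.Agent.P235.H134 Vale.Agent.P235.H56
open Vale.Agent.P235.H341W (capG)
open Vale.Agent.P235.K5.H558

variable {V : Type}

/-- the interval between two points -/
def Iv (d : V → V → ℝ) (p r : V) : Set V := {v | d p v + d v r = d p r}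

section iv
variable {d : V → V → ℝ}

theorem iv_rule1 (hd : IsMet d) {p r v w : V} (h1 : v ∈ Iv d p r) (h2 : w ∈ Iv d v r) :
    w ∈ Iv d p r := by
  have h3 := hd.tri p v w
  have h4 := hd.tri p w r
  simp only [Iv, Set.mem_ofPred_eq] at h1 h2 ⊢
  linarith

theorem iv_rule2 (hd : IsMet d) {p r v w : V} (h1 : v ∈ Iv d p r) (h2 : d v w + d w p = d v p) :
    w ∈ Iv d p r ∧ v ∈ Iv d w r := by
  have h3 := hd.tri w v r
  have h4 := hd.tri p w r
  have e1 := hd.symm v w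
  have e2 := hd.symm w p
  have e3 := hd.symm v p
  simp only [Iv, Set.mem_ofPred_eq] at h1 ⊢
  constructor <;> linarith

theorem iv_left (hd : IsMet d) (p r : V) : p ∈ Iv d p r := by
  simp only [Iv, Set.mem_ofPred_eq]; rw [hd.self, zero_add]

theorem iv_right (hd : IsMet d) (p r : V) : r ∈ Iv d p r := by
  simp only [Iv, Set.mem_ofPred_eq]; rw [hd.self, add_zero]

end iv

theorem reach_sub {G : SimpleGraph V} {T S : Set V} (h : T ⊆ S) (hT : (G.induce T).Connected)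
    {a b : V} (ha : a ∈ T) (hb : b ∈ T) : (G.induce S).Reachable ⟨a, h ha⟩ ⟨b, h hb⟩ :=
  (hT.preconnected ⟨a, ha⟩ ⟨b, hb⟩).map (G.induceHomOfLE h).toHom

/-- one side of the model -/
theorem side [Finite V] {G : SimpleGraph V} {d : V → V → ℝ} (hd : IsMet d) (hG : Gen G d)
    (R xs ys : Fin 3 → V) (x : V) (h2 : ∀ i v, v ∈ Iv d x (xs i) → v ∉ Iv d (ys i) (R i)) :
    (G.induce {v | ∃ i, v ∈ Iv d x (xs i) ∨
      (v ∈ Iv d (xs i) (R i) ∧ v ∉ Iv d (ys i) (R i))}).Connected ∧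
    ∀ i, ∃ v, (v ∈ Iv d (xs i) (R i) ∧ v ∉ Iv d (ys i) (R i)) ∧
      ∃ w, (w ∈ Iv d (xs i) (R i) ∧ w ∈ Iv d (ys i) (R i)) ∧ G.Adj v w := by
  have hp : ∀ i, xs i ∈ Iv d (xs i) (R i) ∧ xs i ∉ Iv d (ys i) (R i) := fun i =>
    ⟨iv_left hd _ _, h2 i _ (iv_right hd _ _)⟩
  constructor
  · set X : Set V := {v | ∃ i, v ∈ Iv d x (xs i) ∨
      (v ∈ Iv d (xs i) (R i) ∧ v ∉ Iv d (ys i) (R i))} with hX
    have c1 : ∀ i, (G.induce (Iv d x (xs i))).Connected := by
      intro i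
      refine star_conn (fun v => d v x) (r := x) (iv_left hd _ _) ?_
      intro v h1 hv
      obtain ⟨w, ha, hw⟩ := step hd hG (x := x) hv
      refine ⟨w, (iv_rule2 hd h1 hw).1, ha, ?_⟩
      have := hd.pos v w ha.ne
      show d w x < d v x
      linarith
    have c2 : ∀ i, (G.induce {v | v ∈ Iv d (xs i) (R i) ∧ v ∉ Iv d (ys i) (R i)}).Connected := by
      intro i
      refine star_conn (fun v => d v (xs i)) (r := xs i) (hp i) ?_
      rintro v ⟨h1, h3⟩ hv
      obtain ⟨w, ha, hw⟩ := step hd hG (x := xs i) hv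
      obtain ⟨h4, h5⟩ := iv_rule2 hd h1 hw
      refine ⟨w, ⟨h4, fun h => h3 (iv_rule1 hd h h5)⟩, ha, ?_⟩
      have := hd.pos v w ha.ne
      show d w (xs i) < d v (xs i)
      linarith
    have s1 : ∀ i, Iv d x (xs i) ⊆ X := fun i v hv => ⟨i, Or.inl hv⟩
    have s2 : ∀ i, {v | v ∈ Iv d (xs i) (R i) ∧ v ∉ Iv d (ys i) (R i)} ⊆ X :=
      fun i v hv => ⟨i, Or.inr hv⟩
    have hx : x ∈ X := s1 0 (iv_left hd _ _)
    have key : ∀ v (hv : v ∈ X), (G.induce X).Reachable ⟨v, hv⟩ ⟨x, hx⟩ := by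
      rintro v ⟨i, h | h⟩
      · exact reach_sub (s1 i) (c1 i) h (iv_left hd _ _)
      · exact (reach_sub (s2 i) (c2 i) h (hp i)).trans
          (reach_sub (s1 i) (c1 i) (iv_right hd _ _) (iv_left hd _ _))
    have : Nonempty X := ⟨⟨x, hx⟩⟩
    exact ⟨fun a b => (key a.1 a.2).trans (key b.1 b.2).symm⟩
  · intro i
    have hfin : Set.Finite {v | v ∈ Iv d (xs i) (R i) ∧ v ∉ Iv d (ys i) (R i)} := Set.toFinite _
    obtain ⟨v, hv, hmin⟩ := Set.exists_min_image _ (fun v => d v (R i)) hfin ⟨xs i, hp i⟩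
    have hne : v ≠ R i := fun h => hv.2 (h ▸ iv_right hd _ _)
    obtain ⟨w, ha, hw⟩ := step hd hG (x := R i) hne
    have hw' : w ∈ Iv d v (R i) := hw
    have h1 : w ∈ Iv d (xs i) (R i) := iv_rule1 hd hv.1 hw'
    refine ⟨v, hv, w, ⟨h1, ?_⟩, ha⟩
    by_contra hn
    have h3 : d v (R i) ≤ d w (R i) := hmin w ⟨h1, hn⟩
    have := hd.pos v w ha.ne
    linarith

/-- **crossing intervals with base points** -/
theorem cross_model [Finite V] {G : SimpleGraph V} {d : V → V → ℝ} (hd : IsMet d) (hG : Gen G d)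
    (R xs ys : Fin 3 → V) (x y : V)
    (h1 : ∀ i j v, i ≠ j → v ∈ Iv d (xs i) (R i) → v ∉ Iv d (ys j) (R j))
    (h2 : ∀ i j v, v ∈ Iv d x (xs i) → v ∉ Iv d (ys j) (R j))
    (h3 : ∀ i j v, v ∈ Iv d y (ys i) → v ∉ Iv d (xs j) (R j))
    (h4 : ∀ i j v, v ∈ Iv d x (xs i) → v ∉ Iv d y (ys j)) :
    IsMinor K33 (capG G (Set.range R)) := by
  let M : Fin 3 → Set V := fun i => Iv d (xs i) (R i) ∩ Iv d (ys i) (R i)
  have hM : ∀ i, (G.induce (M i)).Connected := by
    intro i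
    refine star_conn (fun v => d v (R i)) (r := R i) ⟨iv_right hd _ _, iv_right hd _ _⟩ ?_
    rintro v ⟨a1, a2⟩ hv
    obtain ⟨w, ha, hw⟩ := step hd hG (x := R i) hv
    have hw' : w ∈ Iv d v (R i) := hw
    refine ⟨w, ⟨iv_rule1 hd a1 hw', iv_rule1 hd a2 hw'⟩, ha, ?_⟩
    have := hd.pos v w ha.ne
    show d w (R i) < d v (R i)
    linarith
  obtain ⟨hX, hX'⟩ := side hd hG R xs ys x fun i v h => h2 i i v h
  obtain ⟨hY, hY'⟩ := side hd hG R ys xs y fun i v h => h3 i i v h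
  set X : Set V := {v | ∃ i, v ∈ Iv d x (xs i) ∨
    (v ∈ Iv d (xs i) (R i) ∧ v ∉ Iv d (ys i) (R i))} with hXdef
  set Y : Set V := {v | ∃ i, v ∈ Iv d y (ys i) ∨
    (v ∈ Iv d (ys i) (R i) ∧ v ∉ Iv d (xs i) (R i))} with hYdef
  have kX : ∀ v ∈ X, ∀ j, v ∉ Iv d (ys j) (R j) := by
    rintro v ⟨i, h | h⟩ j
    · exact h2 i j v h
    · by_cases hij : i = j
      · subst hij; exact h.2
      · exact h1 i j v hij h.1
  have kY : ∀ v ∈ Y, ∀ j, v ∉ Iv d (xs j) (R j) := by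
    rintro v ⟨i, h | h⟩ j
    · exact h3 i j v h
    · by_cases hij : j = i
      · subst hij; exact h.2
      · exact fun h' => h1 j i v hij h' h.1
  have dXY : Disjoint X Y := by
    rw [Set.disjoint_left]
    rintro v hv ⟨j, h | h⟩
    · obtain ⟨i, h' | h'⟩ := hv
      · exact h4 i j v h' h
      · exact h3 j i v h h'.1
    · exact kX v hv j h.1
  have dXM : ∀ i, Disjoint X (M i) := by
    intro j
    rw [Set.disjoint_left]
    exact fun v hv h => kX v hv j h.2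
  have dYM : ∀ i, Disjoint Y (M i) := by
    intro j
    rw [Set.disjoint_left]
    exact fun v hv h => kY v hv j h.1
  have dMM : ∀ i j, i ≠ j → Disjoint (M i) (M j) := by
    intro i j hij
    rw [Set.disjoint_left]
    exact fun v a b => h1 i j v hij a.1 b.2
  have img : ∀ {S T : Set V}, Disjoint S T → Disjoint (some '' S) (some '' T) := by
    intro S T h
    exact (Set.disjoint_image_iff (Option.some_injective V)).2 h
  have nn : ∀ S : Set V, Disjoint (some '' S) ({none} : Set (Option V)) := by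
    intro S
    rw [Set.disjoint_singleton_right]
    rintro ⟨v, -, h⟩
    exact Option.some_ne_none v h
  let μ : Fin 3 ⊕ Fin 3 → Set (Option V) := fun s => match s with
    | Sum.inl 0 => some '' X
    | Sum.inl 1 => some '' Y
    | Sum.inl 2 => {none}
    | Sum.inr i => some '' M i
  refine ⟨μ, ?_, ?_, ?_⟩
  · rintro (a | i)
    · fin_cases a
      · exact conn_some hX
      · exact conn_some hY
      · show ((capG G (Set.range R)).induce ({none} : Set (Option V))).Connected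
        rw [SimpleGraph.connected_iff]
        refine ⟨?_, ⟨⟨none, rfl⟩⟩⟩
        rintro ⟨a, ha⟩ ⟨b, hb⟩
        have : a = b := (Set.mem_singleton_iff.1 ha).trans (Set.mem_singleton_iff.1 hb).symm
        subst this
        exact Reachable.refl _
    · exact conn_some (hM i)
  · rintro (a | i) (b | j) hab
    · fin_cases a <;> fin_cases b <;> first
        | exact absurd rfl hab
        | exact img dXY
        | exact (img dXY).symm
        | exact nn _
        | exact (nn _).symm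
    · fin_cases a
      · exact img (dXM j)
      · exact img (dYM j)
      · exact (nn _).symm
    · fin_cases b
      · exact (img (dXM i)).symm
      · exact (img (dYM i)).symm
      · exact nn _
    · exact img (dMM i j fun h => hab (h ▸ rfl))
  · have key : ∀ (a i : Fin 3), ∃ u ∈ μ (Sum.inl a), ∃ v ∈ μ (Sum.inr i),
        (capG G (Set.range R)).Adj u v := by
      intro a i
      fin_cases a
      · obtain ⟨v, hv, w, hw, ha⟩ := hX' i
        exact ⟨some v, ⟨v, ⟨i, Or.inr hv⟩, rfl⟩, some w, ⟨w, hw, rfl⟩, ha⟩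
      · obtain ⟨v, hv, w, hw, ha⟩ := hY' i
        exact ⟨some v, ⟨v, ⟨i, Or.inr hv⟩, rfl⟩, some w, ⟨w, ⟨hw.2, hw.1⟩, rfl⟩, ha⟩
      · exact ⟨none, rfl, some (R i), ⟨R i, ⟨iv_right hd _ _, iv_right hd _ _⟩, rfl⟩, ⟨i, rfl⟩⟩
    rintro (a | i) (b | j) hab
    · simp at hab
    · exact key a j
    · obtain ⟨u, hu, v, hv, h⟩ := key b i
      exact ⟨v, hv, u, hu, h.symm⟩
    · simp at hab

/-- the situation around a point `x`: `x₁` is tight for the sink `t₁`, `x₂` for `t₂` only -/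
structure Near (d : V → V → ℝ) (a : V → ℝ) (s t₁ t₂ : V) (zs z₁ z₂ r : ℝ) (x x₁ x₂ : V) :
    Prop where
  d1 : d x x₁ ≤ r
  d2 : d x x₂ ≤ r
  e1 : a x₁ = z₁ - d x₁ t₁
  e2 : a x₂ = z₂ - d x₂ t₂
  lt : z₁ - d x₂ t₁ < a x₂
  ex : zs + d x s ≤ a x + 3 * r

section key
variable {d : V → V → ℝ} {a : V → ℝ} {s t₁ t₂ : V} {zs z₁ z₂ r : ℝ} {x x₁ x₂ y y₁ y₂ : V}

/-- on an interval to a sink the height grows with the distance -/
theorem up_iv {p t v : V} {z : ℝ} (hz : ∀ v, z - d v t ≤ a v) (hp : a p = z - d p t)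
    (hv : v ∈ Iv d p t) : a p + d p v ≤ a v := by
  have h1 := hz v
  simp only [Iv, Set.mem_ofPred_eq] at hv
  linarith

theorem key_h1 (hd : IsMet d) (ha : Lip d a) (h1 : ∀ v, z₁ - d v t₁ ≤ a v)
    (h2 : ∀ v, z₂ - d v t₂ ≤ a v) (hs : ∀ v, a v ≤ zs + d v s)
    (hx : Near d a s t₁ t₂ zs z₁ z₂ r x x₁ x₂) (hy : Near d a s t₁ t₂ zs z₁ z₂ r y y₁ y₂)
    (hxy : |a x - a y| ≤ r) (hfar : 7 * r < d x y) (v : V) :
    (v ∈ Iv d x s → v ∉ Iv d y₁ t₁) ∧ (v ∈ Iv d x s → v ∉ Iv d y₂ t₂) ∧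
      (v ∈ Iv d x₁ t₁ → v ∉ Iv d y₂ t₂) := by
  have b0 := (abs_le.1 hxy).2
  have hr0 : 0 ≤ r := (abs_nonneg _).trans hxy
  have low : ∀ {p t : V} {z : ℝ}, (∀ v, z - d v t ≤ a v) → a p = z - d p t → d y p ≤ r →
      v ∈ Iv d x s → v ∉ Iv d p t := by
    intro p t z hz hp hr k1 k2
    have b1 := up_iv hz hp k2
    have b2 := hs v
    have b3 := hx.ex
    have b4 := ha p y
    have b5 := hd.symm p y
    have b6 := hd.tri x v y
    have b7 := hd.tri v p y
    have b8 := hd.symm v p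
    simp only [Iv, Set.mem_ofPred_eq] at k1
    linarith
  refine ⟨low h1 hy.e1 hy.d1, low h2 hy.e2 hy.d2, fun k1 k2 => ?_⟩
  have b1 := ha x₁ v
  have b2 := up_iv h2 hy.e2 k2
  have b3 := hy.lt
  have b4 := hd.tri y₂ v t₁
  have b5 := hx.e1
  simp only [Iv, Set.mem_ofPred_eq] at k1
  linarith

theorem key_h2 (hd : IsMet d) (ha : Lip d a) (h1 : ∀ v, z₁ - d v t₁ ≤ a v)
    (h2 : ∀ v, z₂ - d v t₂ ≤ a v)
    (hy : Near d a s t₁ t₂ zs z₁ z₂ r y y₁ y₂)
    (hxy : |a x - a y| ≤ r) (hs : |d x s - d y s| ≤ r) (hfar : 7 * r < d x y) (v : V)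
    (hv : d x v ≤ r) : v ∉ Iv d y s ∧ v ∉ Iv d y₁ t₁ ∧ v ∉ Iv d y₂ t₂ := by
  have b0 := (abs_le.1 hxy).2
  have hr : 0 ≤ r := (abs_nonneg _).trans hxy
  have low : ∀ {p t : V} {z : ℝ}, (∀ v, z - d v t ≤ a v) → a p = z - d p t → d y p ≤ r →
      v ∉ Iv d p t := by
    intro p t z hz hp hr k2
    have b1 := up_iv hz hp k2
    have b2 := ha x v
    have b4 := ha p y
    have b5 := hd.symm p y
    have b6 := hd.tri x v y
    have b7 := hd.tri v p y
    have b8 := hd.symm v p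
    linarith
  refine ⟨fun k => ?_, low h1 hy.e1 hy.d1, low h2 hy.e2 hy.d2⟩
  have b1 := (abs_le.1 hs).1
  have b2 := hd.tri x v s
  have b3 := hd.tri x v y
  have b4 := hd.symm v y
  simp only [Iv, Set.mem_ofPred_eq] at k
  linarith

theorem near_iv (hd : IsMet d) (hx : Near d a s t₁ t₂ zs z₁ z₂ r x x₁ x₂) (hr : 0 ≤ r)
    (i : Fin 3) (v : V) (h : v ∈ Iv d x (![x, x₁, x₂] i)) : d x v ≤ r := by
  have b1 := hd.nonneg v (![x, x₁, x₂] i)
  have b2 : d x (![x, x₁, x₂] i) ≤ r := by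
    fin_cases i
    · show d x x ≤ r
      rw [hd.self]; exact hr
    · exact hx.d1
    · exact hx.d2
  simp only [Iv, Set.mem_ofPred_eq] at h
  linarith

/-- **the key lemma** -/
theorem key [Finite V] {G : SimpleGraph V} (hd : IsMet d) (hG : Gen G d) (ha : Lip d a)
    (h1 : ∀ v, z₁ - d v t₁ ≤ a v) (h2 : ∀ v, z₂ - d v t₂ ≤ a v) (hs : ∀ v, a v ≤ zs + d v s)
    (hx : Near d a s t₁ t₂ zs z₁ z₂ r x x₁ x₂) (hy : Near d a s t₁ t₂ zs z₁ z₂ r y y₁ y₂)
    (hxy : |a x - a y| ≤ r) (hsd : |d x s - d y s| ≤ r)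
    (hno : ¬ IsMinor K33 (capG G (Set.range ![s, t₁, t₂]))) : d x y ≤ 7 * r := by
  by_contra hfar
  rw [not_le] at hfar
  have hr : 0 ≤ r := (abs_nonneg _).trans hxy
  have hfar' : 7 * r < d y x := by rw [hd.symm]; exact hfar
  have hyx : |a y - a x| ≤ r := by rw [abs_sub_comm]; exact hxy
  have hsd' : |d y s - d x s| ≤ r := by rw [abs_sub_comm]; exact hsd
  refine hno (cross_model hd hG ![s, t₁, t₂] ![x, x₁, x₂] ![y, y₁, y₂] x y ?_ ?_ ?_ ?_)
  · intro i j v hij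
    have a1 := key_h1 hd ha h1 h2 hs hx hy hxy hfar v
    have a2 := key_h1 hd ha h1 h2 hs hy hx hyx hfar' v
    fin_cases i <;> fin_cases j
    · exact absurd rfl hij
    · exact a1.1
    · exact a1.2.1
    · exact fun k1 k2 => a2.1 k2 k1
    · exact absurd rfl hij
    · exact a1.2.2
    · exact fun k1 k2 => a2.2.1 k2 k1
    · exact fun k1 k2 => a2.2.2 k2 k1
    · exact absurd rfl hij
  · intro i j v hv
    have a1 := key_h2 hd ha h1 h2 hy hxy hsd hfar v (near_iv hd hx hr i v hv)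
    fin_cases j
    · exact a1.1
    · exact a1.2.1
    · exact a1.2.2
  · intro i j v hv
    have a1 := key_h2 hd ha h1 h2 hx hyx hsd' hfar' v (near_iv hd hy hr i v hv)
    fin_cases j
    · exact a1.1
    · exact a1.2.1
    · exact a1.2.2
  · intro i j v k1 k2
    have a1 := near_iv hd hx hr i v k1
    have a2 := near_iv hd hy hr j v k2
    have a3 := hd.tri x v y
    have a4 := hd.symm v y
    linarith

end key

end Vale.Agent.P235G.E1
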