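import Vale.Agent.P235G.E1.M1
import Vale.Agent.P235G.E1.LG

/-!
P235G, block E1 (helper77): the metric core of the multi-terminal lemma.
-/

namespace Vale.Agent.P235G.E1

open SimpleGraph Vale.Agent.P235 Vale.Agent.P235.H134 Vale.Agent.P235.H56
open Vale.Agent.P235.H341W (capG)

variable {V : Type}

section tools
variable {d : V → V → ℝ}

/-- the distance to a set, capped at `Λ` -/
theorem exists_capd [Finite V] (hd : IsMet d) (S : Set V) {Λ : ℝ} (hΛ : 0 ≤ Λ) :
    ∃ g : V → ℝ, Lip d g ∧ (∀ c, 0 ≤ g c) ∧ (∀ c, ∀ v ∈ S, g c ≤ d c v) ∧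
      ∀ c, g c = Λ ∨ ∃ v ∈ S, g c = d c v := by
  induction S, S.toFinite using Set.Finite.induction_on with
  | empty =>
    refine ⟨fun _ => Λ, fun a b => ?_, fun _ => hΛ, fun c v hv => hv.elim, fun _ => Or.inl rfl⟩
    have := hd.nonneg a b
    show Λ ≤ Λ + d a b
    linarith
  | @insert w S _ _ ih =>
    obtain ⟨g, h1, h2, h3, h4⟩ := ih
    refine ⟨fun c => min (g c) (d c w), fun a b => ?_, fun c => le_min (h2 c) (hd.nonneg c w),
      fun c v hv => ?_, fun c => ?_⟩
    · show min (g b) (d b w) ≤ min (g a) (d a w) + d a b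
      rw [← min_add_add_right]
      refine min_le_min (h1 a b) ?_
      have := hd.tri b a w
      rw [hd.symm b a] at this
      linarith
    · rcases hv with rfl | hv
      · exact min_le_right _ _
      · exact (min_le_left _ _).trans (h3 c v hv)
    · rcases le_total (g c) (d c w) with h | h
      · show min (g c) (d c w) = Λ ∨ ∃ v ∈ insert w S, min (g c) (d c w) = d c v
        rw [min_eq_left h]
        rcases h4 c with h5 | ⟨v, hv, h5⟩
        · exact Or.inl h5
        · exact Or.inr ⟨v, Or.inr hv, h5⟩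
      · exact Or.inr ⟨w, Or.inl rfl, min_eq_right h⟩

/-- the maximum of finitely many Lipschitz functions -/
theorem exists_max {ι : Type} [Finite ι] [Nonempty ι] (f : ι → V → ℝ) (hf : ∀ i, Lip d (f i)) :
    ∃ g : V → ℝ, Lip d g ∧ (∀ i v, f i v ≤ g v) ∧ ∀ v, ∃ i, g v = f i v := by
  choose j hj using fun v => Finite.exists_max fun i => f i v
  refine ⟨fun v => f (j v) v, fun a b => ?_, fun i v => hj v i, fun v => ⟨j v, rfl⟩⟩
  have h1 := hf (j b) a b
  have h2 := hj a (j b)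
  show f (j b) b ≤ f (j a) a + d a b
  linarith

/-- finitely many Lipschitz functions are free -/
theorem free_many [Finite V] (hd : IsMet d) {u : V → ℝ} (hu : Lip d u) {ι : Type} [Fintype ι]
    (f : ι → V → ℝ) (hf : ∀ i, Lip d (f i)) :
    ∃ D, IsD D ∧ (∀ a b, D a b ≤ 2 * Fintype.card ι * q d u a b) ∧
      ∀ i x y, |f i x - f i y| ≤ D x y + D y x := by
  choose D hD h1 h2 using fun i => free_lip hd hu (hf i)
  refine ⟨fun x y => ∑ i, D i x y, IsD.sum _ _ fun i _ => hD i, fun a b => ?_, fun i x y => ?_⟩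
  · have := Finset.sum_le_sum (s := Finset.univ) fun i _ => h1 i a b
    rw [Finset.sum_const, Finset.card_univ, nsmul_eq_mul] at this
    show ∑ i, D i a b ≤ _
    linarith
  · have a1 := Finset.single_le_sum (f := fun i => D i x y) (fun j _ => (hD j).nonneg x y)
      (Finset.mem_univ i)
    have a2 := Finset.single_le_sum (f := fun i => D i y x) (fun j _ => (hD j).nonneg y x)
      (Finset.mem_univ i)
    have a3 := h2 i x y
    show _ ≤ ∑ i, D i x y + ∑ i, D i y x
    linarith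

/-- (T3) a foreign potential is usable where it is near to `a` and `b` -/
theorem foreign {a b u : V → ℝ} (ha : Lip d a) (hb : Lip d b) (hu : Lip d u) :
    ∃ w : V → ℝ, Lip d w ∧ (∀ v, a v = b v → w v = a v) ∧
      ∀ x y, 2 * a x - b x ≤ u x → u x ≤ 2 * b x - a x → 2 * a y - b y ≤ u y →
        u y ≤ 2 * b y - a y → q d u x y ≤ 3 * q d w x y := by
  refine ⟨fun v => (max (2 * a v - b v) (min (u v) (2 * b v - a v)) + a v + b v) / 3,
    fun x y => ?_, fun v hv => ?_, fun x y h1 h2 h3 h4 => ?_⟩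
  · have a1 := ha x y
    have a2 := hb x y
    have a3 := hu x y
    have : max (2 * a y - b y) (min (u y) (2 * b y - a y)) ≤
        max (2 * a x - b x) (min (u x) (2 * b x - a x)) +
          (3 * d x y - (a y - a x) - (b y - b x)) := by
      rw [← max_add_add_right, ← min_add_add_right]
      exact max_le_max (by linarith) (min_le_min (by linarith) (by linarith))
    show (_ + a y + b y) / 3 ≤ (_ + a x + b x) / 3 + d x y
    linarith
  · show (max (2 * a v - b v) (min (u v) (2 * b v - a v)) + a v + b v) / 3 = a v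
    rw [← hv, max_eq_left ((min_le_right _ _).trans (by linarith))]
    ring
  · have a1 := ha x y
    have a2 := hb x y
    unfold q
    simp only [min_eq_left h2, min_eq_left h4, max_eq_right h1, max_eq_right h3]
    linarith

/-- the average of finitely many potentials -/
theorem average_pot {ι : Type} [Fintype ι] [Nonempty ι] (w : ι → V → ℝ) (hw : ∀ i, Lip d (w i)) :
    ∃ u : V → ℝ, Lip d u ∧ (∀ v t, (∀ i, w i v = t) → u v = t) ∧
      ∀ i x y, q d (w i) x y ≤ Fintype.card ι * q d u x y := by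
  have hn : (0 : ℝ) < Fintype.card ι := by exact_mod_cast Fintype.card_pos
  have e : ∀ x y, (Fintype.card ι : ℝ) * q d (fun v => (∑ i, w i v) / Fintype.card ι) x y =
      ∑ i, q d (w i) x y := by
    intro x y
    unfold q
    rw [Finset.sum_add_distrib, Finset.sum_sub_distrib, Finset.sum_const, Finset.card_univ,
      nsmul_eq_mul]
    field_simp
  refine ⟨fun v => (∑ i, w i v) / Fintype.card ι, fun x y => ?_, fun v t h => ?_, fun i x y => ?_⟩
  · have h1 : 0 ≤ ∑ i, q d (w i) x y := Finset.sum_nonneg fun i _ => q_nonneg (hw i) x y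
    rw [← e] at h1
    have h2 := nonneg_of_mul_nonneg_right h1 hn
    unfold q at h2
    linarith
  · show (∑ i, w i v) / Fintype.card ι = t
    simp only [h]
    rw [Finset.sum_const, Finset.card_univ, nsmul_eq_mul]
    field_simp
  · rw [e]
    exact Finset.single_le_sum (f := fun i => q d (w i) x y) (fun j _ => q_nonneg (hw j) x y)
      (Finset.mem_univ i)

end tools

/-- one half of the analysis of the pairs which are not in a box -/
theorem half [Finite V] {G : SimpleGraph V} {d : V → V → ℝ} (hd : IsMet d) (hG : Gen G d)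
    {a : V → ℝ} (ha : Lip d a) {s t₁ t₂ : V} {zs z₁ z₂ r Λ : ℝ}
    (h1 : ∀ v, z₁ - d v t₁ ≤ a v) (h2 : ∀ v, z₂ - d v t₂ ≤ a v) (hs : ∀ v, a v ≤ zs + d v s)
    (hno : ¬ IsMinor K33 (capG G (Set.range ![s, t₁, t₂]))) {x x' y : V} (hΛ : 2 * r < Λ)
    (e1 : a x = z₁ - d x t₁) (e2 : a x' = z₂ - d x' t₂) (lt : z₁ - d x' t₁ < a x')
    (hx' : d x x' ≤ r) (hex : zs + d x s ≤ a x + 4 * r)
    {g₁ g₂ : V → ℝ} (p1 : ∀ c v, a v = z₁ - d v t₁ → g₁ c ≤ d c v)
    (p2 : ∀ c, g₁ c = Λ ∨ ∃ v, a v = z₁ - d v t₁ ∧ g₁ c = d c v)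
    (p3 : ∀ c v, a v = z₂ - d v t₂ ∧ z₁ - d v t₁ < a v → g₂ c ≤ d c v)
    (p4 : ∀ c, g₂ c = Λ ∨ ∃ v, (a v = z₂ - d v t₂ ∧ z₁ - d v t₁ < a v) ∧ g₂ c = d c v)
    (f1 : |a x - a y| ≤ r) (f2 : |d x s - d y s| ≤ r) (f3 : |g₁ x - g₁ y| ≤ r)
    (f4 : |g₂ x - g₂ y| ≤ r) : d x y ≤ 14 * r := by
  have hr : 0 ≤ r := (abs_nonneg _).trans f1
  have b1 := p1 x x e1
  rw [hd.self] at b1
  have b2 := p3 x x' ⟨e2, lt⟩
  have b3 := (abs_le.1 f3).1
  have b4 := (abs_le.1 f4).1
  have b5 := abs_le.1 f1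
  have b6 := abs_le.1 f2
  obtain ⟨y₁, c1, c2⟩ := (p2 y).resolve_left (by linarith)
  obtain ⟨y₂, ⟨c3, c4⟩, c5⟩ := (p4 y).resolve_left (by linarith)
  have := key (r := 2 * r) (x := x) (x₁ := x) (x₂ := x') (y := y) (y₁ := y₁) (y₂ := y₂) hd hG ha
    h1 h2 hs ⟨by rw [hd.self]; linarith, by linarith, e1, e2, lt, by linarith⟩
    ⟨by linarith, by linarith, c1, c3, c4, by linarith [b5.2, b6.1]⟩ (by linarith) (by linarith)
    hno
  linarith

/-- **the metric core of the multi-terminal lemma** -/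
theorem mcore (m : ℕ) {L C₀ : ℝ} (hL : 1 ≤ L) (hC₀ : 0 < C₀) : ∃ C : ℝ, 0 < C ∧
    ∀ (V ι : Type) [Finite V] [Fintype ι] [Nonempty ι] (G : SimpleGraph V) (d : V → V → ℝ)
      (t : ι → V) (z : ι → ℝ), Fintype.card ι ≤ m → IsMet d → Gen G d → Pad d L →
      (∀ i j, z j ≤ z i + d (t i) (t j)) →
      (∀ i j k, ¬ IsMinor K33 (capG G (Set.range ![t i, t j, t k]))) →
      (∀ i j, ∃ (u : V → ℝ) (D : V → V → ℝ), Lip d u ∧ (∀ v, z j - d v (t j) ≤ u v) ∧
        (∀ v, u v ≤ z i + d v (t i)) ∧ IsD D ∧ (∀ a b, D a b ≤ C₀ * q d u a b) ∧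
        ∀ a b, d a b ≤ D a b + D b a) →
      ∃ (u : V → ℝ) (D : V → V → ℝ), Lip d u ∧ (∀ i, u (t i) = z i) ∧ IsD D ∧
        (∀ a b, D a b ≤ C * q d u a b) ∧ ∀ a b, d a b ≤ D a b + D b a := by
  have hm1 : (0 : ℝ) < ((m : ℝ) + 1) ^ 2 := by positivity
  refine ⟨(18432 * L * (3 * C₀ * ((m : ℝ) + 1) ^ 2) + 24576 * L ^ 2 * 200) +
    100 * (2 * (7 * ((m : ℝ) + 1) ^ 2)), by positivity, ?_⟩
  intro V ι _ _ _ G d t z hm hd hG hP hz hno hbox
  classical
  have hcard : (Fintype.card (ι × ι) : ℝ) ≤ ((m : ℝ) + 1) ^ 2 := by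
    rw [Fintype.card_prod]
    push_cast
    have h1 : (Fintype.card ι : ℝ) ≤ m := by exact_mod_cast hm
    have h2 : (0 : ℝ) ≤ Fintype.card ι := Nat.cast_nonneg _
    nlinarith
  have ldist : ∀ p : V, Lip d (fun v => d v p) := by
    intro p x y
    have := hd.tri y x p
    rw [hd.symm y x] at this
    show d y p ≤ d x p + d x y
    linarith
  -- the extreme potentials
  obtain ⟨a, ha, ha1, ha2⟩ := exists_max (d := d) (fun j v => z j - d v (t j)) fun j x y => by
    have := hd.tri x y (t j)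
    show z j - d y (t j) ≤ z j - d x (t j) + d x y
    linarith
  obtain ⟨nb, hnb, hb1, hb2⟩ := exists_max (d := d) (fun j v => -z j - d v (t j)) fun j x y => by
    have := hd.tri x y (t j)
    show -z j - d y (t j) ≤ -z j - d x (t j) + d x y
    linarith
  have hb : Lip d (fun v => -nb v) := hnb.neg hd
  have has : ∀ i v, a v ≤ z i + d v (t i) := by
    intro i v
    obtain ⟨j, hj⟩ := ha2 v
    have c1 := hz i j
    have c2 := hd.tri (t i) v (t j)
    have c3 := hd.symm v (t i)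
    linarith
  have hbs : ∀ j v, nb v ≤ -z j + d v (t j) := by
    intro j v
    obtain ⟨i, hi⟩ := hb2 v
    have c1 := hz i j
    have c2 := hd.tri (t i) v (t j)
    have c3 := hd.symm v (t i)
    linarith
  have hab : ∀ v, a v ≤ -nb v := by
    intro v
    obtain ⟨i, hi⟩ := hb2 v
    have := has i v
    linarith
  have hat : ∀ i, a (t i) = z i ∧ -nb (t i) = z i := by
    intro i
    have c1 := ha1 i (t i)
    have c2 := hb1 i (t i)
    have c3 := hab (t i)
    have c4 := hd.self (t i)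
    constructor <;> linarith
  -- the boxes and the global potential
  choose u₀ D₀ hu₀ hl₀ hr₀ hD₀ hq₀ hs₀ using hbox
  choose w hw hw1 hw2 using fun p : ι × ι => foreign ha hb (hu₀ p.1 p.2)
  obtain ⟨u, hu, hu1, hu2⟩ := average_pot w hw
  obtain ⟨Λ, hΛ0, hΛ⟩ : ∃ Λ : ℝ, 0 ≤ Λ ∧ ∀ x y, d x y ≤ Λ := by
    have : Nonempty V := ⟨t (Classical.arbitrary ι)⟩
    obtain ⟨p, hp⟩ := Finite.exists_max fun p : V × V => d p.1 p.2
    exact ⟨d p.1 p.2, hd.nonneg _ _, fun x y => hp (x, y)⟩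
  let R : ι × ι → Set V := fun p => {v | z p.1 + d v (t p.1) ≤ 2 * (-nb v) - a v ∧
    2 * a v - (-nb v) ≤ z p.2 - d v (t p.2)}
  choose g hg hg0 hg1 hg2 using fun p : ι × ι => exists_capd hd (R p)ᶜ hΛ0
  obtain ⟨ρ, hρ, hρ1, hρ2⟩ := exists_max g hg
  have hρ0 : ∀ v, 0 ≤ ρ v := fun v => by
    obtain ⟨p, hp⟩ := hρ2 v
    rw [hp]; exact hg0 p v
  obtain ⟨D₁, hD₁, k1, k2⟩ := LG (K := 200) (C := 3 * C₀ * ((m : ℝ) + 1) ^ 2) hd hL
    (by positivity) (by norm_num) hP hu (ρ := fun v => ρ v / 2)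
    (fun v => by have := hρ0 v; linarith)
    (fun x y => by
      have c1 := hρ x y
      have c2 := hd.nonneg x y
      show ρ y / 2 ≤ ρ x / 2 + d x y
      linarith)
    (fun c => by
      rcases (hρ0 c).eq_or_lt with h0 | h0
      · refine ⟨fun _ _ => 0, IsD.zero, fun x y hx hy => ?_⟩
        have e : ∀ v, d c v ≤ ρ c / 2 → v = c := by
          intro v hv
          by_contra hne
          have := hd.pos c v (Ne.symm hne)
          linarith
        rw [e x hx, e y hy]
        refine ⟨mul_nonneg (by positivity) (q_nonneg hu c c), ?_⟩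
        rw [hd.self]; norm_num
      · obtain ⟨p, hp⟩ := hρ2 c
        have hin : ∀ v, d c v ≤ ρ c / 2 → v ∈ R p := by
          intro v hv
          by_contra hn
          have := hg1 p c v hn
          linarith
        refine ⟨D₀ p.1 p.2, hD₀ _ _, fun x y hx hy => ⟨?_, hs₀ _ _ x y⟩⟩
        obtain ⟨x1, x2⟩ := hin x hx
        obtain ⟨y1, y2⟩ := hin y hy
        have c1 := hw2 p x y (x2.trans (hl₀ _ _ x)) ((hr₀ _ _ x).trans x1)
          (y2.trans (hl₀ _ _ y)) ((hr₀ _ _ y).trans y1)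
        have c2 := hu2 p x y
        have c3 := mul_le_mul_of_nonneg_right hcard (q_nonneg hu x y)
        have c4 := hq₀ p.1 p.2 x y
        have c5 : q d (u₀ p.1 p.2) x y ≤ 3 * (((m : ℝ) + 1) ^ 2 * q d u x y) := by linarith
        have c6 := mul_le_mul_of_nonneg_left c5 hC₀.le
        linarith)
  -- the free functions
  choose ga hga _ hga1 hga2 using fun j : ι => exists_capd hd {v | a v = z j - d v (t j)} hΛ0
  choose gb hgb _ hgb1 hgb2 using fun j : ι => exists_capd hd {v | nb v = -z j - d v (t j)} hΛ0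
  choose wa hwa _ hwa1 hwa2 using fun p : ι × ι => exists_capd hd
    {v | a v = z p.2 - d v (t p.2) ∧ z p.1 - d v (t p.1) < a v} hΛ0
  choose wb hwb _ hwb1 hwb2 using fun p : ι × ι => exists_capd hd
    {v | nb v = -z p.2 - d v (t p.2) ∧ -z p.1 - d v (t p.1) < nb v} hΛ0
  let f : Fin 7 × (ι × ι) → V → ℝ := fun k =>
    ![a, nb, fun v => d v (t k.2.1), ga k.2.1, gb k.2.1, wa k.2, wb k.2] k.1
  obtain ⟨D₂, hD₂, k3, k4⟩ := free_many hd hu f (by
    rintro ⟨k, p⟩
    fin_cases k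
    · exact ha
    · exact hnb
    · exact ldist _
    · exact hga _
    · exact hgb _
    · exact hwa _
    · exact hwb _)
  refine ⟨u, fun x y => D₁ x y + 100 * D₂ x y, hu, fun i => ?_,
    hD₁.add (hD₂.smul (by norm_num)), fun x y => ?_, fun x y => ?_⟩
  · refine hu1 _ _ fun p => ?_
    rw [hw1 p (t i) ((hat i).1.trans (hat i).2.symm), (hat i).1]
  · have c1 := k1 x y
    have c2 := k3 x y
    have c3 : (Fintype.card (Fin 7 × (ι × ι)) : ℝ) ≤ 7 * ((m : ℝ) + 1) ^ 2 := by
      rw [Fintype.card_prod, Fintype.card_fin]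
      push_cast
      linarith
    have c4 := mul_le_mul_of_nonneg_right c3 (q_nonneg hu x y)
    show D₁ x y + 100 * D₂ x y ≤ _
    nlinarith
  · have n1 := hD₁.nonneg x y
    have n2 := hD₁.nonneg y x
    have n3 := hD₂.nonneg x y
    have n4 := hD₂.nonneg y x
    show d x y ≤ D₁ x y + 100 * D₂ x y + (D₁ y x + 100 * D₂ y x)
    by_cases hnear : d x y ≤ 200 * (ρ x / 2)
    · have := k2 x y hnear
      linarith
    by_contra hcon
    rw [not_le] at hnear hcon
    obtain ⟨r, hr⟩ : ∃ r, r = d x y / 100 := ⟨_, rfl⟩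
    have hr0 : 0 < r := by have := hρ0 x; linarith
    have hf : ∀ k, |f k x - f k y| ≤ r := fun k => by
      have := k4 k x y
      linarith
    have hΛr : 2 * r < Λ := by have := hΛ x y; linarith
    obtain ⟨j, hj⟩ := ha2 x
    obtain ⟨i, hi⟩ := hb2 x
    have c1 := hρ1 (i, j) x
    obtain ⟨x', hx1, hx2⟩ := (hg2 (i, j) x).resolve_left (by linarith)
    have hx' : d x x' ≤ r := by linarith
    have l1 := ha.abs hd x x'
    have l2 := hnb.abs hd x x'
    have l3 := (ldist (t i)).abs hd x x'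
    have l4 := (ldist (t j)).abs hd x x'
    rw [abs_le] at l1 l2 l3 l4
    have l5 := hab x'
    have hx3 : 2 * (-nb x') - a x' < z i + d x' (t i) ∨
        z j - d x' (t j) < 2 * a x' - (-nb x') := by
      by_contra hn
      push Not at hn
      exact hx1 hn
    have hex : -nb x ≤ a x + 4 * r := by
      rcases hx3 with h | h <;> linarith [l1.1, l1.2, l2.1, l2.2, l3.1, l3.2, l4.1, l4.2]
    rcases hx3 with h | h
    · obtain ⟨l, hl⟩ := hb2 x'
      have := half (s := t j) (t₁ := t i) (t₂ := t l) (zs := -z j) (z₁ := -z i) (z₂ := -z l)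
        (x := x) (x' := x') (y := y) hd hG hnb (hb1 i) (hb1 l) (hbs j) (hno j i l) hΛr hi hl
        (by linarith) hx' (by linarith) (hgb1 i) (hgb2 i) (hwb1 (i, l)) (hwb2 (i, l))
        (hf (1, i, i)) (hf (2, j, j)) (hf (4, i, i)) (hf (6, i, l))
      linarith
    · obtain ⟨k, hk⟩ := ha2 x'
      have := half (s := t i) (t₁ := t j) (t₂ := t k) (zs := z i) (z₁ := z j) (z₂ := z k)
        (x := x) (x' := x') (y := y) hd hG ha (ha1 j) (ha1 k) (has i) (hno i j k) hΛr hj hk
        (by linarith) hx' (by linarith) (hga1 j) (hga2 j) (hwa1 (j, k)) (hwa2 (j, k))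
        (hf (0, i, i)) (hf (2, i, i)) (hf (3, j, j)) (hf (5, j, k))
      linarith

end Vale.Agent.P235G.E1
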