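import Vale.Agent.P235G.E1.Dir

/-!
P235G, block E1 (helper14): independent union of sampled sets, and one layer `u + f 1_T`.
-/

namespace Vale.Agent.P235G.E1

open Finset Vale.Agent.P235

/-- `x` or `y` is in the set `c` -/
def un {V : Type} (c : V → Bool) (x y : V) : ℝ := if c x = true ∨ c y = true then 1 else 0

/-- the same on truth values -/
def ub (p r : Bool) : ℝ := if p = true ∨ r = true then 1 else 0

theorem un_eq {V : Type} (c : V → Bool) (a b : V) : un c a b = ub (c a) (c b) := rfl

theorem un_nonneg {V : Type} (c : V → Bool) (x y : V) : 0 ≤ un c x y := by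
  unfold un; split_ifs <;> norm_num

theorem un_comm {V : Type} (c : V → Bool) (x y : V) : un c x y = un c y x := by
  unfold un; simp only [or_comm]

/-- the union of independently sampled sets -/
theorem sample {V I : Type} (s : Finset I) (S : I → V → Bool) (p : I → ℝ) (hp0 : ∀ i, 0 ≤ p i)
    (hp1 : ∀ i, p i ≤ 1) :
    ∃ (Ω : Type) (_ : Fintype Ω) (π : Ω → ℝ) (T : Ω → V → Bool),
      (∀ ω, 0 ≤ π ω) ∧ ∑ ω, π ω = 1 ∧
      (∀ a b, ∑ ω, π ω * dc (T ω) a b ≤ ∑ i ∈ s, p i * dc (S i) a b) ∧
      (∀ x y, ∑ ω, π ω * un (T ω) x y ≤ ∑ i ∈ s, p i * un (S i) x y) ∧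
      ∀ x y, (1 - ∑ i ∈ s, p i * un (S i) x y) * ∑ i ∈ s, p i * dc (S i) x y ≤
        ∑ ω, π ω * dc (T ω) x y := by
  classical
  induction s using Finset.induction_on with
  | empty =>
    refine ⟨Unit, inferInstance, fun _ => 1, fun _ _ => false, fun _ => zero_le_one, by simp,
      fun a b => by simp [dc], fun a b => by simp [un], fun a b => by simp [dc]⟩
  | insert j s hj ih =>
    obtain ⟨Ω, _, π, T, h0, h1, h2, h3, h4⟩ := ih
    have hj0 := hp0 j
    have hj1 := hp1 j
    -- expectations for the new law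
    have key : ∀ φ : (V → Bool) → ℝ,
        ∑ ω : Ω × Bool, (π ω.1 * if ω.2 = true then p j else 1 - p j) *
          φ (fun v => T ω.1 v || (ω.2 && S j v)) =
        p j * ∑ ω, π ω * φ (fun v => T ω v || S j v) + (1 - p j) * ∑ ω, π ω * φ (T ω) := by
      intro φ
      rw [Fintype.sum_prod_type, Finset.mul_sum, Finset.mul_sum, ← Finset.sum_add_distrib]
      refine Finset.sum_congr rfl fun ω _ => ?_
      rw [Fintype.sum_bool]
      simp only [if_true, Bool.true_and, Bool.false_eq_true, if_false, Bool.false_and,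
        Bool.or_false]
      ring
    have mono : ∀ φ ψ : Ω → ℝ, (∀ ω, φ ω ≤ ψ ω) → ∑ ω, π ω * φ ω ≤ ∑ ω, π ω * ψ ω :=
      fun φ ψ h => Finset.sum_le_sum fun ω _ => mul_le_mul_of_nonneg_left (h ω) (h0 ω)
    have addc : ∀ (φ : Ω → ℝ) (k : ℝ), ∑ ω, π ω * (φ ω + k) = ∑ ω, π ω * φ ω + k := by
      intro φ k
      simp only [mul_add, Finset.sum_add_distrib]
      rw [← Finset.sum_mul, h1, one_mul]
    have hτ : ∀ x y, 0 ≤ ∑ i ∈ s, p i * dc (S i) x y := fun x y =>
      Finset.sum_nonneg fun i _ => mul_nonneg (hp0 i) (dc_nonneg _ _ _)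
    refine ⟨Ω × Bool, inferInstance, fun ω => π ω.1 * if ω.2 = true then p j else 1 - p j,
      fun ω v => T ω.1 v || (ω.2 && S j v), fun ω => ?_, ?_, fun a b => ?_, fun a b => ?_,
      fun x y => ?_⟩
    · refine mul_nonneg (h0 _) ?_
      split_ifs
      · exact hj0
      · linarith
    · have := key fun _ => 1
      simp only [mul_one] at this
      rw [this, h1]; ring
    · rw [key fun c => dc c a b, Finset.sum_insert hj]
      have a1 := mono (fun ω => dc (fun v => T ω v || S j v) a b)
        (fun ω => dc (T ω) a b + dc (S j) a b) fun ω => by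
          simp only [dc_eq]
          cases T ω a <;> cases T ω b <;> cases S j a <;> cases S j b <;> norm_num [db]
      rw [addc] at a1
      have a2 := mul_le_mul_of_nonneg_left a1 hj0
      have a3 := h2 a b
      nlinarith
    · rw [key fun c => un c a b, Finset.sum_insert hj]
      have a1 := mono (fun ω => un (fun v => T ω v || S j v) a b)
        (fun ω => un (T ω) a b + un (S j) a b) fun ω => by
          simp only [un_eq]
          cases T ω a <;> cases T ω b <;> cases S j a <;> cases S j b <;> norm_num [ub]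
      rw [addc] at a1
      have a2 := mul_le_mul_of_nonneg_left a1 hj0
      have a3 := h3 a b
      nlinarith
    · rw [key fun c => dc c x y, Finset.sum_insert hj, Finset.sum_insert hj]
      have a3 := h3 x y
      have a4 := h4 x y
      have a5 := hτ x y
      obtain ⟨A, hA⟩ : ∃ A, A = ∑ ω, π ω * dc (T ω) x y := ⟨_, rfl⟩
      obtain ⟨σ, hσ⟩ : ∃ σ, σ = ∑ i ∈ s, p i * un (S i) x y := ⟨_, rfl⟩
      obtain ⟨τ, hτ'⟩ : ∃ τ, τ = ∑ i ∈ s, p i * dc (S i) x y := ⟨_, rfl⟩
      have hA0 : 0 ≤ A := hA ▸ Finset.sum_nonneg fun ω _ => mul_nonneg (h0 ω) (dc_nonneg _ _ _)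
      have hσ0 : 0 ≤ σ := hσ ▸ Finset.sum_nonneg fun i _ => mul_nonneg (hp0 i) (un_nonneg _ _ _)
      rw [← hA, ← hσ, ← hτ'] at a4
      rw [← hτ'] at a5
      rw [← hσ] at a3
      rw [← hA, ← hσ, ← hτ']
      cases hy : S j y
      · cases hx : S j x
        · have e1 : ∑ ω, π ω * dc (fun v => T ω v || S j v) x y = A := by
            rw [hA]
            refine Finset.sum_congr rfl fun ω _ => ?_
            simp only [dc_eq, hx, hy, Bool.or_false]
          have e2 : un (S j) x y = 0 := by simp [un, hx, hy]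
          have e3 : dc (S j) x y = 0 := by simp [dc, hx]
          rw [e1, e2, e3]
          nlinarith
        · have e1 : A + (1 - σ) ≤ ∑ ω, π ω * dc (fun v => T ω v || S j v) x y := by
            have b1 : ∑ ω, π ω * dc (fun v => T ω v || S j v) x y =
                ∑ ω, π ω * ((dc (T ω) x y - un (T ω) x y) + 1) := by
              refine Finset.sum_congr rfl fun ω _ => ?_
              simp only [dc_eq, un_eq, hx, hy, Bool.or_false, Bool.or_true]
              cases T ω x <;> cases T ω y <;> norm_num [db, ub]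
            rw [b1, addc]
            simp only [mul_sub, Finset.sum_sub_distrib]
            rw [← hA]
            linarith
          have e2 : un (S j) x y = 1 := by simp [un, hx]
          have e3 : dc (S j) x y = 1 := by simp [dc, hx, hy]
          rw [e2, e3]
          have e4 := mul_le_mul_of_nonneg_left e1 hj0
          nlinarith [mul_nonneg hj0 hj0, mul_nonneg hj0 a5]
      · have e1 : 0 ≤ ∑ ω, π ω * dc (fun v => T ω v || S j v) x y :=
          Finset.sum_nonneg fun ω _ => mul_nonneg (h0 ω) (dc_nonneg _ _ _)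
        have e2 : un (S j) x y = 1 := by simp [un, hy]
        have e3 : dc (S j) x y = 0 := by simp [dc, hy]
        rw [e2, e3]
        have e4 := mul_nonneg hj0 e1
        have e5 := mul_le_mul_of_nonneg_left a4 (by linarith : 0 ≤ 1 - p j)
        nlinarith [mul_nonneg (mul_nonneg hj0 hσ0) a5]

/-- clusters `cen` with a height function `f` which vanishes at their boundaries -/
structure Clu {V : Type} (d : V → V → ℝ) (cen : V → V) (f : V → ℝ) : Prop where
  nn : ∀ a, 0 ≤ f a
  lip : ∀ a b, f a ≤ f b + d a b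
  bd : ∀ a b, cen a ≠ cen b → f a ≤ d a b

open Classical in
/-- one layer: the level cuts of `u + f 1_T` -/
theorem layer {V I : Type} [Finite V] [Fintype I] {d : V → V → ℝ} (hd : IsMet d) {u : V → ℝ}
    (hu : Lip d u) {cen : V → V} {f : V → ℝ} (hf : Clu d cen f) (S : I → V → Bool) (p : I → ℝ)
    (hp0 : ∀ i, 0 ≤ p i) (hp1 : ∀ i, p i ≤ 1) :
    ∃ D, IsD D ∧
      (∀ a b, D a b ≤ q d u a b + if cen a = cen b then f a * ∑ i, p i * dc (S i) a b else 0) ∧
      ∀ x y, f x * ((1 - ∑ i, p i * un (S i) x y) * ∑ i, p i * dc (S i) x y) +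
        f y * ((1 - ∑ i, p i * un (S i) x y) * ∑ i, p i * dc (S i) y x) ≤
          D x y + D y x + |u x - u y| := by
  obtain ⟨Ω, _, π, T, h0, h1, h2, -, h4⟩ := sample Finset.univ S p hp0 hp1
  let g : Ω → V → ℝ := fun ω v => if T ω v = true then f v else 0
  have addc : ∀ (φ : Ω → ℝ) (k : ℝ), ∑ ω, π ω * (k + φ ω) = k + ∑ ω, π ω * φ ω := by
    intro φ k
    simp only [mul_add, Finset.sum_add_distrib]
    rw [← Finset.sum_mul, h1, one_mul]
  refine ⟨fun a b => ∑ ω, π ω * max ((u a + g ω a) - (u b + g ω b)) 0,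
    IsD.sum _ (fun ω a b => π ω * max ((u a + g ω a) - (u b + g ω b)) 0) fun ω _ =>
      (isD_line fun a => u a + g ω a).smul (h0 ω), fun a b => ?_, fun x y => ?_⟩
  · have hq := q_nonneg hu a b
    have hd0 := hd.nonneg a b
    have a1 : ∀ ω, max ((u a + g ω a) - (u b + g ω b)) 0 ≤
        q d u a b + if cen a = cen b then f a * dc (T ω) a b else 0 := by
      intro ω
      have b0 : 0 ≤ if cen a = cen b then f a * dc (T ω) a b else 0 := by
        split_ifs
        · exact mul_nonneg (hf.nn a) (dc_nonneg _ _ _)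
        · exact le_rfl
      refine max_le ?_ (by linarith)
      have b1 := hf.lip a b
      have b2 := hf.nn b
      have b3 := hf.nn a
      unfold q
      simp only [g]
      cases ha : T ω a
      · simp only [Bool.false_eq_true, if_false]
        split_ifs at b0 ⊢ <;> linarith
      · cases hb : T ω b
        · by_cases hc : cen a = cen b
          · simp [hc, dc, ha, hb]
            linarith
          · have := hf.bd a b hc
            simp [hc]
            linarith
        · simp only [if_true]
          linarith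
    refine (Finset.sum_le_sum fun ω _ => mul_le_mul_of_nonneg_left (a1 ω) (h0 ω)).trans ?_
    rw [addc]
    by_cases hc : cen a = cen b
    · simp only [hc, if_true]
      have a2 : ∑ ω, π ω * (f a * dc (T ω) a b) = f a * ∑ ω, π ω * dc (T ω) a b := by
        rw [Finset.mul_sum]
        exact Finset.sum_congr rfl fun ω _ => by ring
      rw [a2]
      have := mul_le_mul_of_nonneg_left (h2 a b) (hf.nn a)
      linarith
    · simp [hc]
  · have a1 := mul_le_mul_of_nonneg_left (h4 x y) (hf.nn x)
    have a2 := mul_le_mul_of_nonneg_left (h4 y x) (hf.nn y)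
    have e : ∑ i, p i * un (S i) y x = ∑ i, p i * un (S i) x y :=
      Finset.sum_congr rfl fun i _ => by rw [un_comm]
    rw [e] at a2
    have a3 : ∀ ω, f x * dc (T ω) x y + f y * dc (T ω) y x ≤ |u x - u y| +
        (max ((u x + g ω x) - (u y + g ω y)) 0 + max ((u y + g ω y) - (u x + g ω x)) 0) := by
      intro ω
      rw [max_add_max]
      have b1 : |g ω x - g ω y| ≤ |u x + g ω x - (u y + g ω y)| + |u x - u y| := by
        have := abs_sub (u x + g ω x - (u y + g ω y)) (u x - u y)
        have e : u x + g ω x - (u y + g ω y) - (u x - u y) = g ω x - g ω y := by ring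
        rwa [e] at this
      have b2 : f x * dc (T ω) x y + f y * dc (T ω) y x ≤ |g ω x - g ω y| := by
        simp only [g, dc_eq]
        cases T ω x <;> cases T ω y <;> simp [db, le_abs_self]
      linarith
    have a4 := Finset.sum_le_sum fun ω (_ : ω ∈ Finset.univ) =>
      mul_le_mul_of_nonneg_left (a3 ω) (h0 ω)
    rw [addc] at a4
    have e1 : ∑ ω, π ω * (f x * dc (T ω) x y + f y * dc (T ω) y x) =
        f x * ∑ ω, π ω * dc (T ω) x y + f y * ∑ ω, π ω * dc (T ω) y x := by
      rw [Finset.mul_sum, Finset.mul_sum, ← Finset.sum_add_distrib]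
      exact Finset.sum_congr rfl fun ω _ => by ring
    have e2 : ∑ ω, π ω * (max ((u x + g ω x) - (u y + g ω y)) 0 +
        max ((u y + g ω y) - (u x + g ω x)) 0) =
        ∑ ω, π ω * max ((u x + g ω x) - (u y + g ω y)) 0 +
        ∑ ω, π ω * max ((u y + g ω y) - (u x + g ω x)) 0 := by
      rw [← Finset.sum_add_distrib]
      exact Finset.sum_congr rfl fun ω _ => by ring
    rw [e1, e2] at a4
    show _ ≤ ∑ ω, _ + ∑ ω, _ + _
    linarith

end Vale.Agent.P235G.E1
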