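import Vale.Agent.P235G.E1.HDefs
import Vale.Agent.P235L.Main
import Vale.Agent.P235.K5.EX.H719.EI
import Vale.Agent.P235.K5.EX.H452.All
import Vale.Agent.P235.K5.EX.H452.E7
import Vale.Agent.P235.K5.EX.H371.PX2
import Vale.Agent.P235.K5.H477.EX
import Vale.Agent.P235.K5.H266.Conn
import Vale.Agent.P235.K5.H266.MixCore
import Vale.Agent.P235.K5.H281.Q4
import Vale.Agent.P235.K5.H439.Small
import Vale.Agent.P235.ST.H742.TwGlue

/-! P235: sums along cliques with at most three vertices of graphs on surfaces, of graphs of bounded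
treewidth and (along at most one vertex) of almost embeddable graphs. -/

namespace Vale.Agent.P235G.E1

open SimpleGraph hiding Free
open Vale.Agent.P235 Vale.Agent.P235.H134 Vale.Agent.P235.K5 Vale.Agent.P235U Vale.Agent.P235L
open Vale.Agent.P235.H56
open Vale.Agent.P235.H350 (QuasiFour)
open Vale.Agent.P235.K5.H477 (GluePieceX)
open Vale.Agent.P235.K5.H281

/-- graphs on a surface are `EdgeIso` -/
def SurfIso : Prop := ∀ g : ℕ, ∃ C : ℝ, 1 ≤ C ∧ ∀ (V : Type) [Finite V] (G : SimpleGraph V),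
  G.Connected → OnSurface g G → EdgeIso G C

/-- lengths on a connected subgraph extend to the whole graph without changing distances -/
theorem ext_len {V W : Type} [Finite V] [Finite W] {G : SimpleGraph V}
    {H : SimpleGraph W} (f : W → V) (hf : Function.Injective f)
    (hadj : ∀ a b, H.Adj a b → G.Adj (f a) (f b)) (hG : G.Connected) (hH : H.Connected)
    (ℓ' : Sym2 W → ℝ) (hℓ' : ∀ e ∈ H.edgeSet, 0 < ℓ' e) :
    ∃ ℓ : Sym2 V → ℝ, (∀ e ∈ G.edgeSet, 0 < ℓ e) ∧
      ∀ x y, pathDist G ℓ (f x) (f y) = pathDist H ℓ' x y := by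
  classical
  have : Fintype W := Fintype.ofFinite W
  have hd' := pathDist_isMet hH hℓ'
  let L : ℝ := 1 + ∑ x : W, ∑ y : W, pathDist H ℓ' x y
  have hL : ∀ x y : W, pathDist H ℓ' x y ≤ L := by
    intro x y
    have h1 : pathDist H ℓ' x y ≤ ∑ y : W, pathDist H ℓ' x y :=
      Finset.single_le_sum (f := fun y => pathDist H ℓ' x y) (fun _ _ => hd'.nonneg _ _)
        (Finset.mem_univ y)
    have h2 : ∑ y : W, pathDist H ℓ' x y ≤ ∑ x : W, ∑ y : W, pathDist H ℓ' x y :=
      Finset.single_le_sum (f := fun x => ∑ y : W, pathDist H ℓ' x y)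
        (fun _ _ => Finset.sum_nonneg fun _ _ => hd'.nonneg _ _) (Finset.mem_univ x)
    simp only [L]
    linarith
  have hL0 : 0 < L := by
    have : 0 ≤ ∑ x : W, ∑ y : W, pathDist H ℓ' x y :=
      Finset.sum_nonneg fun _ _ => Finset.sum_nonneg fun _ _ => hd'.nonneg _ _
    simp only [L]
    linarith
  let ℓ : Sym2 V → ℝ := fun e =>
    if he : ∃ e' ∈ H.edgeSet, e'.map f = e then ℓ' he.choose else L
  have hinj : Function.Injective (Sym2.map f) := Sym2.map.injective hf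
  have hℓH : ∀ e' ∈ H.edgeSet, ℓ (e'.map f) = ℓ' e' := by
    intro e' he'
    have hex : ∃ e'' ∈ H.edgeSet, e''.map f = e'.map f := ⟨e', he', rfl⟩
    have h1 : ℓ (e'.map f) = ℓ' hex.choose := dif_pos hex
    rw [h1, hinj hex.choose_spec.2]
  have hℓ : ∀ e ∈ G.edgeSet, 0 < ℓ e := by
    intro e _
    by_cases he : ∃ e' ∈ H.edgeSet, e'.map f = e
    · have h1 : ℓ e = ℓ' he.choose := dif_pos he
      rw [h1]
      exact hℓ' _ he.choose_spec.1
    · have h1 : ℓ e = L := dif_neg he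
      rw [h1]
      exact hL0
  have hd := pathDist_isMet hG hℓ
  have hup : ∀ x y, pathDist G ℓ (f x) (f y) ≤ pathDist H ℓ' x y := by
    intro x y
    have := pathDist_semi (G := H) (ℓ := ℓ') (ρ := fun x y => pathDist G ℓ (f x) (f y)) (K := 1)
      hH one_pos (fun x => hd.self _) (fun x y z => hd.tri _ _ _) (fun u v huv => by
        have h1 := pathDist_adj hℓ (hadj u v huv)
        have h2 := hℓH s(u, v) (H.mem_edgeSet.mpr huv)
        rw [Sym2.map_mk] at h2
        rw [one_mul, ← h2]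
        exact h1) x y
    rwa [one_mul] at this
  have hlow : ∀ x y, pathDist H ℓ' x y ≤ pathDist G ℓ (f x) (f y) := by
    intro x y
    let φ : V → ℝ := fun v => if hv : ∃ w, f w = v then pathDist H ℓ' x hv.choose else 0
    have hφf : ∀ w, φ (f w) = pathDist H ℓ' x w := by
      intro w
      have hex : ∃ w', f w' = f w := ⟨w, rfl⟩
      have h1 : φ (f w) = pathDist H ℓ' x hex.choose := dif_pos hex
      rw [h1, hf hex.choose_spec]
    have hφ : ∀ v, 0 ≤ φ v ∧ φ v ≤ L := by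
      intro v
      by_cases hv : ∃ w, f w = v
      · obtain ⟨w, rfl⟩ := hv
        rw [hφf]
        exact ⟨hd'.nonneg _ _, hL _ _⟩
      · have h1 : φ v = 0 := dif_neg hv
        rw [h1]
        exact ⟨le_rfl, hL0.le⟩
    have h1 := pathDist_gen (ℓ := ℓ) hG (f := φ) (fun a b hab => by
      by_cases he : ∃ e' ∈ H.edgeSet, e'.map f = s(a, b)
      · obtain ⟨e', he', hee⟩ := he
        induction e' using Sym2.inductionOn with
        | hf u v =>
          have huv : H.Adj u v := H.mem_edgeSet.mp he'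
          have h3 : ℓ s(a, b) = ℓ' s(u, v) := by rw [← hee]; exact hℓH _ he'
          have h4 := pathDist_adj hℓ' huv
          have h5 := hd'.tri x u v
          have h6 := hd'.tri x v u
          rw [hd'.symm v u] at h6
          have h7 : |pathDist H ℓ' x u - pathDist H ℓ' x v| ≤ ℓ' s(u, v) := by
            rw [abs_le]; constructor <;> linarith
          rw [h3]
          rw [Sym2.map_mk, Sym2.eq_iff] at hee
          rcases hee with ⟨h8, h9⟩ | ⟨h8, h9⟩
          · rw [← h8, ← h9, hφf, hφf]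
            exact h7
          · rw [← h8, ← h9, hφf, hφf, abs_sub_comm]
            exact h7
      · have h3 : ℓ s(a, b) = L := dif_neg he
        rw [h3, abs_le]
        constructor <;> linarith [(hφ a).1, (hφ a).2, (hφ b).1, (hφ b).2]) (f x) (f y)
    rw [hφf, hφf, hd'.self, zero_sub, abs_neg] at h1
    exact (le_abs_self _).trans h1
  exact ⟨ℓ, hℓ, fun x y => le_antisymm (hup x y) (hlow x y)⟩

/-- `EdgeIso` passes to connected subgraphs -/
theorem edgeIso_emb {V W : Type} [Finite V] [Finite W] {G : SimpleGraph V}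
    {H : SimpleGraph W} {C : ℝ} (f : W → V) (hf : Function.Injective f)
    (hadj : ∀ a b, H.Adj a b → G.Adj (f a) (f b)) (hG : G.Connected) (hH : H.Connected)
    (h : EdgeIso G C) : EdgeIso H C := by
  intro ℓ' hℓ' s t hst
  obtain ⟨ℓ, hℓ, e⟩ := ext_len f hf hadj hG hH ℓ' hℓ'
  obtain ⟨Ω, m, μ, φ, h1, h2⟩ := h ℓ hℓ (f s) (f t) (hadj s t hst)
  refine ⟨Ω, m, μ, fun w => φ (f w), by rw [← e]; exact h1, fun x y => ?_⟩
  rw [← e]
  exact h2 _ _

theorem drawn_iso (hE : SurfIso) (g : ℕ) : ∃ C : ℝ, 1 ≤ C ∧ ∀ (W : Type) [Finite W]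
    (B : SimpleGraph W), B.Connected → Drawn g B → EdgeIso B C := by
  obtain ⟨C, hC, h⟩ := hE g
  refine ⟨C, hC, ?_⟩
  rintro W _ B hB ⟨U, _, K, f, hK, hs, hf, hfa⟩
  exact edgeIso_emb f hf hfa hK hB (h U K hK hs)

theorem spiece_iso (hE : SurfIso) (g k : ℕ) : ∃ C : ℝ, 1 ≤ C ∧ ∀ (W : Type) [Finite W]
    (B : SimpleGraph W), B.Connected → SPiece g k B → EdgeIso B C := by
  obtain ⟨C, hC, h⟩ := drawn_iso hE g
  obtain ⟨K, -, hK⟩ := ST.H742.tw_edgeIso k
  refine ⟨max C K, hC.trans (le_max_left _ _), fun W _ B hB hp => ?_⟩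
  rcases hp with hp | hp
  · exact ST.H626.EdgeIso.mono' (h W B hB hp) (le_max_left _ _)
  · exact ST.H626.EdgeIso.mono' (hK W B hB hp) (le_max_right _ _)

theorem quasiFour_of {V : Type} {G : SimpleGraph V} (h : Quasi4 G) : QuasiFour G := by
  refine ⟨h.1, fun S C D hS hCD hC hD hcov hno => ?_⟩
  obtain ⟨x, y, z, -, -, -, rfl⟩ := Set.ncard_eq_three.1 hS
  refine h.2 ![x, y, z] C D ⟨hCD, ?_, ?_, ?_, hno⟩
  · intro i hi
    refine Set.disjoint_left.1 hC hi ?_
    fin_cases i <;> simp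
  · intro i hi
    refine Set.disjoint_left.1 hD hi ?_
    fin_cases i <;> simp
  · intro v
    rcases hcov v with h1 | h1 | h1 | h1 | h1
    · exact Or.inl h1
    · exact Or.inr (Or.inl h1)
    · exact Or.inr (Or.inr ⟨0, h1⟩)
    · exact Or.inr (Or.inr ⟨1, h1⟩)
    · exact Or.inr (Or.inr ⟨2, h1⟩)

theorem ncard_sub' {V : Type} [Finite V] (X R : Set V) :
    ({x : X | (x : V) ∈ R}).ncard ≤ R.ncard := by
  rw [← Set.ncard_image_of_injective _ Subtype.val_injective]
  refine Set.ncard_le_ncard ?_ (Set.toFinite _)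
  rintro _ ⟨x, hx, rfl⟩
  exact hx

/-- a piece is a rooted sum of `EdgeIso` graphs -/
theorem piece_rooted (hE : SurfIso) (g k : ℕ) (C : ℝ) : ∃ M : ℝ, 1 ≤ M ∧ C ≤ M ∧
    ∀ (V : Type) [Finite V] (H : SimpleGraph V) (B R : Set V), R ⊆ B →
      (∀ u ∈ R, ∀ v ∈ R, u ≠ v → H.Adj u v) → R.ncard ≤ 3 → (H.induce B).Connected →
      (SPiece g k (H.induce B) ∨ QPiece g k (H.induce B)) →
      RootedOn 3 (fun _ G _ => G.Connected ∧ EdgeIso G M) H B R := by
  obtain ⟨c, hc, hc1, hsm⟩ := H439.small_edgeExact 4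
  obtain ⟨K, hK1, hK⟩ := spiece_iso hE g k
  refine ⟨max C (max K (1 / c)), hK1.trans ((le_max_left _ _).trans (le_max_right _ _)),
    le_max_left _ _, ?_⟩
  set M : ℝ := max C (max K (1 / c)) with hM
  have e3 : K ≤ M := (le_max_left _ _).trans (le_max_right _ _)
  have e4 : 1 / c ≤ M := (le_max_right _ _).trans (le_max_right _ _)
  intro V _ H B R hRB hcl hR hc' hp
  rcases hp with h | h
  · exact RootedOn.single hRB ⟨hc', ST.H626.EdgeIso.mono' (hK _ _ hc' h) e3⟩
  · refine H266.rooted_imp (P := PM (H.induce B)) (RootedOn.of_induce (pm_iso _) hRB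
      (rooted4 _ _ B (H.induce B) {x | (x : V) ∈ R} (Nat.lt_succ_self _) hc'
        (minor_refl _) ?_ ?_)) ?_
    · intro u hu v hv huv
      exact hcl u hu v hv fun e => huv (Subtype.ext e)
    · exact (ncard_sub' B R).trans hR
    · rintro W K' T ⟨h1, h2, h3 | h3, -⟩
      · exact ⟨h1, ST.H626.EdgeIso.mono' ((hsm W K' (by omega)).edgeIso hc h1) e4⟩
      · exact ⟨h1, ST.H626.EdgeIso.mono' (hK W K' h1 (h W K' h1 (quasiFour_of h3) h2)) e3⟩

/-- **Sums along cliques with at most three vertices.** -/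
theorem sums (hE : SurfIso) (a g p w k : ℕ) : ∃ C : ℝ, 1 ≤ C ∧ ∀ (V : Type) [Finite V]
    (G H : SimpleGraph V), G ≤ H → G.Connected →
    (CliqueSum 3 (fun _ B _ => SPiece g k B ∨ QPiece g k B) H → EdgeIso G C ∧ Bd G C) ∧
    (CliqueSum 3 (fun _ B R => SPiece g k B ∨ QPiece g k B ∨
      R.ncard ≤ 1 ∧ AlmostEmb a g p w B) H → Bd G C) := by
  obtain ⟨C, hC⟩ := almost a g p w
  obtain ⟨M, hM1, hCM, hM⟩ := piece_rooted hE g k C
  obtain ⟨K1, hK11, hK1⟩ := EX.H719.ei' EX.H452.px3 EX.H371.px2 M hM1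
  obtain ⟨K2, hK2⟩ := H477.sumX (q := EX.H452.qSL) H477.half_SLq
    (fun _ hc hc1 => EX.H452.pieceSL EX.H452.px3 EX.H371.px2 hc hc1) M
  refine ⟨max K1 K2, hK11.trans (le_max_left _ _), fun V _ G H hGH hG => ⟨fun h => ?_, fun h => ?_⟩⟩
  · have := hG.nonempty
    obtain ⟨n, B, hB, hp⟩ := H266.cliqueSum_conn (hG.mono hGH).preconnected h
    obtain ⟨H', hHH', hS⟩ := H266.refine_sum (P := fun _ G _ => G.Connected ∧ EdgeIso G M) hB
      fun s hs => hM V H (B s) (Adh B s) (fun v hv => hv.1) (hB.clique s hs) (hB.card s hs)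
        (hp s hs).1 (hp s hs).2
    have h1 := hK1 V G H' (hGH.trans hHH') hG hS
    exact ⟨ST.H626.EdgeIso.mono' h1.1 (le_max_left _ _),
      bd_of hG (h1.2.mono (le_max_left _ _))⟩
  · have := hG.nonempty
    obtain ⟨n, B, hB, hp⟩ := H266.cliqueSum_conn (hG.mono hGH).preconnected h
    obtain ⟨H', hHH', hS⟩ := H266.refine_sum (P := GluePieceX M) hB fun s hs => by
      have hsub : Adh B s ⊆ B s := fun v hv => hv.1
      obtain ⟨h1, h | h | ⟨h2, h3⟩⟩ := hp s hs
      · exact H266.rooted_imp (hM V H (B s) (Adh B s) hsub (hB.clique s hs) (hB.card s hs) h1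
          (Or.inl h)) fun _ _ _ h => ⟨h.1, Or.inr h.2⟩
      · exact H266.rooted_imp (hM V H (B s) (Adh B s) hsub (hB.clique s hs) (hB.card s hs) h1
          (Or.inr h)) fun _ _ _ h => ⟨h.1, Or.inr h.2⟩
      · exact RootedOn.single hsub ⟨h1, Or.inl ⟨h2, (hC _ _ h1 h3).mono hCM⟩⟩
    exact bd_of hG ((hK2 V G H' (hGH.trans hHH') hG hS).mono (le_max_right _ _))

end Vale.Agent.P235G.E1
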